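import Vale.Agent.P067.Cob.Complex

/-!
Pattern groups, the groups `Gam` and `GG`, their vertex subgroups and the two coset complexes.
-/

namespace Vale.Agent.P067.Cob

open Finset Polynomial

open scoped Classical

section Pattern

variable {ι : Type*} [Fintype ι] [DecidableEq ι] {A : Type*} [CommRing A]

/-- Matrices whose off-diagonal entries outside the relation lie in an ideal. -/
def patAlg (J : Ideal A) (r : ι → ι → Prop) (hr : ∀ a b c, r a b → r b c → r a c) :
    Subalgebra A (Matrix ι ι A) where
  carrier := {M | ∀ m l, m ≠ l → ¬ r m l → M m l ∈ J}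
  mul_mem' {M N} hM hN m l hne hml := by
    rw [Matrix.mul_apply]
    refine J.sum_mem fun q _ => ?_
    by_cases h1 : m = q
    · subst h1
      exact J.mul_mem_left _ (hN _ _ hne hml)
    by_cases h2 : q = l
    · subst h2
      exact J.mul_mem_right _ (hM _ _ hne hml)
    by_cases h3 : r m q
    · exact J.mul_mem_left _ (hN _ _ h2 fun h4 => hml (hr _ _ _ h3 h4))
    · exact J.mul_mem_right _ (hM _ _ h1 h3)
  add_mem' hM hN m l hne hml := J.add_mem (hM _ _ hne hml) (hN _ _ hne hml)
  algebraMap_mem' a m l hne _ := by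
    simp [Matrix.algebraMap_matrix_apply, hne]

theorem inv_mem_subalgebra (S : Subalgebra A (Matrix ι ι A))
    (g : Matrix.SpecialLinearGroup ι A) (h : (g : Matrix ι ι A) ∈ S) :
    ((g⁻¹ : Matrix.SpecialLinearGroup ι A) : Matrix ι ι A) ∈ S := by
  set M : Matrix ι ι A := (g : Matrix ι ι A) with hM
  set c := M.charpoly with hc
  have h0 : Polynomial.aeval M c = 0 := Matrix.aeval_self_charpoly M
  rw [← Polynomial.X_mul_divX_add c, map_add, map_mul, Polynomial.aeval_X, Polynomial.aeval_C,
    Algebra.algebraMap_eq_smul_one] at h0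
  have hdet : (1 : A) = (-1) ^ Fintype.card ι * c.coeff 0 := by
    rw [hc, ← Matrix.det_eq_sign_charpoly_coeff, hM, g.2]
  set q := Polynomial.aeval M c.divX with hq
  have hMq : M * q = -(c.coeff 0 • (1 : Matrix ι ι A)) := eq_neg_of_add_eq_zero_left h0
  have hinv : ((g⁻¹ : Matrix.SpecialLinearGroup ι A) : Matrix ι ι A) * M = 1 := by
    rw [hM, ← Matrix.SpecialLinearGroup.coe_mul, inv_mul_cancel, Matrix.SpecialLinearGroup.coe_one]
  have hfin : q = -(c.coeff 0 • ((g⁻¹ : Matrix.SpecialLinearGroup ι A) : Matrix ι ι A)) := by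
    calc q = (((g⁻¹ : Matrix.SpecialLinearGroup ι A) : Matrix ι ι A) * M) * q := by
          rw [hinv, one_mul]
      _ = _ := by rw [mul_assoc, hMq, mul_neg, mul_smul_comm, mul_one]
  have hqS : q ∈ S := by
    rw [hq]
    exact (Algebra.adjoin_le (Set.singleton_subset_iff.2 h))
      (Polynomial.aeval_mem_adjoin_singleton A M)
  have key : ((g⁻¹ : Matrix.SpecialLinearGroup ι A) : Matrix ι ι A)
      = (-((-1) ^ Fintype.card ι : A)) • q := by
    rw [hfin, neg_smul_neg, smul_smul, ← hdet, one_smul]
  rw [key]
  exact S.smul_mem hqS _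

/-- Special matrices congruent to unitriangular ones of pattern `r` modulo the ideal `J`. -/
def Pat (J : Ideal A) (r : ι → ι → Prop) (hr : ∀ a b c, r a b → r b c → r a c)
    (has : ∀ a b, r a b → ¬ r b a) :
    Subgroup (Matrix.SpecialLinearGroup ι A) where
  carrier := {g | (g : Matrix ι ι A) ∈ patAlg J r hr ∧ ∀ m, g m m - 1 ∈ J}
  one_mem' := by
    refine ⟨?_, fun m => ?_⟩
    · rw [Matrix.SpecialLinearGroup.coe_one]
      exact Subalgebra.one_mem _
    · simp
  mul_mem' {g h} hg hh := by
    refine ⟨?_, fun m => ?_⟩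
    · rw [Matrix.SpecialLinearGroup.coe_mul]
      exact Subalgebra.mul_mem _ hg.1 hh.1
    · rw [Matrix.SpecialLinearGroup.coe_mul, Matrix.mul_apply,
        ← Finset.add_sum_erase _ _ (Finset.mem_univ m), add_sub_right_comm]
      refine J.add_mem ?_ (J.sum_mem fun q hq => ?_)
      · have : g m m * h m m - 1 = (g m m - 1) * h m m + (h m m - 1) := by ring
        rw [this]
        exact J.add_mem (J.mul_mem_right _ (hg.2 m)) (hh.2 m)
      · have hqm : q ≠ m := (Finset.mem_erase.1 hq).1
        by_cases h3 : r m q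
        · exact J.mul_mem_left _ (hh.1 _ _ hqm (has _ _ h3))
        · exact J.mul_mem_right _ (hg.1 _ _ (Ne.symm hqm) h3)
  inv_mem' {g} hg := by
    have hi := inv_mem_subalgebra (patAlg J r hr) g hg.1
    refine ⟨hi, fun m => ?_⟩
    have h1 : ((g * g⁻¹ : Matrix.SpecialLinearGroup ι A) : Matrix ι ι A) m m = 1 := by simp
    rw [Matrix.SpecialLinearGroup.coe_mul, Matrix.mul_apply,
      ← Finset.add_sum_erase _ _ (Finset.mem_univ m)] at h1
    set x := ((g⁻¹ : Matrix.SpecialLinearGroup ι A) : Matrix ι ι A) m m with hx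
    set rest := ∑ q ∈ Finset.univ.erase m,
      g m q * ((g⁻¹ : Matrix.SpecialLinearGroup ι A) : Matrix ι ι A) q m with hrest
    have hr' : rest ∈ J := by
      refine J.sum_mem fun q hq => ?_
      have hqm : q ≠ m := (Finset.mem_erase.1 hq).1
      by_cases h3 : r m q
      · exact J.mul_mem_left _ (hi _ _ hqm (has _ _ h3))
      · exact J.mul_mem_right _ (hg.1 _ _ (Ne.symm hqm) h3)
    have hx1 : x - 1 = -((g m m - 1) * x) - rest := by linear_combination h1
    rw [hx1]
    exact J.sub_mem (J.neg_mem (J.mul_mem_right _ (hg.2 m))) hr'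

end Pattern

variable (p k : ℕ) [NeZero k]

/-- The cyclic strict order on `Fin k` starting at `i`. -/
def ltc {k : ℕ} (i m l : Fin k) : Prop := (m - i).val < (l - i).val

theorem ltc_trans {k : ℕ} (i a b c : Fin k) : ltc i a b → ltc i b c → ltc i a c := Nat.lt_trans

theorem ltc_asymm {k : ℕ} (i a b : Fin k) : ltc i a b → ¬ ltc i b a := fun h h' =>
  Nat.lt_asymm h h'

/-- The degree of the standard root at a position. -/
def dlt {k : ℕ} (m l : Fin k) : ℕ := if l < m then 1 else 0

theorem val_sub_eq {k : ℕ} (a i : Fin k) :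
    (a - i).val = if i.val ≤ a.val then a.val - i.val else k + a.val - i.val := by
  have ha := a.isLt; have hi := i.isLt
  rw [Fin.sub_def]
  simp only
  split_ifs with h
  · rw [show k - i.val + a.val = k + (a.val - i.val) by omega, Nat.add_mod_left,
      Nat.mod_eq_of_lt (by omega)]
  · rw [Nat.mod_eq_of_lt (by omega)]
    omega

theorem dlt_add {k : ℕ} {i m q l : Fin k} (h1 : ltc i m q) (h2 : ltc i q l) :
    dlt m q + dlt q l = dlt m l := by
  unfold ltc at h1 h2
  unfold dlt
  have hm := m.isLt; have hq := q.isLt; have hl := l.isLt; have hi := i.isLt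
  rw [val_sub_eq, val_sub_eq] at h1 h2
  simp only [Fin.lt_def]
  split_ifs at * <;> omega

/-- The polynomial group: congruent to upper unitriangular modulo `X`, determinant one. -/
noncomputable def Gam : Subgroup (Matrix.SpecialLinearGroup (Fin k) (ZMod p)[X]) :=
  Pat (Ideal.span {(X : (ZMod p)[X])}) (· < ·) (fun _ _ _ => lt_trans) (fun _ _ => lt_asymm)

/-- The truncated polynomial ring. -/
abbrev AR (s : ℕ) : Type := (ZMod p)[X] ⧸ Ideal.span {(X : (ZMod p)[X]) ^ s}

/-- The class of `X`. -/
noncomputable def tt (s : ℕ) : AR p s := Ideal.Quotient.mk _ X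

/-- The finite group: congruent to upper unitriangular modulo `t`, determinant one. -/
noncomputable def GG (s : ℕ) : Subgroup (Matrix.SpecialLinearGroup (Fin k) (AR p s)) :=
  Pat (Ideal.span {tt p s}) (· < ·) (fun _ _ _ => lt_trans) (fun _ _ => lt_asymm)

theorem map_mem_GG (s : ℕ) (g : Gam p k) :
    Matrix.SpecialLinearGroup.map (Ideal.Quotient.mk _) g.1 ∈ GG p k s := by
  have hsub : ∀ a ∈ Ideal.span {(X : (ZMod p)[X])},
      Ideal.Quotient.mk (Ideal.span {(X : (ZMod p)[X]) ^ s}) a ∈ Ideal.span {tt p s} := by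
    intro a ha
    obtain ⟨b, rfl⟩ := Ideal.mem_span_singleton'.1 ha
    exact Ideal.mem_span_singleton'.2 ⟨_, (map_mul _ _ _).symm⟩
  refine ⟨fun m l hne hml => ?_, fun m => ?_⟩
  · exact hsub _ (g.2.1 m l hne hml)
  · have h := hsub _ (g.2.2 m)
    rwa [map_sub, map_one] at h

/-- Reduction modulo `X ^ s`. -/
noncomputable def red (s : ℕ) : Gam p k →* GG p k s :=
  MonoidHom.codRestrict
    ((Matrix.SpecialLinearGroup.map (Ideal.Quotient.mk _)).comp (Gam p k).subtype) _
    (map_mem_GG p k s)

variable [Fact p.Prime]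

/-- The vertex group of type `i` as a monoid. -/
noncomputable def KMon (i : Fin k) : Submonoid (Gam p k) where
  carrier := {g | ∀ m l, ∃ c : ZMod p, (g.1 : Matrix (Fin k) (Fin k) (ZMod p)[X]) m l =
    if m = l then 1 else if ltc i m l then C c * X ^ dlt m l else 0}
  one_mem' m l := ⟨0, by by_cases h : m = l <;> simp [h]⟩
  mul_mem' {g h} hg hh m l := by
    choose cg hcg using hg
    choose ch hch using hh
    by_cases hml : ltc i m l
    · have hne : m ≠ l := fun e => by subst e; exact (lt_irrefl _ hml)
      refine ⟨cg m l + ch m l +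
        ∑ q ∈ Finset.univ.filter (fun q => ltc i m q ∧ ltc i q l), cg m q * ch q l, ?_⟩
      rw [if_neg hne, if_pos hml]
      rw [Subgroup.coe_mul, Matrix.SpecialLinearGroup.coe_mul, Matrix.mul_apply]
      simp only [hcg, hch]
      rw [← Finset.sum_filter_add_sum_filter_not Finset.univ
        (fun q => ltc i m q ∧ ltc i q l)]
      have hA : ∑ q ∈ Finset.univ.filter (fun q => ltc i m q ∧ ltc i q l),
          (if m = q then 1 else if ltc i m q then C (cg m q) * X ^ dlt m q else 0) *
          (if q = l then 1 else if ltc i q l then C (ch q l) * X ^ dlt q l else 0) =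
          C (∑ q ∈ Finset.univ.filter (fun q => ltc i m q ∧ ltc i q l), cg m q * ch q l) *
            X ^ dlt m l := by
        rw [map_sum, Finset.sum_mul]
        refine Finset.sum_congr rfl fun q hq => ?_
        obtain ⟨h1, h2⟩ := (Finset.mem_filter.1 hq).2
        have e1 : m ≠ q := fun e => by subst e; exact (lt_irrefl _ h1)
        have e2 : q ≠ l := fun e => by subst e; exact (lt_irrefl _ h2)
        rw [if_neg e1, if_pos h1, if_neg e2, if_pos h2, map_mul, ← dlt_add h1 h2, pow_add]
        ring
      have hB : ∑ q ∈ Finset.univ.filter (fun q => ¬(ltc i m q ∧ ltc i q l)),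
          (if m = q then 1 else if ltc i m q then C (cg m q) * X ^ dlt m q else 0) *
          (if q = l then 1 else if ltc i q l then C (ch q l) * X ^ dlt q l else 0) =
          C (cg m l + ch m l) * X ^ dlt m l := by
        rw [Finset.sum_eq_add_of_mem m l]
        · simp [hne, hml, map_add]; ring
        · exact Finset.mem_filter.2 ⟨Finset.mem_univ _, fun h => lt_irrefl _ h.1⟩
        · exact Finset.mem_filter.2 ⟨Finset.mem_univ _, fun h => lt_irrefl _ h.2⟩
        · exact hne
        · intro q hq hqne
          have hq' := (Finset.mem_filter.1 hq).2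
          rw [if_neg (Ne.symm hqne.1), if_neg hqne.2]
          by_cases h1 : ltc i m q
          · rw [if_neg fun h2 => hq' ⟨h1, h2⟩, mul_zero]
          · rw [if_neg h1, zero_mul]
      rw [hA, hB, ← add_mul, ← map_add]
      congr 2
      ring
    · refine ⟨0, ?_⟩
      rw [Subgroup.coe_mul, Matrix.SpecialLinearGroup.coe_mul, Matrix.mul_apply]
      simp only [hcg, hch]
      by_cases hne : m = l
      · subst hne
        rw [if_pos rfl, Finset.sum_eq_single m]
        · simp
        · intro q _ hq
          rw [if_neg (Ne.symm hq), if_neg hq]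
          by_cases h1 : ltc i m q
          · rw [if_neg (ltc_asymm _ _ _ h1), mul_zero]
          · rw [if_neg h1, zero_mul]
        · simp
      · rw [if_neg hne, if_neg hml]
        refine Finset.sum_eq_zero fun q _ => ?_
        by_cases e1 : m = q
        · subst e1; simp [hne, hml]
        by_cases h1 : ltc i m q
        · by_cases e2 : q = l
          · subst e2; exact absurd h1 hml
          · rw [if_neg e2, if_neg fun h2 => hml (ltc_trans _ _ _ _ h1 h2), mul_zero]
        · rw [if_neg e1, if_neg h1, zero_mul]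

theorem finite_KMon (i : Fin k) : Finite (KMon p k i) := by
  have hch : ∀ g : KMon p k i, ∀ m l, ∃ c : ZMod p,
      (g.1.1 : Matrix (Fin k) (Fin k) (ZMod p)[X]) m l =
        if m = l then 1 else if ltc i m l then C c * X ^ dlt m l else 0 := fun g => g.2
  choose c hc using hch
  refine Finite.of_injective c fun g h hgh => ?_
  apply Subtype.ext
  apply Subtype.ext
  apply Subtype.ext
  funext m l
  rw [hc g m l, hc h m l, hgh]

/-- The finite vertex group of type `i` inside the polynomial group. -/
noncomputable def KGam (i : Fin k) : Subgroup (Gam p k) :=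
  { KMon p k i with
    inv_mem' := fun {g} hg => by
      haveI := finite_KMon p k i
      obtain ⟨h, hh⟩ := Finite.surjective_of_injective
        (f := fun x : KMon p k i => (⟨g, hg⟩ : KMon p k i) * x)
        (fun a b hab => Subtype.ext (mul_left_cancel (a := g) (congrArg Subtype.val hab))) 1
      have h1 : g * h.1 = 1 := congrArg Subtype.val hh
      rw [inv_eq_of_mul_eq_one_right h1]
      exact h.2 }

/-- The vertex group of type `i` in the finite group. -/
noncomputable def KG (s : ℕ) (i : Fin k) : Subgroup (GG p k s) := (KGam p k i).map (red p k s)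

/-- The finite coset complex on the types in `R`. -/
noncomputable abbrev Wc (s : ℕ) (R : Finset (Fin k)) :
    Cplx ((i : Fin k) × (GG p k s ⧸ KG p k s i)) :=
  coset (KG p k s) R

/-- The infinite coset complex on the types in `R`. -/
noncomputable abbrev Uc (R : Finset (Fin k)) : Cplx ((i : Fin k) × (Gam p k ⧸ KGam p k i)) :=
  coset (KGam p k) R

/-- The types of the cyclic interval of length `r` starting at `a`. -/
def cyc {k : ℕ} [NeZero k] (a : Fin k) (r : ℕ) : Finset (Fin k) :=
  (Finset.range r).image fun x : ℕ => a + Fin.ofNat k x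

end Vale.Agent.P067.Cob
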