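import Vale.Agent.P067.Cob.EquiCoset
import Vale.Agent.P067.Cob.Groups

/-!
E2 of the notes: a corner cycle (carried by cells of group elements that are trivial on the rows
and columns in `D`) is homologous in the finite coset complex to its translate by a root element
with an index in `D`.
-/

namespace Vale.Agent.P067.Cob.Aff

open Finset Polynomial

open scoped Classical

variable {p k : ℕ} [NeZero k] [Fact p.Prime]

/-- Polynomial matrices. -/
abbrev PMat (p k : ℕ) : Type := Matrix (Fin k) (Fin k) (ZMod p)[X]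

/-- The matrix of an element of the polynomial group. -/
def gmat (g : Gam p k) : (PMat p k) := (g.1 : (PMat p k))

omit [NeZero k] in
theorem gmat_mul (g h : Gam p k) : gmat (g * h) = gmat g * gmat h := by
  simp [gmat]

omit [NeZero k] in
theorem gmat_one : gmat (1 : Gam p k) = 1 := by simp [gmat]

omit [NeZero k] in
theorem gmat_ext {g h : Gam p k} (e : gmat g = gmat h) : g = h :=
  Subtype.ext (Subtype.ext e)

omit [NeZero k] in
theorem gmat_mul_inv (g : Gam p k) : gmat g * gmat g⁻¹ = 1 := by
  rw [← gmat_mul, mul_inv_cancel, gmat_one]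

omit [NeZero k] in
theorem gmat_inv_mul (g : Gam p k) : gmat g⁻¹ * gmat g = 1 := by
  rw [← gmat_mul, inv_mul_cancel, gmat_one]

variable (p k) in
/-- The corner: trivial on the rows and columns in `D`. -/
def corner (D : Finset (Fin k)) : Subgroup (Gam p k) where
  carrier := {g | ∀ n ∈ D, ∀ l, gmat g n l = (1 : (PMat p k)) n l ∧ gmat g l n = (1 : (PMat p k)) l n}
  one_mem' n _ l := by rw [gmat_one]; exact ⟨rfl, rfl⟩
  mul_mem' {g h} hg hh n hn l := by
    rw [gmat_mul]
    refine ⟨?_, ?_⟩
    · rw [Matrix.mul_apply, Finset.sum_eq_single n]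
      · rw [(hg n hn n).1, Matrix.one_apply_eq, one_mul, (hh n hn l).1]
      · intro q _ hq
        rw [(hg n hn q).1, Matrix.one_apply_ne (Ne.symm hq), zero_mul]
      · simp
    · rw [Matrix.mul_apply, Finset.sum_eq_single n]
      · rw [(hh n hn n).2, Matrix.one_apply_eq, mul_one, (hg n hn l).2]
      · intro q _ hq
        rw [(hh n hn q).2, Matrix.one_apply_ne hq, mul_zero]
      · simp
  inv_mem' {g} hg n hn l := by
    refine ⟨?_, ?_⟩
    · have h := congrFun (congrFun (gmat_mul_inv g) n) l
      rw [Matrix.mul_apply, Finset.sum_eq_single n] at h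
      · rwa [(hg n hn n).1, Matrix.one_apply_eq, one_mul] at h
      · intro q _ hq
        rw [(hg n hn q).1, Matrix.one_apply_ne (Ne.symm hq), zero_mul]
      · simp
    · have h := congrFun (congrFun (gmat_inv_mul g) l) n
      rw [Matrix.mul_apply, Finset.sum_eq_single n] at h
      · rwa [(hg n hn n).2, Matrix.one_apply_eq, mul_one] at h
      · intro q _ hq
        rw [(hg n hn q).2, Matrix.one_apply_ne hq, mul_zero]
      · simp

omit [NeZero k] in
/-- Kernel elements differing from the identity only at the positions `S`. -/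
theorem supp_mul {S : Fin k → Fin k → Prop} (hS : ∀ a b c, S a b → ¬ S b c) {g h : Gam p k}
    (hg : ∀ a b, ¬ S a b → gmat g a b = (1 : (PMat p k)) a b)
    (hh : ∀ a b, ¬ S a b → gmat h a b = (1 : (PMat p k)) a b) :
    gmat (g * h) = gmat g + gmat h - 1 := by
  have h0 : (gmat g - 1) * (gmat h - 1) = 0 := by
    refine Matrix.ext fun a c => ?_
    rw [Matrix.mul_apply, Matrix.zero_apply]
    refine Finset.sum_eq_zero fun b _ => ?_
    by_cases h1 : S a b
    · rw [Matrix.sub_apply (gmat h), hh b c (hS a b c h1), sub_self, mul_zero]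
    · rw [Matrix.sub_apply (gmat g), hg a b h1, sub_self, zero_mul]
  rw [sub_mul, mul_sub, one_mul, mul_one] at h0
  rw [gmat_mul, eq_sub_iff_add_eq]
  linear_combination (norm := abel) h0

/-- The abelian group of kernel elements supported at `S`. -/
def suppGp (s : ℕ) (S : Fin k → Fin k → Prop) (hS : ∀ a b c, S a b → ¬ S b c) :
    Subgroup (Gam p k) where
  carrier := {g | red p k s g = 1 ∧ ∀ a b, ¬ S a b → gmat g a b = (1 : (PMat p k)) a b}
  one_mem' := ⟨map_one _, fun a b _ => by rw [gmat_one]⟩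
  mul_mem' {g h} hg hh := ⟨by rw [map_mul, hg.1, hh.1, one_mul], fun a b hab => by
    rw [supp_mul hS hg.2 hh.2, Matrix.sub_apply, Matrix.add_apply, hg.2 a b hab, hh.2 a b hab,
      add_sub_cancel_right]⟩
  inv_mem' {g} hg := ⟨by rw [map_inv, hg.1, inv_one], fun a b hab => by
    have h0 : (gmat g - 1) * (gmat g - 1) = 0 := by
      refine Matrix.ext fun x z => ?_
      rw [Matrix.mul_apply, Matrix.zero_apply]
      refine Finset.sum_eq_zero fun y _ => ?_
      by_cases h1 : S x y
      · rw [Matrix.sub_apply (gmat g) 1 y, hg.2 y z (hS x y z h1), sub_self, mul_zero]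
      · rw [Matrix.sub_apply (gmat g) 1 x, hg.2 x y h1, sub_self, zero_mul]
    have h1 : gmat g * (1 - (gmat g - 1)) = 1 := by
      rw [sub_mul, mul_sub, one_mul, mul_one] at h0
      rw [mul_sub, mul_one, mul_sub, mul_one]
      linear_combination (norm := abel) -h0
    have h2 : gmat g⁻¹ = 1 - (gmat g - 1) := by
      calc gmat g⁻¹ = gmat g⁻¹ * (gmat g * (1 - (gmat g - 1))) := by rw [h1, mul_one]
        _ = _ := by rw [← mul_assoc, gmat_inv_mul, one_mul]
    rw [h2, Matrix.sub_apply, Matrix.sub_apply, hg.2 a b hab, sub_self, sub_zero]⟩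

theorem suppGp_comm {s : ℕ} {S : Fin k → Fin k → Prop} (hS : ∀ a b c, S a b → ¬ S b c)
    {g h : Gam p k} (hg : g ∈ suppGp s S hS) (hh : h ∈ suppGp s S hS) : g * h = h * g :=
  gmat_ext (by rw [supp_mul hS hg.2 hh.2, supp_mul hS hh.2 hg.2, add_comm])

theorem suppGp_pow {s : ℕ} {S : Fin k → Fin k → Prop} (hS : ∀ a b c, S a b → ¬ S b c)
    {g : Gam p k} (hg : g ∈ suppGp s S hS) : g ^ p = 1 := by
  have key : ∀ e : ℕ, gmat (g ^ e) = 1 + e • (gmat g - 1) := by
    intro e
    induction e with
    | zero => simp [gmat_one]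
    | succ e ih =>
      rw [pow_succ, supp_mul hS ((suppGp s S hS).pow_mem hg e).2 hg.2, ih, succ_nsmul]
      abel
  refine gmat_ext ?_
  rw [key, gmat_one]
  refine Matrix.ext fun a b => ?_
  simp

/-- Entries of the vertex groups have degree at most one. -/
theorem coeff_KGam {i : Fin k} {g : Gam p k} (hg : g ∈ KGam p k i) (a b : Fin k) {d : ℕ}
    (hd : 2 ≤ d) : (gmat g a b).coeff d = 0 := by
  obtain ⟨c, hc⟩ := hg a b
  rw [gmat, hc]
  have hdlt : dlt a b ≤ 1 := by unfold dlt; split_ifs <;> simp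
  split_ifs
  · simp [Polynomial.coeff_one]; omega
  · rw [Polynomial.coeff_C_mul_X_pow, if_neg (by omega)]
  · simp

omit [NeZero k] in
theorem eq_of_low {s : ℕ} (hs : 2 ≤ s) {f g : (ZMod p)[X]}
    (hf : ∀ d, 2 ≤ d → f.coeff d = 0) (hg : ∀ d, 2 ≤ d → g.coeff d = 0)
    (h : X ^ s ∣ f - g) : f = g := by
  ext d
  rcases Nat.lt_or_ge d 2 with hd | hd
  · have := (Polynomial.X_pow_dvd_iff.1 h) d (by omega)
    rwa [Polynomial.coeff_sub, sub_eq_zero] at this
  · rw [hf d hd, hg d hd]

/-- Reduction is injective on the union of the vertex groups. -/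
theorem red_inj_KGam {s : ℕ} (hs : 2 ≤ s) {i l : Fin k} {g h : Gam p k} (hg : g ∈ KGam p k i)
    (hh : h ∈ KGam p k l) (e : red p k s g = red p k s h) : g = h := by
  refine gmat_ext (Matrix.ext fun a b => eq_of_low hs (fun d => coeff_KGam hg a b)
    (fun d => coeff_KGam hh a b) ?_)
  have h1 := congrArg (fun u : GG p k s => (u.1 : Matrix (Fin k) (Fin k) (AR p s)) a b) e
  exact Ideal.mem_span_singleton.1 (Ideal.Quotient.eq.1 h1)

/-- Low elements congruent to corner elements are in the corner. -/
theorem corner_of_red {s : ℕ} (hs : 2 ≤ s) {D : Finset (Fin k)} {i : Fin k} {g b : Gam p k}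
    (hg : g ∈ KGam p k i) (hb : b ∈ corner p k D) (e : red p k s g = red p k s b) :
    g ∈ corner p k D := by
  have key : ∀ a c : Fin k, gmat b a c = (1 : (PMat p k)) a c → gmat g a c = (1 : (PMat p k)) a c := by
    intro a c h
    refine eq_of_low hs (fun d => coeff_KGam hg a c) (fun d hd => ?_) ?_
    · by_cases hac : a = c
      · subst hac
        rw [Matrix.one_apply_eq, Polynomial.coeff_one, if_neg (by omega)]
      · rw [Matrix.one_apply_ne hac, Polynomial.coeff_zero]
    · rw [← h]
      have h1 := congrArg (fun u : GG p k s => (u.1 : Matrix (Fin k) (Fin k) (AR p s)) a c) e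
      exact Ideal.mem_span_singleton.1 (Ideal.Quotient.eq.1 h1)
  exact fun n hn l => ⟨key n l (hb n hn l).1, key l n (hb n hn l).2⟩

/-- The positions reached by the commutators of a root at `(m, n)` with the corner. -/
def affPos (D : Finset (Fin k)) (m n a b : Fin k) : Prop :=
  (n ∈ D ∧ b = n ∧ a ∉ D) ∨ (n ∉ D ∧ m ∈ D ∧ a = m ∧ b ∉ D)

omit [NeZero k] in
theorem affPos_disj (D : Finset (Fin k)) (m n a b c : Fin k) :
    affPos D m n a b → ¬ affPos D m n b c := by
  rintro (⟨h1, rfl, h3⟩ | ⟨h1, h2, rfl, h4⟩) (⟨k1, e, k3⟩ | ⟨k1, k2, e, k4⟩)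
  · exact k3 h1
  · exact k1 h1
  · exact h1 k1
  · exact h4 (e ▸ k2)

omit [NeZero k] in
theorem affPos_mul_right {D : Finset (Fin k)} {m n : Fin k} {M H : (PMat p k)}
    (hM : ∀ a b, ¬ affPos D m n a b → M a b = 0)
    (hH1 : n ∈ D → ∀ l, H n l = (1 : (PMat p k)) n l)
    (hH2 : n ∉ D → ∀ b l, b ∉ D → l ∈ D → H b l = 0) :
    ∀ a b, ¬ affPos D m n a b → (M * H) a b = 0 := by
  intro a c hac
  rw [Matrix.mul_apply]
  refine Finset.sum_eq_zero fun b _ => ?_
  by_cases hab : affPos D m n a b
  · rcases hab with ⟨h1, rfl, h3⟩ | ⟨h1, h2, rfl, h4⟩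
    · rw [hH1 h1 c, Matrix.one_apply_ne (fun e => hac (Or.inl ⟨h1, e.symm, h3⟩)), mul_zero]
    · by_cases hc : c ∈ D
      · rw [hH2 h1 b c h4 hc, mul_zero]
      · exact absurd (Or.inr ⟨h1, h2, rfl, hc⟩) hac
  · rw [hM a b hab, zero_mul]

/-- E2: invariance of corner cycles under root translations with an index in `D`. -/
theorem affine_null (hp : Odd p) {s : ℕ} (hs : 2 ≤ s) (D R : Finset (Fin k)) (x : Gam p k)
    (m n : Fin k) (c : (ZMod p)[X]) (hmn : m ≠ n) (hD : m ∈ D ∨ n ∈ D)
    (hx : gmat x = Matrix.transvection m n c)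
    {M : ℕ} (hEx : (Uc p k Finset.univ).Ex M) {j : ℕ} (hj : j < M)
    {y : Chain ((i : Fin k) × (GG p k s ⧸ KG p k s i))}
    (hy : y ∈ Finsupp.supported (ZMod 2) (ZMod 2)
      {σ | ∃ b ∈ corner p k D, ∃ T ⊆ R, T.card = j ∧ σ = cell (KG p k s) (red p k s b) T})
    (hc : bd y = 0) :
    (Wc p k s Finset.univ).Null j (act (KG p k s) (red p k s x) y + y) := by
  have hdisj := affPos_disj D m n
  have hxi : gmat x⁻¹ = Matrix.transvection m n (-c) := by
    have h : gmat x * Matrix.transvection m n (-c) = 1 := by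
      rw [hx, Matrix.transvection_mul_transvection_same m n hmn, add_neg_cancel,
        Matrix.transvection_zero]
    calc gmat x⁻¹ = gmat x⁻¹ * (gmat x * Matrix.transvection m n (-c)) := by rw [h, mul_one]
      _ = _ := by rw [← mul_assoc, gmat_inv_mul, one_mul]
  have hone : ∀ {a b : Fin k}, a ≠ b → (1 : (PMat p k)) a b = 0 := fun h => Matrix.one_apply_ne h
  refine Equi.coset_translate_null (red p k s) (KGam p k) hp R Finset.univ (Finset.subset_univ R)
    (corner p k D) (suppGp s (affPos D m n) hdisj) x (fun a ha b hb => suppGp_comm hdisj ha hb)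
    (fun a ha => suppGp_pow hdisj ha) (fun a ha => ha.1) ?_ ?_ ?_ ?_ hEx hj hy hc
  · intro g hg hgker a ha
    refine ⟨by simp [hgker, ha.1], fun r l hrl => ?_⟩
    have e : gmat (g * a * g⁻¹) - 1 = (gmat g * (gmat a - 1)) * gmat g⁻¹ := by
      rw [mul_sub, mul_one, sub_mul, gmat_mul_inv, gmat_mul, gmat_mul]
    have h0 : (gmat (g * a * g⁻¹) - 1) r l = 0 := by
      rw [e]
      have hgi := (corner p k D).inv_mem hg
      refine affPos_mul_right (fun u v huv => ?_) (fun h q => (hgi n h q).1)
        (fun _ u v hu hv => by rw [(hgi v hv u).2]; exact hone fun e => hu (e ▸ hv)) r l hrl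
      rw [Matrix.mul_apply]
      refine Finset.sum_eq_zero fun w _ => ?_
      by_cases hwv : affPos D m n w v
      · rcases hwv with ⟨h1, h2, h3⟩ | ⟨h1, h2, h3, h4⟩
        · by_cases hu : u ∈ D
          · rw [(hg u hu w).1, hone (fun e : u = w => h3 (e ▸ hu)), zero_mul]
          · exact absurd (Or.inl ⟨h1, h2, hu⟩) huv
        · rw [h3, (hg m h2 u).2, hone fun e => huv (Or.inr ⟨h1, h2, e, h4⟩), zero_mul]
      · rw [Matrix.sub_apply, ha.2 w v hwv, sub_self, mul_zero]
    rwa [Matrix.sub_apply, sub_eq_zero] at h0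
  · intro g hg hgker
    refine ⟨by simp [hgker], fun r l hrl => ?_⟩
    have e : gmat (x * g * x⁻¹ * g⁻¹) - 1 =
        (gmat x * gmat g - gmat g * gmat x) * (gmat x⁻¹ * gmat g⁻¹) := by
      rw [sub_mul, gmat_mul, gmat_mul, gmat_mul]
      have : gmat g * gmat x * (gmat x⁻¹ * gmat g⁻¹) = 1 := by
        rw [← mul_assoc, mul_assoc (gmat g), gmat_mul_inv, mul_one, gmat_mul_inv]
      rw [this, mul_assoc (gmat x * gmat g)]
    have h0 : (gmat (x * g * x⁻¹ * g⁻¹) - 1) r l = 0 := by
      rw [e]
      have hgi := (corner p k D).inv_mem hg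
      refine affPos_mul_right (fun u v huv => ?_) (fun h q => ?_) (fun h u v hu hv => ?_) r l hrl
      · have hxg : gmat x * gmat g - gmat g * gmat x =
            Matrix.single m n c * gmat g - gmat g * Matrix.single m n c := by
          rw [hx, Matrix.transvection, add_mul, mul_add, one_mul, mul_one]
          abel
        rw [hxg, Matrix.sub_apply]
        by_cases hn : n ∈ D
        · by_cases hvn : v = n
          · have hu : u ∈ D := by
              by_contra hu
              exact huv (Or.inl ⟨hn, hvn, hu⟩)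
            rw [hvn, Matrix.mul_single_apply_same]
            rcases eq_or_ne u m with rfl | hum
            · rw [Matrix.single_mul_apply_same, (hg n hn n).1, (hg u hu u).1]
              simp
            · rw [Matrix.single_mul_apply_of_ne _ _ _ _ _ hum, (hg u hu m).1,
                hone hum, zero_mul, sub_zero]
          · rw [Matrix.mul_single_apply_of_ne _ _ _ _ _ hvn, sub_zero]
            rcases eq_or_ne u m with rfl | hum
            · rw [Matrix.single_mul_apply_same, (hg n hn v).1, hone (Ne.symm hvn), mul_zero]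
            · rw [Matrix.single_mul_apply_of_ne _ _ _ _ _ hum]
        · have hm : m ∈ D := hD.resolve_right hn
          rcases eq_or_ne u m with rfl | hum
          · have hv : v ∈ D := by
              by_contra hv
              exact huv (Or.inr ⟨hn, hm, rfl, hv⟩)
            have hvn : v ≠ n := fun e => hn (e ▸ hv)
            rw [Matrix.single_mul_apply_same, Matrix.mul_single_apply_of_ne _ _ _ _ _ hvn,
              (hg v hv n).2, hone hvn.symm, mul_zero, sub_zero]
          · rw [Matrix.single_mul_apply_of_ne _ _ _ _ _ hum, zero_sub, neg_eq_zero]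
            rcases eq_or_ne v n with rfl | hvn
            · rw [Matrix.mul_single_apply_same, (hg m hm u).2, hone hum, zero_mul]
            · rw [Matrix.mul_single_apply_of_ne _ _ _ _ _ hvn]
      · rw [hxi, Matrix.transvection_mul_apply_of_ne m n n q hmn.symm, (hgi n h q).1]
      · have hm : m ∈ D := hD.resolve_right h
        rw [hxi, Matrix.transvection_mul_apply_of_ne m n u v (fun e => hu (e ▸ hm)),
          (hgi v hv u).2, hone (fun e : u = v => hu (e ▸ hv))]
    rwa [Matrix.sub_apply, sub_eq_zero] at h0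
  · intro i _ a ha e
    exact red_inj_KGam hs ha (KGam p k i).one_mem (by rw [e, map_one])
  · intro T _ hne b hb hT
    obtain ⟨i₀, hi₀⟩ := hne
    obtain ⟨a, ha, hab⟩ := hT i₀ hi₀
    refine ⟨a, corner_of_red hs ha hb hab, hab, fun i hi => ?_⟩
    obtain ⟨a', ha', hab'⟩ := hT i hi
    exact red_inj_KGam hs ha ha' (hab.trans hab'.symm) ▸ ha'

end Vale.Agent.P067.Cob.Aff
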