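import Vale.Agent.P067.Cob.Coset

/-!
Height filtration of the finite group and generation by roots (section 7 of the notes; owner helper22
or a seat named by lead).
-/

namespace Vale.Agent.P067.Cob

open Finset Polynomial

open scoped Classical

variable (p k : ℕ) [NeZero k] [Fact p.Prime]

/-- `g - 1` has a lift all of whose monomials have height at least `h`. -/
def HasHeight (s h : ℕ) (g : GG p k s) : Prop :=
  ∀ m l, ∃ q : (ZMod p)[X],
    Ideal.Quotient.mk (Ideal.span {(X : (ZMod p)[X]) ^ s}) q =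
      (g.1 : Matrix (Fin k) (Fin k) (AR p s)) m l - (if m = l then 1 else 0) ∧
    ∀ j : ℕ, j * k + l.val < h + m.val → q.coeff j = 0

/-- An elementary matrix at the position `(m, l)`. -/
def IsRoot (s : ℕ) (m l : Fin k) (g : GG p k s) : Prop :=
  m ≠ l ∧ ∀ a b, (a, b) ≠ (m, l) →
    (g.1 : Matrix (Fin k) (Fin k) (AR p s)) a b = if a = b then 1 else 0

/-- The height filtration. -/
noncomputable def NH (s h : ℕ) : Subgroup (GG p k s) := Subgroup.closure {g | HasHeight p k s h g}

theorem dvd_iff_lift (s n : ℕ) (x : AR p s) :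
    tt p s ^ n ∣ x ↔ ∃ q : (ZMod p)[X],
      Ideal.Quotient.mk (Ideal.span {(X : (ZMod p)[X]) ^ s}) q = x ∧ ∀ j < n, q.coeff j = 0 := by
  constructor
  · rintro ⟨b, rfl⟩
    obtain ⟨f, rfl⟩ := Ideal.Quotient.mk_surjective b
    refine ⟨X ^ n * f, by rw [map_mul, map_pow, tt], fun j hj => ?_⟩
    exact (Polynomial.X_pow_dvd_iff.1 (dvd_mul_right _ _)) j hj
  · rintro ⟨q, rfl, hq⟩
    obtain ⟨f, rfl⟩ := Polynomial.X_pow_dvd_iff.2 hq
    exact ⟨Ideal.Quotient.mk _ f, by rw [map_mul, map_pow, tt]⟩

theorem hasHeight_iff (s h : ℕ) (g : GG p k s) :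
    HasHeight p k s h g ↔ g ∈ NG p k s h := by
  have key : HasHeight p k s h g ↔
      (g.1 : Matrix (Fin k) (Fin k) (AR p s)) - 1 ∈ Slices.Ih (tt p s) h := by
    refine forall_congr' fun m => forall_congr' fun l => ?_
    rw [Matrix.sub_apply, dvd_iff_lift]
    refine exists_congr fun q => and_congr ?_ (forall_congr' fun j => imp_congr_left ?_)
    · rw [Matrix.one_apply]
    · rw [← not_le, ← not_le, Slices.ord_le_iff]
  rw [key, NG, Subgroup.mem_subgroupOf]
  rcases Nat.eq_zero_or_pos h with rfl | hh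
  · have h1 := (mem_GG_iff p k s).1 g.2
    exact ⟨fun _ => h1, fun _ => Slices.ih_anti (Nat.zero_le 1) ((Slices.mem_N le_rfl).1 h1)⟩
  · exact (Slices.mem_N hh).symm

theorem NH_eq (s h : ℕ) : NH p k s h = NG p k s h := by
  have : {g | HasHeight p k s h g} = (NG p k s h : Set (GG p k s)) :=
    Set.ext fun g => hasHeight_iff p k s h g
  rw [NH, this, Subgroup.closure_eq]

theorem red_surjective (s : ℕ) : Function.Surjective (red p k s) := by
  by_cases hk : 2 ≤ k
  · exact red_surjective_of_two_le p k s hk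
  · intro g
    refine ⟨1, Subtype.ext (Subtype.ext (Matrix.ext fun m l => ?_))⟩
    have hk1 : k = 1 := by have := NeZero.ne k; omega
    subst hk1
    obtain rfl : m = l := Subsingleton.elim m l
    have := g.1.2
    rw [Matrix.det_fin_one] at this
    rw [Subsingleton.elim m 0, this]
    simp [red]

theorem NH_normal (s h : ℕ) : (NH p k s h).Normal := by
  rw [NH_eq]; exact NG_normal p k s h

theorem NH_one (s : ℕ) : NH p k s 1 = ⊤ := by rw [NH_eq, NG_one]

open scoped commutatorElement in
theorem NH_central (s h : ℕ) (z : GG p k s) (hz : z ∈ NH p k s h) (g : GG p k s) :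
    g * z * g⁻¹ * z⁻¹ ∈ NH p k s (h + 1) := by
  rw [NH_eq] at *
  rcases Nat.eq_zero_or_pos h with rfl | hh
  · rw [NG_one]; trivial
  · have hg : g ∈ NG p k s 1 := by rw [NG_one]; trivial
    have := NG_commutator p k s le_rfl hh hg hz
    rw [commutatorElement_def, Nat.add_comm] at this
    exact this

theorem isRoot_rootG (s : ℕ) (m l : Fin k) (hml : m ≠ l) (j : ℕ) (c : ZMod p)
    (hj : m.1 + 1 ≤ j * k + l.1) : IsRoot p k s m l (rootG p k s m l hml j c hj) := by
  refine ⟨hml, fun a b hab => ?_⟩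
  simp only [rootG, Slices.root, Matrix.transvection, Matrix.add_apply]
  rw [Matrix.single_apply_of_ne _ _ _ _ _ (fun h => hab (by rw [h.1, h.2])), add_zero,
    Matrix.one_apply]

/-- Roots touching `D` generate everything of large height. -/
theorem NH_le_of_roots (s : ℕ) (D : Finset (Fin k)) (hD : 2 ≤ D.card) (Fx : Subgroup (GG p k s))
    (hFx : ∀ m l g, IsRoot p k s m l g → (m ∈ D ∨ l ∈ D) → g ∈ Fx) :
    NH p k s (k - D.card + 1) ≤ Fx := by
  rw [NH_eq]
  have hk : 2 ≤ k := le_trans hD (by simpa using D.card_le_univ)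
  exact NG_le_of_roots_through p k s hk Fx D (Finset.card_pos.1 (by omega))
    fun m l hml j c hj hd => hFx m l _ (isRoot_rootG p k s m l hml j c hj) hd

theorem mem_cyc_iff (a i : Fin k) {r : ℕ} (_hr : r ≤ k) :
    i ∈ cyc a r ↔ (i - a).val < r := by
  constructor
  · intro h
    obtain ⟨x, hx, rfl⟩ := Finset.mem_image.1 h
    rw [add_sub_cancel_left]
    have hx' := Finset.mem_range.1 hx
    simp only [Fin.ofNat_eq_cast, Fin.val_natCast]
    exact lt_of_le_of_lt (Nat.mod_le _ _) hx'
  · intro h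
    refine Finset.mem_image.2 ⟨(i - a).val, Finset.mem_range.2 h, ?_⟩
    simp [Fin.ofNat_eq_cast]

/-- A root of height `h < k` lies in the vertex groups outside its interval. -/
theorem root_mem_KG (s h : ℕ) (h1 : 1 ≤ h) (hk : h < k) (m : Fin k) (hne : m ≠ Slices.col h m)
    (c : ZMod p) (hj : m.1 + 1 ≤ (m.1 + h) / k * k + (Slices.col h m).1) (i : Fin k)
    (hi : i ∉ cyc (m + 1) h) :
    rootG p k s m (Slices.col h m) hne ((m.1 + h) / k) c hj ∈ KG p k s i := by
  set l := Slices.col h m with hl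
  have hcol : ((m.1 + h) / k = 0 ∧ l.1 = m.1 + h) ∨ ((m.1 + h) / k = 1 ∧ l.1 + k = m.1 + h) := by
    have hm := m.isLt
    rw [hl]
    simp only [Slices.col]
    rcases Nat.lt_or_ge (m.1 + h) k with hlt | hge
    · exact Or.inl ⟨Nat.div_eq_of_lt hlt, Nat.mod_eq_of_lt hlt⟩
    · refine Or.inr ⟨Nat.div_eq_of_lt_le (by omega) (by omega), ?_⟩
      rw [Nat.mod_eq_sub_mod hge, Nat.mod_eq_of_lt (by omega)]
      omega
  have hdl : dlt m l = (m.1 + h) / k := by
    unfold dlt
    rcases hcol with ⟨a, b⟩ | ⟨a, b⟩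
    · rw [a, if_neg]
      rw [Fin.lt_def]; omega
    · rw [a, if_pos]
      rw [Fin.lt_def]; omega
  have hlt : ltc i m l := by
    rw [mem_cyc_iff (_hr := hk.le)] at hi
    have hm := m.isLt; have hi' := i.isLt; have hl' := l.isLt
    have e1 : ((m + 1 : Fin k)).val = if m.1 + 1 = k then 0 else m.1 + 1 := by
      rw [Fin.val_add, Fin.val_one', Nat.add_mod_mod]
      split_ifs with h'
      · rw [h', Nat.mod_self]
      · exact Nat.mod_eq_of_lt (by omega)
    unfold ltc
    rw [val_sub_eq] at hi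
    rw [e1] at hi
    rw [val_sub_eq, val_sub_eq]
    rcases hcol with ⟨a, b⟩ | ⟨a, b⟩ <;> split_ifs at hi ⊢ <;> omega
  have hGam : (⟨Matrix.transvection m l (C c * X ^ dlt m l),
      Matrix.det_transvection_of_ne m l hne _⟩ :
      Matrix.SpecialLinearGroup (Fin k) (ZMod p)[X]) ∈ Gam p k := by
    refine ⟨fun a b hab hnlt => ?_, fun a => ?_⟩
    · show (Matrix.transvection m l (C c * X ^ dlt m l)) a b ∈ _
      simp only [Matrix.transvection, Matrix.add_apply, Matrix.one_apply_ne hab, zero_add]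
      by_cases he : m = a ∧ l = b
      · obtain ⟨e, e'⟩ := he
        subst e e'
        rw [Matrix.single_apply_same]
        have hd1 : dlt m l = 1 := by
          unfold dlt
          rw [if_pos (lt_of_le_of_ne (not_lt.1 hnlt) (Ne.symm hne))]
        rw [hd1, pow_one]
        exact Ideal.mem_span_singleton.2 (Dvd.intro_left _ rfl)
      · rw [Matrix.single_apply_of_ne _ _ _ _ _ he]; exact zero_mem _
    · show (Matrix.transvection m l (C c * X ^ dlt m l)) a a - 1 ∈ _
      simp only [Matrix.transvection, Matrix.add_apply, Matrix.one_apply_eq, add_sub_cancel_left]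
      rw [Matrix.single_apply_of_ne _ _ _ _ _ (fun he => hne (he.1.trans he.2.symm))]
      exact zero_mem _
  refine ⟨⟨_, hGam⟩, fun a b => ?_, ?_⟩
  · by_cases he : m = a ∧ l = b
    · obtain ⟨e, e'⟩ := he
      subst e e'
      refine ⟨c, ?_⟩
      rw [if_neg hne, if_pos hlt]
      simp [Matrix.transvection, Matrix.one_apply_ne hne]
    · refine ⟨0, ?_⟩
      show (Matrix.transvection m l (C c * X ^ dlt m l)) a b = _
      simp only [Matrix.transvection, Matrix.add_apply]
      rw [Matrix.single_apply_of_ne _ _ _ _ _ he, add_zero]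
      by_cases hab : a = b
      · subst hab; simp
      · rw [Matrix.one_apply_ne hab, if_neg hab]; split_ifs <;> simp
  · apply Subtype.ext
    apply Subtype.ext
    show (Matrix.transvection m l (C c * X ^ dlt m l)).map (Ideal.Quotient.mk _)
      = Matrix.transvection m l (algebraMap (ZMod p) (AR p s) c * tt p s ^ ((m.1 + h) / k))
    have e0 : Ideal.Quotient.mk (Ideal.span {(X : (ZMod p)[X]) ^ s}) (C c * X ^ dlt m l)
        = algebraMap (ZMod p) (AR p s) c * tt p s ^ ((m.1 + h) / k) := by
      rw [map_mul, map_pow, hdl, tt,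
        IsScalarTower.algebraMap_apply (ZMod p) (ZMod p)[X] (AR p s),
        Ideal.Quotient.algebraMap_eq, Polynomial.algebraMap_eq]
    rw [← e0]
    ext a b
    by_cases he : m = a ∧ l = b
    · obtain ⟨e, e'⟩ := he
      subst e e'
      simp [Matrix.transvection, Matrix.one_apply_ne hne]
    · by_cases hab : a = b
      · subst hab; simp [Matrix.transvection, Matrix.single_apply_of_ne _ _ _ _ _ he]
      · simp [Matrix.transvection, Matrix.single_apply_of_ne _ _ _ _ _ he, Matrix.one_apply_ne hab]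

/-- A slice below `k` is spanned by roots lying in all vertex groups away from an interval. -/
theorem NH_step (s h : ℕ) (h1 : 1 ≤ h) (hk : h < k) (Fx : Subgroup (GG p k s))
    (hsucc : NH p k s (h + 1) ≤ Fx)
    (hroots : ∀ m : Fin k, ∀ g : GG p k s,
      (∀ i : Fin k, i ∉ cyc (m + 1) h → g ∈ KG p k s i) → g ∈ NH p k s h → g ∈ Fx) :
    NH p k s h ≤ Fx := by
  simp only [NH_eq] at *
  intro g hg
  have hmod : h % k ≠ 0 := by rw [Nat.mod_eq_of_lt hk]; omega
  have hg1 := Subgroup.mem_subgroupOf.1 hg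
  obtain ⟨c, hc⟩ := Slices.slice_dec (trunc_AR p s) ((Slices.mem_N h1).1 hg1)
  obtain ⟨y, hyF, hyN, hye⟩ := Slices.exists_prod (hT := trunc_AR p s) h1
    (Fx.map (GG p k s).subtype) Finset.univ
    (fun m => Matrix.single m (Slices.col h m)
      (algebraMap (ZMod p) (AR p s) (c m) * tt p s ^ ((m.1 + h) / k)))
    (fun m _ => Slices.single_mem (by rw [Slices.ord_col]; exact Dvd.intro_left _ rfl))
    (fun m _ => by
      have hne : m ≠ Slices.col h m := fun e => hmod (Slices.col_eq_self.1 e.symm)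
      have hj : m.1 + 1 ≤ (m.1 + h) / k * k + (Slices.col h m).1 := by
        have := Nat.div_add_mod' (m.1 + h) k
        simp only [Slices.col]
        omega
      have hN : (rootG p k s m (Slices.col h m) hne _ (c m) hj).1
          ∈ Slices.N (k := k) (trunc_AR p s) h :=
        Slices.root_mem (hml := hne) h1 (by rw [Slices.ord_col]; exact Dvd.intro_left _ rfl)
      refine ⟨_, ⟨_, hroots m _ (fun i hi => root_mem_KG p k s h h1 hk m hne (c m) hj i hi)
        (Subgroup.mem_subgroupOf.2 hN), rfl⟩, hN, ?_⟩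
      show ((Slices.root m (Slices.col h m) hne
          (algebraMap (ZMod p) (AR p s) (c m) * tt p s ^ ((m.1 + h) / k)) :
            Matrix.SpecialLinearGroup (Fin k) (AR p s)) : Matrix (Fin k) (Fin k) (AR p s)) - 1 - _ ∈ _
      rw [Slices.root_sub_one, sub_self]
      exact Slices.ih_zero _)
  obtain ⟨yG, hyG, rfl⟩ := hyF
  have hd' : (g.1 : Matrix (Fin k) (Fin k) (AR p s)) - (yG.1 : Matrix (Fin k) (Fin k) (AR p s))
      ∈ Slices.Ih (tt p s) (h + 1) := by
    have := Slices.ih_sub hc hye
    convert this using 1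
    simp only [Subgroup.coe_subtype]
    abel
  have h2 : yG⁻¹ * g ∈ NG p k s (h + 1) :=
    Subgroup.mem_subgroupOf.2 (Slices.inv_mul_mem (by omega) ((mem_GG_iff p k s).1 yG.2) hd')
  simpa using mul_mem hyG (hsucc h2)

end Vale.Agent.P067.Cob
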