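import Vale.Agent.P067.Cob.Corner
import Vale.Agent.P067.Cob.Slices
import Vale.Agent.P067.Cob.AffineGam

/-!
Roots touching the complement of a corner fix corner classes (section E2; owner helper8).
-/

namespace Vale.Agent.P067.Cob

open Finset

open scoped Classical

theorem root_fix (p k k' m s : ℕ) [Fact p.Prime] [NeZero k] [NeZero k'] (hp : p ≠ 2) (hs : 2 ≤ s)
    (hU : (Uc p k univ).Ex m) (e : Fin k' ↪o Fin k) (a b : Fin k) (x : GG p k s)
    (hx : IsRoot p k s a b x) (hab : (∀ y, e y ≠ a) ∨ ∀ y, e y ≠ b)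
    (j : ℕ) (hj : j < m) (y : Chain ((i : Fin k') × (GG p k' s ⧸ KG p k' s i)))
    (hy : y ∈ (Wc p k' s univ).chains j) (hyc : bd y = 0) :
    (Wc p k s univ).Null j
      (act (KG p k s) x (vpush (cornerV p k e s) y) + vpush (cornerV p k e s) y) := by
  obtain ⟨hne, hxoff⟩ := hx
  set D := Finset.univ.filter fun n => ∀ y, e y ≠ n with hDdef
  -- a lift of the root
  obtain ⟨q, hq⟩ := Ideal.Quotient.mk_surjective ((x.1 : Matrix (Fin k) (Fin k) (AR p s)) a b)
  have hqX : ¬ a < b → q ∈ Ideal.span {(Polynomial.X : Polynomial (ZMod p))} := by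
    intro hab'
    have h1 := x.2.1 a b hne hab'
    rw [← hq] at h1
    obtain ⟨r, hr⟩ := Ideal.mem_span_singleton'.1 h1
    obtain ⟨r, rfl⟩ := Ideal.Quotient.mk_surjective r
    rw [tt, ← map_mul, Ideal.Quotient.eq, Ideal.mem_span_singleton] at hr
    have h2 := (dvd_pow_self (Polynomial.X : Polynomial (ZMod p)) (show s ≠ 0 by omega)).trans hr
    rw [Ideal.mem_span_singleton]
    have := dvd_sub (dvd_mul_left (Polynomial.X : Polynomial (ZMod p)) r) h2
    rwa [sub_sub_cancel] at this
  let u : Matrix.SpecialLinearGroup (Fin k) (Polynomial (ZMod p)) :=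
    ⟨Matrix.transvection a b q, Matrix.det_transvection_of_ne a b hne q⟩
  have hu : u ∈ Gam p k := by
    refine ⟨fun i l hil hl => ?_, fun i => ?_⟩
    · show Matrix.transvection a b q i l ∈ _
      by_cases h : a = i ∧ b = l
      · obtain ⟨rfl, rfl⟩ := h
        simp [Matrix.transvection, hne, hqX hl]
      · simp [Matrix.transvection, Matrix.single_apply_of_ne _ _ _ _ _ h, hil]
    · show Matrix.transvection a b q i i - 1 ∈ _
      have h : ¬ (a = i ∧ b = i) := fun h => hne (h.1.trans h.2.symm)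
      simp [Matrix.transvection, Matrix.single_apply_of_ne _ _ _ _ _ h]
  have hux : red p k s ⟨u, hu⟩ = x := by
    refine Subtype.ext (Subtype.ext (Matrix.ext fun i l => ?_))
    show Ideal.Quotient.mk _ (Matrix.transvection a b q i l) = _
    by_cases h : a = i ∧ b = l
    · obtain ⟨rfl, rfl⟩ := h
      simp [Matrix.transvection, hne, hq]
    · rw [hxoff i l (fun e => h ⟨(congrArg Prod.fst e).symm, (congrArg Prod.snd e).symm⟩)]
      rw [Matrix.transvection, Matrix.add_apply, Matrix.single_apply_of_ne _ _ _ _ _ h, add_zero,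
        Matrix.one_apply]
      split_ifs <;> simp
  -- the corner
  have hmemD : ∀ n, n ∈ D ↔ ∀ y, e y ≠ n := fun n => by simp [hDdef]
  have hcor : ∀ g : Gam p k', cornerGam p k e g ∈ Aff.corner p k D := by
    intro g n hn l
    refine ⟨?_, ?_⟩
    · show blockExt k e g.1.1 n l = _
      rw [blockExt_apply_off k e g.1.1 n l (Or.inl ((hmemD n).1 hn)), Matrix.one_apply]
    · show blockExt k e g.1.1 l n = _
      rw [blockExt_apply_off k e g.1.1 l n (Or.inr ((hmemD n).1 hn)), Matrix.one_apply]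
  have hsupp : vpush (cornerV p k e s) y ∈ Finsupp.supported (ZMod 2) (ZMod 2)
      {σ | ∃ g ∈ Aff.corner p k D, ∃ T ⊆ (univ : Finset (Fin k)), T.card = j ∧
        σ = cell (KG p k s) (red p k s g) T} := by
    refine Equi.lin_mem (vpush (cornerV p k e s)) _ (fun σ hσ => ?_) hy
    obtain ⟨⟨g, hg⟩, hσj⟩ := hσ
    obtain ⟨g, rfl⟩ := red_surjective p k' s g
    rw [Equi.vpush_single]
    refine Equi.single_mem ⟨cornerGam p k e g, hcor g, (σ.image Sigma.fst).image e,
      subset_univ _, ?_, ?_⟩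
    · rw [Finset.card_image_of_injective _ e.injective, Finset.card_image_of_injOn, hσj]
      intro v hv w hw hvw
      exact Sigma.ext hvw (by
        obtain ⟨i, q⟩ := v
        obtain ⟨i', q'⟩ := w
        cases hvw
        exact heq_of_eq ((hg _ hv).2.trans (hg _ hw).2.symm))
    · have key : ∀ v ∈ σ, cornerV p k e s v =
          ⟨e v.1, ((red p k s (cornerGam p k e g) : GG p k s) : GG p k s ⧸ KG p k s (e v.1))⟩ := by
        rintro ⟨i, q⟩ hv
        rw [show q = ((red p k' s g : GG p k' s) : GG p k' s ⧸ KG p k' s i) from (hg _ hv).2,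
          cornerV_mk, red_cornerGam p k e s g]
      refine Finset.ext fun w => ?_
      simp only [cell, Finset.mem_image]
      constructor
      · rintro ⟨v, hv, rfl⟩
        exact ⟨_, ⟨_, ⟨v, hv, rfl⟩, rfl⟩, (key v hv).symm⟩
      · rintro ⟨_, ⟨_, ⟨v, hv, rfl⟩, rfl⟩, rfl⟩
        exact ⟨v, hv, key v hv⟩
  have hbd : bd (vpush (cornerV p k e s) y) = 0 := by
    rw [Equi.bd_vpush_of (cornerV p k e s) (fun σ hσ v hv w hw hvw => ?_) hy, hyc, map_zero]
    obtain ⟨⟨g, hg⟩, -⟩ := hσ
    have h1 : e v.1 = e w.1 := congrArg Sigma.fst hvw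
    obtain ⟨i, q⟩ := v
    obtain ⟨i', q'⟩ := w
    obtain rfl := e.injective h1
    exact Sigma.ext rfl (heq_of_eq ((hg _ hv).2.trans (hg _ hw).2.symm))
  have h := Aff.affine_null (Nat.Prime.odd_of_ne_two Fact.out hp) hs D univ ⟨u, hu⟩ a b q hne
    (hab.imp (fun h => (hmemD a).2 h) (fun h => (hmemD b).2 h)) rfl hU hj hsupp hbd
  rwa [hux] at h

end Vale.Agent.P067.Cob
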