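import Vale.Agent.P067.Cob.Part
import Vale.Agent.P067.Band.Fills

/-!
Subspace systems and their bands (section B; owner helper29): the interface of
`Vale.Agent.P067.Band`.
-/

namespace Vale.Agent.P067.Cob

open Finset Module

open scoped Classical

/-- A monotone system of subspaces with the interval property. -/
structure Sys (p : ℕ) [Fact p.Prime] (V : Type) [AddCommGroup V] [Module (ZMod p) V] where
  fam : Finset (Submodule (ZMod p) V)
  X : Submodule (ZMod p) V → Prop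
  mono : ∀ U U' : Submodule (ZMod p) V, finrank (ZMod p) U' = finrank (ZMod p) U →
    (∀ F ∈ fam, finrank (ZMod p) ↥(U' ⊓ F) ≤ finrank (ZMod p) ↥(U ⊓ F)) → X U → X U'
  between : ∀ (A B : Submodule (ZMod p) V) (j : ℕ), (A = ⊥ ∨ X A) → (B = ⊤ ∨ X B) → A ≤ B →
    finrank (ZMod p) A < j → j < finrank (ZMod p) B →
      ∃ U, X U ∧ A ≤ U ∧ U ≤ B ∧ finrank (ZMod p) U = j

variable {p : ℕ} [Fact p.Prime] {V : Type} [AddCommGroup V] [Module (ZMod p) V]

/-- The chains of members of dimension between `a` and `b`. -/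
def Sys.band (S : Sys p V) (a b : ℕ) : Cplx (Submodule (ZMod p) V) where
  face σ := (∀ U ∈ σ, S.X U ∧ a ≤ finrank (ZMod p) U ∧ finrank (ZMod p) U ≤ b) ∧
    ∀ U ∈ σ, ∀ U' ∈ σ, U ≤ U' ∨ U' ≤ U
  empty := by simp
  down h hs := ⟨fun U hU => h.1 U (hs hU), fun U hU U' hU' => h.2 U (hs hU) U' (hs hU')⟩

/-- Transversal to every member of a finite family. -/
def IsTrans (fam : Finset (Submodule (ZMod p) V)) (U : Submodule (ZMod p) V) : Prop :=
  ∀ F ∈ fam, finrank (ZMod p) ↥(U ⊓ F) + finrank (ZMod p) V ≤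
    max (finrank (ZMod p) U + finrank (ZMod p) F) (finrank (ZMod p) V)

/-- The system over a general field. -/
def Sys.toBand (S : Sys p V) : Band.Sys (ZMod p) V where
  fam := S.fam
  X := S.X
  mono U U' h := S.mono U U' h.symm
  interval A B hAB hA hB j := S.between A B j hA.symm hB.symm hAB

theorem Sys.toBand_band (S : Sys p V) (a b : ℕ) : S.toBand.band a b = S.band a b := by
  simp only [Band.Sys.band, Sys.band, Cplx.mk.injEq]
  funext σ
  refine propext (and_congr Iff.rfl ⟨fun h U hU U' hU' => h.total hU hU', fun h U hU U' hU' _ => ?_⟩)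
  exact h U hU U' hU'

theorem le_card_zmod {q P₀ : ℕ} [NeZero q] (h : P₀ ≤ q) : (P₀ : ℕ∞) ≤ ENat.card (ZMod q) := by
  rw [ENat.card_eq_coe_fintype_card, ZMod.card]
  exact Nat.cast_le.2 h

theorem isTrans_iff [FiniteDimensional (ZMod p) V] (fam : Finset (Submodule (ZMod p) V))
    (U : Submodule (ZMod p) V) : IsTrans fam U ↔ Band.Transversal fam U := by
  refine forall₂_congr fun F _ => ?_
  have h1 := Submodule.finrank_sup_add_finrank_inf_eq U F
  have h2 := Submodule.finrank_le (U ⊔ F)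
  omega

/-- The band lemma in its sharp range. -/
theorem band_cone (m c : ℕ) {a : ℕ} (ha : 1 ≤ a) : ∃ N p₀, ∀ (p : ℕ) [Fact p.Prime], p₀ ≤ p →
    ∀ (V : Type) [AddCommGroup V] [Module (ZMod p) V] [FiniteDimensional (ZMod p) V],
      ∀ S : Sys p V, S.fam.card ≤ c → ∀ b : ℕ, m + a ≤ b + 1 → b < finrank (ZMod p) V →
        (S.band a b).Cone m N := by
  obtain ⟨N, P₀, h⟩ := Band.band_cone m c ha
  refine ⟨N, P₀, fun p _ hp V _ _ _ S hS b hb hn => ?_⟩
  rw [← Sys.toBand_band]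
  exact (h (ZMod p) V S.toBand b hb hn hS (le_card_zmod hp)).1

theorem exists_transSys (c n : ℕ) : ∃ p₀, ∀ (p : ℕ) [Fact p.Prime], p₀ ≤ p →
    ∀ (V : Type) [AddCommGroup V] [Module (ZMod p) V] [FiniteDimensional (ZMod p) V],
      finrank (ZMod p) V ≤ n → ∀ fam : Finset (Submodule (ZMod p) V), fam.card ≤ c →
        ∃ S : Sys p V, S.fam = fam ∧ S.X = IsTrans fam := by
  refine ⟨c + 2, fun p _ hp V _ _ _ _ fam hfam => ?_⟩
  have hq : (fam.card + 1 : ℕ) < ENat.card (ZMod p) :=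
    lt_of_lt_of_le (Nat.cast_lt.2 (show fam.card + 1 < c + 2 by omega)) (le_card_zmod hp)
  refine ⟨{ fam := fam, X := IsTrans fam, mono := fun U U' hd h hU => ?_,
            between := fun A B j hA hB hAB h1 h2 => ?_ }, rfl, rfl⟩
  · exact (isTrans_iff _ _).2 ((Band.transSys fam hq).mono U U' hd.symm h ((isTrans_iff _ _).1 hU))
  · obtain ⟨U, hU, h⟩ := (Band.transSys fam hq).interval A B hAB
      (hA.symm.imp (isTrans_iff _ _).1 id) (hB.symm.imp (isTrans_iff _ _).1 id) j h1 h2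
    exact ⟨U, (isTrans_iff _ _).2 hU, h⟩

theorem band_fills (m L c n : ℕ) : ∃ N p₀, ∀ (p : ℕ) [Fact p.Prime], p₀ ≤ p →
    ∀ (V : Type) [AddCommGroup V] [Module (ZMod p) V] [FiniteDimensional (ZMod p) V],
      finrank (ZMod p) V ≤ n → ∀ S : Sys p V, S.fam.card ≤ c → ∀ a b : ℕ,
        1 ≤ a → a + 2 * m ≤ b → b < finrank (ZMod p) V → (S.band a b).Fills m L N := by
  choose N P₀ h using fun a => Band.bandFill m c (Nat.le_add_left 1 a) L
  refine ⟨(range n).sup N, (range n).sup P₀, fun p _ hp V _ _ _ hV S hS a b ha hab hb => ?_⟩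
  obtain ⟨a, rfl⟩ : ∃ a', a = a' + 1 := ⟨a - 1, by omega⟩
  have hmem : a ∈ range n := mem_range.2 (by omega)
  rw [← Sys.toBand_band]
  intro j hj z hz hzc hzL
  obtain ⟨w, hw, hwb, hwN⟩ := h a (ZMod p) V S.toBand b (by omega) hb hS
    (le_card_zmod ((le_sup (f := P₀) hmem).trans hp)) j hj z hz hzc hzL
  exact ⟨w, hw, hwb, hwN.trans (le_sup (f := N) hmem)⟩

theorem band_ex (m c n : ℕ) : ∃ p₀, ∀ (p : ℕ) [Fact p.Prime], p₀ ≤ p →
    ∀ (V : Type) [AddCommGroup V] [Module (ZMod p) V] [FiniteDimensional (ZMod p) V],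
      finrank (ZMod p) V ≤ n → ∀ S : Sys p V, S.fam.card ≤ c → ∀ a b : ℕ,
        1 ≤ a → a + 2 * m ≤ b → b < finrank (ZMod p) V → (S.band a b).Ex m := by
  choose N P₀ h using fun a => Band.band_cone m c (Nat.le_add_left 1 a)
  refine ⟨(range n).sup P₀, fun p _ hp V _ _ _ hV S hS a b ha hab hb => ?_⟩
  obtain ⟨a, rfl⟩ : ∃ a', a = a' + 1 := ⟨a - 1, by omega⟩
  have hmem : a ∈ range n := mem_range.2 (by omega)
  rw [← Sys.toBand_band]
  exact (h a (ZMod p) V S.toBand b (by omega) hb hS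
    (le_card_zmod ((le_sup (f := P₀) hmem).trans hp))).2

end Vale.Agent.P067.Cob
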