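import Vale.Agent.P067.Cob.Groups
import Vale.Agent.P067.MatGap
import Vale.Agent.P067.Trickle

/-!
The link gap of the coset complexes, in coordinates: in the unitriangular group over `ZMod p` of the
pattern of a nonempty set of types, two vertex subgroups have a pair gap `p ^ (-1/2)`.
-/

namespace Vale.Agent.P067.Cob

open Finset
open scoped BigOperators

variable {k : ℕ}

/-- The pattern of a set of types `T` with a head `t`. -/
def Rel (t : Fin k) (T : Finset (Fin k)) (m l : Fin k) : Prop := ltc t m l ∧ ∀ u ∈ T, ltc u m l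

theorem Rel_trans (t : Fin k) (T : Finset (Fin k)) (a b c : Fin k) (h : Rel t T a b)
    (h' : Rel t T b c) : Rel t T a c :=
  ⟨ltc_trans _ _ _ _ h.1 h'.1, fun u hu => ltc_trans _ _ _ _ (h.2 u hu) (h'.2 u hu)⟩

theorem Rel_asymm (t : Fin k) (T : Finset (Fin k)) (a b : Fin k) (h : Rel t T a b) :
    ¬ Rel t T b a := fun h' => ltc_asymm _ _ _ h.1 h'.1

theorem ltc_total {i m l : Fin k} (h : m ≠ l) : ltc i m l ∨ ltc i l m := by
  have := i.isLt; have := m.isLt; have := l.isLt
  simp only [ltc, val_sub_eq, ne_eq, Fin.ext_iff] at *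
  split_ifs at * <;> omega

theorem ltc_ne {i m l : Fin k} (h : ltc i m l) : m ≠ l := fun e => by subst e; exact lt_irrefl _ h

/-- The pairs of the pattern cut by the type `i`. -/
def Cut (t : Fin k) (T : Finset (Fin k)) (i m l : Fin k) : Prop := Rel t T m l ∧ ltc i l m

theorem cut_or_rel {t : Fin k} {T : Finset (Fin k)} {i m l : Fin k} (h : Rel t T m l) :
    Cut t T i m l ∨ Rel t (insert i T) m l := by
  rcases ltc_total (i := i) (ltc_ne h.1) with h' | h'
  · exact Or.inr ⟨h.1, by simpa using ⟨h', h.2⟩⟩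
  · exact Or.inl ⟨h, h'⟩

theorem Cut_right {t : Fin k} {T : Finset (Fin k)} {i m q l : Fin k} (h : Cut t T i m q)
    (h' : Rel t T q l) : Cut t T i m l := by
  refine ⟨Rel_trans _ _ _ _ _ h.1 h', ?_⟩
  have h1 := h.1.1; have h2 := h.2; have h3 := h'.1
  have := t.isLt; have := i.isLt; have := m.isLt; have := q.isLt; have := l.isLt
  simp only [ltc, val_sub_eq, ne_eq, Fin.ext_iff] at *
  split_ifs at * <;> omega

theorem Cut_left {t : Fin k} {T : Finset (Fin k)} {i m q l : Fin k} (h : Rel t T m q)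
    (h' : Cut t T i q l) : Cut t T i m l := by
  refine ⟨Rel_trans _ _ _ _ _ h h'.1, ?_⟩
  have h1 := h'.1.1; have h2 := h'.2; have h3 := h.1
  have := t.isLt; have := i.isLt; have := m.isLt; have := q.isLt; have := l.isLt
  simp only [ltc, val_sub_eq, ne_eq, Fin.ext_iff] at *
  split_ifs at * <;> omega

theorem not_Cut_Cut {t : Fin k} {T : Finset (Fin k)} {i m q l : Fin k} (h : Cut t T i m q)
    (h' : Cut t T i q l) : False := by
  have h1 := h.1.1; have h2 := h.2; have h3 := h'.1.1; have h4 := h'.2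
  have := t.isLt; have := i.isLt; have := m.isLt; have := q.isLt; have := l.isLt
  simp only [ltc, val_sub_eq, ne_eq, Fin.ext_iff] at *
  split_ifs at * <;> omega

theorem ltc_between {t i j m c : Fin k} (h1 : ltc t m c) (h2 : ltc i c m) (hj : ltc j c m)
    (hij : ltc t i j) : ltc j m i := by
  have := t.isLt; have := i.isLt; have := j.isLt; have := m.isLt; have := c.isLt
  unfold ltc at *
  simp only [val_sub_eq] at h1 h2 hj hij ⊢
  have hi' : (i : ℕ) ≤ m → (i : ℕ) ≤ c → (c : ℕ) < m := fun a b => by rw [if_pos a, if_pos b] at h2; omega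
  split_ifs at * <;> omega

/-- Two types between a comparable pair cut by both: the first of them. -/
theorem between {t : Fin k} {T : Finset (Fin k)} {i j m c : Fin k} (hm : Cut t T i m c)
    (hj : ltc j c m) (hij : ltc t i j) :
    Cut t T i m i ∧ ltc j m i ∧ Rel t (insert i T) i c ∧ m ≠ i ∧ i ≠ c := by
  have := t.isLt; have := i.isLt; have := j.isLt; have := m.isLt; have := c.isLt
  have h1 := hm.1.1; have h2 := hm.2
  have hmi : ltc i i m := by
    clear hm hj hij h1
    simp only [ltc, val_sub_eq, ne_eq, Fin.ext_iff] at *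
    split_ifs at * <;> omega
  have hic : ltc i i c := by
    clear hm hmi
    simp only [ltc, val_sub_eq, ne_eq, Fin.ext_iff] at *
    split_ifs at * <;> omega
  have key : ∀ u : Fin k, ltc u m c → ltc u m i ∧ ltc u i c := fun u hu => by
    clear hm hj hij h1
    have := u.isLt
    constructor <;>
      { simp only [ltc, val_sub_eq, ne_eq, Fin.ext_iff] at *; split_ifs at * <;> omega }
  have hjm : ltc j m i := ltc_between h1 h2 hj hij
  exact ⟨⟨⟨(key t h1).1, fun u hu => (key u (hm.1.2 u hu)).1⟩, hmi⟩, hjm,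
    ⟨(key t h1).2, by simpa using ⟨hic, fun u hu => (key u (hm.1.2 u hu)).2⟩⟩,
    ltc_ne (key t h1).1, ltc_ne (key t h1).2⟩

/-- The determinant of a unitriangular matrix in the cyclic order from `t`. -/
theorem det_eq_one_of_ltc [NeZero k] {A : Type*} [CommRing A] (t : Fin k)
    (M : Matrix (Fin k) (Fin k) A) (hd : ∀ m, M m m = 1)
    (h0 : ∀ m l, m ≠ l → ¬ ltc t m l → M m l = 0) : M.det = 1 := by
  rw [← Matrix.det_submatrix_equiv_self (Equiv.addRight t) M, Matrix.det_of_isUpperTriangular]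
  · exact prod_eq_one fun x _ => hd _
  · intro a b hab
    refine h0 _ _ (fun e => hab.ne' (add_right_cancel e)) fun h => ?_
    simp only [Equiv.coe_addRight, ltc, add_sub_cancel_right] at h
    exact absurd h (not_lt.2 (le_of_lt hab))

variable (p : ℕ)

/-- The pattern unitriangular group over the field. -/
def UT (t : Fin k) (T : Finset (Fin k)) :
    Subgroup (Matrix.SpecialLinearGroup (Fin k) (ZMod p)) :=
  Pat (⊥ : Ideal (ZMod p)) (Rel t T) (Rel_trans t T) (Rel_asymm t T)

variable {p}

theorem mem_UT {t : Fin k} {T : Finset (Fin k)} {g : Matrix.SpecialLinearGroup (Fin k) (ZMod p)} :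
    g ∈ UT p t T ↔ (∀ m l, m ≠ l → ¬ Rel t T m l → g m l = 0) ∧ ∀ m, g m m = 1 := by
  simp only [UT, ← Subgroup.mem_toSubmonoid]
  simp [Pat, patAlg, sub_eq_zero]

theorem UT_anti (t : Fin k) {T T' : Finset (Fin k)} (h : T ⊆ T') : UT p t T' ≤ UT p t T := by
  intro g hg
  rw [mem_UT] at hg ⊢
  exact ⟨fun m l hne hr => hg.1 m l hne fun h' => hr ⟨h'.1, fun u hu => h'.2 u (h hu)⟩, hg.2⟩

variable (p) in
/-- Matrices supported on the pairs cut by `i`. -/
def Vcut (t : Fin k) (T : Finset (Fin k)) (i : Fin k) : AddSubgroup (Matrix (Fin k) (Fin k) (ZMod p)) where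
  carrier := {X | ∀ m l, ¬ Cut t T i m l → X m l = 0}
  zero_mem' := by simp
  add_mem' ha hb m l h := by simp [ha m l h, hb m l h]
  neg_mem' ha m l h := by simp [ha m l h]

variable (p) in
/-- The part of the cut pairs which `j` keeps. -/
def Vkeep (t : Fin k) (T : Finset (Fin k)) (i j : Fin k) :
    AddSubgroup (Matrix (Fin k) (Fin k) (ZMod p)) where
  carrier := {X | ∀ m l, ¬ (Cut t T i m l ∧ ltc j m l) → X m l = 0}
  zero_mem' := by simp
  add_mem' ha hb m l h := by simp [ha m l h, hb m l h]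
  neg_mem' ha m l h := by simp [ha m l h]

variable {t : Fin k} {T : Finset (Fin k)} {i j : Fin k}

theorem Vkeep_le : Vkeep p t T i j ≤ Vcut p t T i := fun _ hX m l h => hX m l fun h' => h h'.1

theorem UT_mul_Vcut {g : Matrix.SpecialLinearGroup (Fin k) (ZMod p)} (hg : g ∈ UT p t T)
    {X : Matrix (Fin k) (Fin k) (ZMod p)} (hX : X ∈ Vcut p t T i) :
    (g : Matrix (Fin k) (Fin k) (ZMod p)) * X ∈ Vcut p t T i := fun m l h => by
  refine (Matrix.mul_apply).trans (sum_eq_zero fun q _ => ?_)
  rcases eq_or_ne m q with rfl | hmq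
  · rw [hX _ _ h, mul_zero]
  by_cases hr : Rel t T m q
  · rw [hX q l fun h' => h (Cut_left hr h'), mul_zero]
  · rw [(mem_UT.1 hg).1 _ _ hmq hr, zero_mul]

theorem Vcut_mul_UT {g : Matrix.SpecialLinearGroup (Fin k) (ZMod p)} (hg : g ∈ UT p t T)
    {X : Matrix (Fin k) (Fin k) (ZMod p)} (hX : X ∈ Vcut p t T i) :
    X * (g : Matrix (Fin k) (Fin k) (ZMod p)) ∈ Vcut p t T i := fun m l h => by
  refine (Matrix.mul_apply).trans (sum_eq_zero fun q _ => ?_)
  rcases eq_or_ne q l with rfl | hql
  · rw [hX _ _ h, zero_mul]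
  by_cases hr : Rel t T q l
  · rw [hX m q fun h' => h (Cut_right h' hr), zero_mul]
  · rw [(mem_UT.1 hg).1 _ _ hql hr, mul_zero]

theorem Vcut_mul_Vcut {X Y : Matrix (Fin k) (Fin k) (ZMod p)} (hX : X ∈ Vcut p t T i)
    (hY : Y ∈ Vcut p t T i) : X * Y = 0 := by
  ext m l
  refine (Matrix.mul_apply).trans (sum_eq_zero fun q _ => ?_)
  by_cases h : Cut t T i m q
  · rw [hY q l (not_Cut_Cut h), mul_zero]
  · rw [hX m q h, zero_mul]

/-- Conjugation on the cut matrices. -/
noncomputable def conjCut (h : UT p t T) : Vcut p t T i →+ Vcut p t T i where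
  toFun X := ⟨_, Vcut_mul_UT (inv_mem h.2) (UT_mul_Vcut h.2 X.2)⟩
  map_zero' := Subtype.ext (by simp)
  map_add' X Y := Subtype.ext (by simp [mul_add, add_mul])

variable [NeZero k]

theorem exists_unip {X : Matrix (Fin k) (Fin k) (ZMod p)}
    (hX : ∀ m l, ¬ Rel t T m l → X m l = 0) :
    ∃ g : UT p t T, ((g : Matrix.SpecialLinearGroup (Fin k) (ZMod p)) : Matrix (Fin k) (Fin k) (ZMod p))
      = 1 + X := by
  have hd : ∀ m, (1 + X) m m = 1 := fun m => by
    rw [Matrix.add_apply, hX m m (fun h => ltc_ne h.1 rfl)]; simp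
  have h0 : ∀ m l, m ≠ l → ¬ Rel t T m l → (1 + X) m l = 0 := fun m l hne h => by
    rw [Matrix.add_apply, hX m l h]; simp [hne]
  refine ⟨⟨⟨1 + X, det_eq_one_of_ltc t _ hd fun m l hne h => h0 m l hne fun h' => h h'.1⟩, ?_⟩, rfl⟩
  exact mem_UT.2 ⟨h0, hd⟩

/-- The element `1 + X`. -/
noncomputable def unip (X : Vcut p t T i) : UT p t T :=
  (exists_unip (X := X.1) fun m l h => X.2 m l fun h' => h h'.1).choose

@[simp] theorem coe_unip (X : Vcut p t T i) :
    ((unip X : Matrix.SpecialLinearGroup (Fin k) (ZMod p)) : Matrix (Fin k) (Fin k) (ZMod p))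
      = 1 + X.1 :=
  (exists_unip (X := X.1) fun m l h => X.2 m l fun h' => h h'.1).choose_spec

omit [NeZero k] in
theorem UT_ext {g g' : UT p t T}
    (h : ((g : Matrix.SpecialLinearGroup (Fin k) (ZMod p)) : Matrix (Fin k) (Fin k) (ZMod p)) =
      (g' : Matrix.SpecialLinearGroup (Fin k) (ZMod p))) : g = g' :=
  Subtype.ext (Subtype.ext h)

omit [NeZero k] in
@[simp] theorem coe_mul_UT (g g' : UT p t T) :
    (((g * g' : UT p t T) : Matrix.SpecialLinearGroup (Fin k) (ZMod p)) :
      Matrix (Fin k) (Fin k) (ZMod p)) =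
      (g : Matrix.SpecialLinearGroup (Fin k) (ZMod p)).1 * (g' : Matrix.SpecialLinearGroup (Fin k) (ZMod p)).1 :=
  rfl

omit [NeZero k] in
@[simp] theorem inv_mul_mat (g : Matrix.SpecialLinearGroup (Fin k) (ZMod p)) :
    (g⁻¹).1 * g.1 = 1 := by
  exact congrArg Subtype.val (inv_mul_cancel g)

/-- The smaller group inside the group. -/
noncomputable def utIncl (h : UT p t (insert i T)) : UT p t T :=
  ⟨h.1, UT_anti t (subset_insert i T) h.2⟩

theorem unip_add (X Y : Vcut p t T i) : unip (X + Y) = unip X * unip Y := UT_ext <| by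
  simp [mul_add, add_mul, Vcut_mul_Vcut X.2 Y.2, add_assoc, add_comm, add_left_comm]

theorem mul_unip (h : UT p t T) (u : Vcut p t T i) : h * unip u = unip (conjCut h u) * h :=
  UT_ext <| by
    simp only [coe_mul_UT, coe_unip, conjCut, AddMonoidHom.coe_mk, ZeroHom.coe_mk, add_mul, one_mul,
      mul_add, mul_one, mul_assoc, inv_mul_mat]

theorem bijective_unip_mul :
    Function.Bijective fun q : Vcut p t T i × UT p t (insert i T) => unip q.1 * utIncl q.2 := by
  refine ⟨fun q q' hqq => ?_, fun x => ?_⟩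
  · have hz : unip (q.1 - q'.1) = utIncl q'.2 * (utIncl q.2)⁻¹ := by
      have e : unip q.1 = unip q'.1 * unip (q.1 - q'.1) := by rw [← unip_add, add_sub_cancel]
      simp only [e, mul_assoc, mul_right_inj] at hqq
      exact eq_mul_inv_of_mul_eq hqq
    have hmem : (unip (q.1 - q'.1)).1 ∈ UT p t (insert i T) := by
      rw [hz]; exact mul_mem q'.2.2 (inv_mem q.2.2)
    have h1 : q.1 = q'.1 := sub_eq_zero.1 <| Subtype.ext <| by
      ext m l
      by_cases hc : Cut t T i m l
      · have := (mem_UT.1 hmem).1 m l (ltc_ne hc.1.1) fun h =>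
          ltc_asymm _ _ _ hc.2 (h.2 i (mem_insert_self i T))
        rw [coe_unip, Matrix.add_apply, Matrix.one_apply_ne (ltc_ne hc.1.1), zero_add] at this
        simpa using this
      · simpa using (q.1 - q'.1).2 m l hc
    refine Prod.ext h1 (Subtype.ext ?_)
    simp only [h1, mul_right_inj] at hqq
    exact congrArg (fun g : UT p t T => g.1) hqq
  · classical
    obtain ⟨B, hB⟩ := exists_unip (t := t) (T := insert i T)
      (X := Matrix.of fun m l => if Rel t (insert i T) m l then x.1 m l else (0 : ZMod p))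
      fun m l h => by simp [h]
    have hD : (x.1 : Matrix (Fin k) (Fin k) (ZMod p)) - B.1 ∈ Vcut p t T i := fun m l h => by
      rw [Matrix.sub_apply, hB, Matrix.add_apply]
      rcases eq_or_ne m l with rfl | hne
      · have hno : ¬ Rel t (insert i T) m m := fun h => ltc_ne h.1 rfl
        simp [(mem_UT.1 x.2).2 m, hno]
      by_cases hr : Rel t (insert i T) m l
      · simp [hr, hne]
      · simp [hr, hne, (mem_UT.1 x.2).1 m l hne fun h' => (cut_or_rel h').elim h hr]
    refine ⟨(⟨_, Vcut_mul_UT (inv_mem (utIncl B).2) hD⟩, B), UT_ext ?_⟩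
    simp only [coe_mul_UT, coe_unip, utIncl, add_mul, one_mul, mul_assoc, inv_mul_mat, mul_one,
      add_sub_cancel]

variable [Fact p.Prime]

noncomputable instance : Fintype (UT p t T) := Fintype.ofFinite _

/-- A nontrivial character of the cut matrices is trivial on few of the conjugates of the kept
part. -/
theorem card_good_le (hij : ltc t i j) {ψ : AddChar (Vcut p t T i) ℂ} (hψ : ψ ≠ 0) :
    (Nat.card {h : UT p t (insert i T) // ∀ u : Vkeep p t T i j,
        ψ (conjCut (utIncl h) (AddSubgroup.inclusion Vkeep_le u)) = 1} : ℝ) ≤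
      1 / p * Fintype.card (UT p t (insert i T)) := by
  classical
  have hpR : (0 : ℝ) < p := by exact_mod_cast (Fact.out : p.Prime).pos
  let proj : Matrix (Fin k) (Fin k) (ZMod p) →+ Vcut p t T i :=
    { toFun := fun X => ⟨Matrix.of fun m l => if Cut t T i m l then X m l else 0, fun m l h => by simp [h]⟩
      map_zero' := Subtype.ext (by ext m l; simp)
      map_add' := fun X Y => Subtype.ext (by ext m l; by_cases h : Cut t T i m l <;> simp [h]) }
  set Ψ := ψ.compAddMonoidHom proj
  have hsum : ∀ X : Matrix (Fin k) (Fin k) (ZMod p),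
      Ψ X = ∏ a : Fin k × Fin k, Ψ (Matrix.single a.1 a.2 (X a.1 a.2)) := fun X => by
    conv_lhs => rw [Matrix.matrix_eq_sum_single X, ← Fintype.sum_prod_type']
    induction (univ : Finset (Fin k × Fin k)) using Finset.induction_on with
    | empty => simp
    | insert a s ha ih => rw [sum_insert ha, prod_insert ha, AddChar.map_add_eq_mul, ih]
  have hfix : ∀ X : Vcut p t T i, ψ X = Ψ X.1 := fun X => by
    refine congrArg ψ (Subtype.ext ?_)
    ext m l
    by_cases h : Cut t T i m l <;> simp [proj, h, X.2 m l]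
  set P := (univ : Finset (Fin k × Fin k)).filter fun a => ∃ v, Ψ (Matrix.single a.1 a.2 v) ≠ 1
  have hP : P.Nonempty := by
    by_contra hne
    refine hψ (AddChar.eq_zero_iff.2 fun X => ?_)
    rw [hfix, hsum]
    exact prod_eq_one fun a _ => by_contra fun h => hne ⟨a, mem_filter.2 ⟨mem_univ _, _, h⟩⟩
  obtain ⟨⟨m, c⟩, hmc, hmax⟩ := exists_max_image P
    (fun a => (a.2 - t).val * k + (k - 1 - (a.1 - t).val)) hP
  obtain ⟨v, hv⟩ := (mem_filter.1 hmc).2
  simp only at hv
  have hcut : Cut t T i m c := by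
    by_contra h
    apply hv
    have e : proj (Matrix.single m c v) = 0 := Subtype.ext (by
      ext a b
      by_cases hab : m = a ∧ c = b
      · obtain ⟨rfl, rfl⟩ := hab; simp [proj, h]
      · simp [proj, Matrix.single, hab])
    simp [Ψ, e]
  let E : ZMod p → Vcut p t T i := fun w => proj (Matrix.single m c w)
  have hE : ∀ w, (E w).1 = Matrix.single m c w := fun w => by
    ext a b
    by_cases hab : m = a ∧ c = b
    · obtain ⟨rfl, rfl⟩ := hab; simp [E, proj, hcut]
    · simp [E, proj, Matrix.single, hab]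
  have hlead : ∀ (h : UT p t (insert i T)) w,
      ψ (conjCut (utIncl h) (E w)) = Ψ (Matrix.single m c w) := fun h w => by
    rw [hfix, hsum]
    have hh := mem_UT.1 (utIncl h).2
    have hh' := mem_UT.1 (inv_mem (utIncl h).2)
    simp only [conjCut, AddMonoidHom.coe_mk, ZeroHom.coe_mk, hE]
    have hmul : ∀ (H G : Matrix (Fin k) (Fin k) (ZMod p)) a b,
        (H * Matrix.single m c w * G) a b = H a m * w * G c b := fun H G a b => by
      simp [Matrix.mul_apply, Matrix.single, ite_and, mul_assoc]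
    rw [prod_eq_single (m, c)]
    · rw [hmul, hh.2, hh'.2, one_mul, mul_one]
    · rintro ⟨a, b⟩ - hne
      by_contra hab
      have hab' := hmax (a, b) (mem_filter.2 ⟨mem_univ _, _, hab⟩)
      simp only at hab'
      apply hab
      have hx : (utIncl h).1 a m * w * ((utIncl h).1⁻¹ : Matrix.SpecialLinearGroup (Fin k) (ZMod p)) c b = 0 := by
        by_contra hx
        have h1 : a = m ∨ ltc t a m := or_iff_not_imp_left.2 fun e => by
          by_contra hc'; exact hx (by rw [hh.1 a m e fun r => hc' r.1, zero_mul, zero_mul])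
        have h2 : c = b ∨ ltc t c b := or_iff_not_imp_left.2 fun e => by
          by_contra hc'; exact hx (by rw [hh'.1 c b e fun r => hc' r.1, mul_zero])
        have := (a - t).isLt; have := (m - t).isLt; have := (c - t).isLt; have := (b - t).isLt
        rcases h2 with rfl | h2
        · rcases h1 with rfl | h1
          · exact hne rfl
          · simp only [ltc] at h1; omega
        · have : ((c - t).val + 1) * k ≤ (b - t).val * k := Nat.mul_le_mul_right k h2
          rw [add_mul, one_mul] at this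
          omega
      rw [hmul, hx, Matrix.single_zero, AddChar.map_zero_eq_one]
    · simp
  by_cases hj : ltc j m c
  · have : IsEmpty {h : UT p t (insert i T) // ∀ u : Vkeep p t T i j,
        ψ (conjCut (utIncl h) (AddSubgroup.inclusion Vkeep_le u)) = 1} := ⟨fun ⟨h, hh⟩ => hv <| by
      have hk : (E v).1 ∈ Vkeep p t T i j := fun a b hab => by
        rw [hE]
        exact Matrix.single_apply_of_ne _ _ _ _ _ (fun e => hab (by rw [← e.1, ← e.2]; exact ⟨hcut, hj⟩))
      have := hh ⟨_, hk⟩
      rwa [show AddSubgroup.inclusion Vkeep_le ⟨_, hk⟩ = E v from rfl, hlead] at this⟩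
    rw [Nat.card_of_isEmpty, Nat.cast_zero]
    positivity
  obtain ⟨hmi, hjmi, hic, nmi, nic⟩ :=
    between hcut ((ltc_total (ltc_ne hcut.1.1)).resolve_left hj) hij
  have nmc := ltc_ne hcut.1.1
  choose ee hee using fun a : ZMod p => exists_unip (t := t) (T := insert i T)
    (X := Matrix.single i c a) fun x y h =>
      Matrix.single_apply_of_ne _ _ _ _ _ (fun e => h (by rw [← e.1, ← e.2]; exact hic))
  have hee_add : ∀ a b, ee (a + b) = ee a * ee b := fun a b => UT_ext <| by
    simp [hee, mul_add, add_mul, Matrix.single_add, nic.symm, add_assoc, add_comm, add_left_comm]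
  let f : {h : UT p t (insert i T) // ∀ u : Vkeep p t T i j,
        ψ (conjCut (utIncl h) (AddSubgroup.inclusion Vkeep_le u)) = 1} × ZMod p →
      UT p t (insert i T) := fun q => q.1.1 * ee q.2
  have hinj : Function.Injective f := by
    rintro ⟨⟨h, hh⟩, a⟩ ⟨⟨h', hh'⟩, a'⟩ he
    simp only [f] at he
    rcases eq_or_ne a a' with rfl | ha
    · simp [mul_right_cancel he]
    exfalso
    have hd : h' = h * ee (a - a') := by
      rw [← mul_left_inj (ee a'), ← he, mul_assoc, ← hee_add, sub_add_cancel]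
    let w := -v / (a - a')
    have hk : Matrix.single m i w ∈ Vkeep p t T i j := fun x y hxy =>
      Matrix.single_apply_of_ne _ _ _ _ _ (fun e => hxy (by rw [← e.1, ← e.2]; exact ⟨hmi, hjmi⟩))
    set U : Vcut p t T i := AddSubgroup.inclusion Vkeep_le ⟨_, hk⟩ with hU
    have hU1 : U.1 = Matrix.single m i w := rfl
    have h1 := hh' ⟨_, hk⟩
    have h0 := hh ⟨_, hk⟩
    rw [← hU] at h0 h1
    have key : conjCut (utIncl h') U = conjCut (utIncl h) U + conjCut (utIncl h) (E v) := by
      rw [← map_add]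
      apply Subtype.ext
      have hei : ((((ee (a - a')).1)⁻¹ : Matrix.SpecialLinearGroup (Fin k) (ZMod p)) :
          Matrix (Fin k) (Fin k) (ZMod p)) = 1 + Matrix.single i c (-(a - a')) := by
        rw [← hee, show ee (-(a - a')) = (ee (a - a'))⁻¹ from eq_inv_of_mul_eq_one_left (by
          rw [← hee_add, neg_add_cancel]; exact UT_ext (by simp [hee]))]
        rfl
      have hwv : w * -(a - a') = v := by
        simp only [w]; field_simp [sub_ne_zero.2 ha]
      simp only [conjCut, AddMonoidHom.coe_mk, ZeroHom.coe_mk, utIncl, hd, Subgroup.coe_mul,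
        Matrix.SpecialLinearGroup.coe_mul, mul_inv_rev, hee, hei, AddSubgroup.coe_add, hE, hU1]
      simp only [← mul_assoc]
      rw [mul_assoc (h.1 : Matrix (Fin k) (Fin k) (ZMod p)) (1 + Matrix.single i c (a - a'))]
      rw [mul_assoc (h.1 : Matrix (Fin k) (Fin k) (ZMod p))]
      congr 2
      rw [neg_sub] at hwv
      simp [mul_add, add_mul, nmi.symm, nmc.symm, hwv]
    rw [key, AddChar.map_add_eq_mul, h0, one_mul, hlead] at h1
    exact hv h1
  have hc := Nat.card_le_card_of_injective f hinj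
  rw [Nat.card_prod, Nat.card_zmod, Nat.card_eq_fintype_card (α := UT p t (insert i T))] at hc
  rw [div_mul_eq_mul_div, one_mul, le_div_iff₀ hpR]
  exact_mod_cast hc

/-- The pair gap of two types in the link of a nonempty set of types. -/
theorem block_gap (hij : i ≠ j) (f g : UT p t T → ℝ)
    (hf : ∀ x h : UT p t T, h.1 ∈ UT p t (insert i T) → f (x * h) = f x)
    (hg : ∀ x h : UT p t T, h.1 ∈ UT p t (insert j T) → g (x * h) = g x)
    (hf0 : ∑ x, f x = 0) (hg0 : ∑ x, g x = 0) :
    ∑ x, f x * g x ≤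
      Real.sqrt (1 / p) * (Real.sqrt (∑ x, f x ^ 2) * Real.sqrt (∑ x, g x ^ 2)) := by
  classical
  wlog hlt : ltc t i j generalizing i j f g with H
  · have := H hij.symm g f hg hf hg0 hf0 ((ltc_total hij).resolve_left hlt)
    simpa [mul_comm] using this
  set φ : UT p t (insert i T) → Vkeep p t T i j →+ Vcut p t T i := fun h =>
    (conjCut (utIncl h)).comp (AddSubgroup.inclusion Vkeep_le)
  set F : Vcut p t T i → ℝ := fun X => f (unip X)
  set nu : Vkeep p t T i j → UT p t T := fun u => unip (AddSubgroup.inclusion Vkeep_le u)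
  set e := Equiv.ofBijective _ (bijective_unip_mul (p := p) (t := t) (T := T) (i := i))
  set H : ℝ := (Fintype.card (UT p t (insert i T)) : ℝ)
  set C : ℝ := (Fintype.card (Vkeep p t T i j) : ℝ)
  have hfF : ∀ X h, f (unip X * utIncl h) = F X := fun X h => hf _ _ h.2
  have hsum : ∀ G : UT p t T → ℝ, ∑ x, G x = ∑ X, ∑ h, G (unip X * utIncl h) := fun G => by
    rw [← e.sum_comp, Fintype.sum_prod_type]
    rfl
  have hF0 : ∑ X, F X = 0 := by
    rw [hsum] at hf0
    simp only [hfF, sum_const, card_univ, nsmul_eq_mul, ← mul_sum] at hf0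
    exact (mul_eq_zero.1 hf0).resolve_left (Nat.cast_ne_zero.2 Fintype.card_ne_zero)
  have hF2 : ∑ x, f x ^ 2 = H * ∑ X, F X ^ 2 := by
    rw [hsum]; simp [hfF, H, ← mul_sum]
  have hgap := sum_translate_le φ (1 / p) (fun ψ hψ => card_good_le hlt hψ) F hF0
  have h1 : ∑ u, ∑ x, f x * f (x * nu u) = ∑ h, ∑ u, ∑ X, F X * F (X + φ h u) := by
    rw [sum_comm (γ := UT p t (insert i T))]
    refine sum_congr rfl fun u _ => ?_
    rw [hsum, sum_comm]
    refine sum_congr rfl fun h _ => sum_congr rfl fun X _ => ?_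
    rw [hfF, mul_assoc, mul_unip, ← mul_assoc, ← unip_add, hfF]
    rfl
  have h2 : C * ∑ x, f x * g x = ∑ x, (∑ u, f (x * nu u)) * g x := by
    simp only [sum_mul]
    rw [sum_comm, ← sum_congr rfl fun u _ => (?_ : ∑ x, f x * g x = ∑ x, f (x * nu u) * g x)]
    · simp [C]
    rw [← Equiv.sum_comp (Equiv.mulRight (nu u))]
    refine sum_congr rfl fun x _ => ?_
    rw [Equiv.coe_mulRight, hg]
    refine mem_UT.2 ⟨fun a b hab hr => ?_, fun a => (mem_UT.1 (nu u).2).2 a⟩
    simp only [nu, coe_unip, Matrix.add_apply, Matrix.one_apply_ne hab, zero_add]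
    refine u.2 a b fun hc => hr ⟨hc.1.1.1, fun y hy => ?_⟩
    rcases mem_insert.1 hy with rfl | hy
    exacts [hc.2, hc.1.1.2 y hy]
  have h3 : ∑ x, (∑ u, f (x * nu u)) ^ 2 = C * ∑ u, ∑ x, f x * f (x * nu u) := by
    simp only [pow_two, sum_mul_sum]
    rw [sum_comm, show C * ∑ u, ∑ x, f x * f (x * nu u) =
      ∑ _u' : Vkeep p t T i j, ∑ u, ∑ x, f x * f (x * nu u) by simp [C]]
    refine sum_congr rfl fun u' _ => ?_
    rw [sum_comm, ← Equiv.sum_comp (Equiv.addLeft u')]
    refine sum_congr rfl fun u _ => ?_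
    conv_rhs => rw [← Equiv.sum_comp (Equiv.mulRight (nu u'))]
    refine sum_congr rfl fun x _ => ?_
    simp only [Equiv.coe_addLeft, Equiv.coe_mulRight, nu, map_add, unip_add, mul_assoc]
  have h4 : ∑ x, (∑ u, f (x * nu u)) ^ 2 ≤ C ^ 2 * (1 / p * ∑ x, f x ^ 2) := by
    rw [h3, h1, hF2]
    calc C * _ ≤ C * (1 / p * H * C * ∑ X, F X ^ 2) :=
          mul_le_mul_of_nonneg_left hgap (Nat.cast_nonneg _)
      _ = _ := by ring
  have hCp : 0 < C := by simp only [C]; exact_mod_cast Fintype.card_pos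
  refine le_of_mul_le_mul_left ?_ hCp
  rw [h2]
  refine (Real.sum_mul_le_sqrt_mul_sqrt _ _ _).trans ?_
  calc Real.sqrt (∑ x, (∑ u, f (x * nu u)) ^ 2) * Real.sqrt (∑ x, g x ^ 2)
      ≤ C * (Real.sqrt (1 / p) * Real.sqrt (∑ x, f x ^ 2)) * Real.sqrt (∑ x, g x ^ 2) := by
        refine mul_le_mul_of_nonneg_right ((Real.sqrt_le_sqrt h4).trans_eq ?_) (Real.sqrt_nonneg _)
        rw [Real.sqrt_mul (sq_nonneg C), Real.sqrt_sq hCp.le, Real.sqrt_mul (by positivity)]
    _ = _ := by ring

end Vale.Agent.P067.Cob
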