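import Vale.Agent.P067.Cob.Band

/-!
Chains of subspaces transversal to the standard flag, and transitivity of the unitriangular
matrices on them (section B, instance Flag; owner helper7).
-/

namespace Vale.Agent.P067.Cob

open Finset Module

open scoped Classical

set_option linter.unusedSectionVars false
set_option linter.unusedVariables false
set_option linter.unusedSimpArgs false

variable {p : ℕ} [Fact p.Prime] {n : ℕ}

/-- The vectors supported on the coordinates in `q`. -/
def coordSub (p : ℕ) {n : ℕ} (q : Fin n → Prop) : Submodule (ZMod p) (Fin n → ZMod p) where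
  carrier := {v | ∀ y, ¬ q y → v y = 0}
  zero_mem' := fun _ _ => rfl
  add_mem' {u v} hu hv y hy := by simp [hu y hy, hv y hy]
  smul_mem' c v hv y hy := by simp [hv y hy]

theorem finrank_coordSub (q : Fin n → Prop) :
    finrank (ZMod p) (coordSub p q) = (univ.filter q).card := by
  let e : coordSub p q ≃ₗ[ZMod p] ({y // q y} → ZMod p) :=
    { toFun := fun v y => v.1 y.1
      invFun := fun w => ⟨fun y => if h : q y then w ⟨y, h⟩ else 0, fun y hy => dif_neg hy⟩
      map_add' := fun u v => rfl
      map_smul' := fun c v => rfl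
      left_inv := fun v => by
        apply Subtype.ext
        funext y
        by_cases h : q y
        · simp [h]
        · simp [h, v.2 y h]
      right_inv := fun w => by
        funext y
        simp [y.2] }
  rw [LinearEquiv.finrank_eq e, Module.finrank_pi, Fintype.card_subtype]

/-- The `l`-th member of the standard flag: vectors supported on the first `l` coordinates. -/
def Fl (p : ℕ) (n l : ℕ) : Submodule (ZMod p) (Fin n → ZMod p) := coordSub p fun y => y.val < l

/-- The standard transversal: vectors supported on the coordinates from `x` on. -/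
def St (p : ℕ) (n x : ℕ) : Submodule (ZMod p) (Fin n → ZMod p) := coordSub p fun y => x ≤ y.val

/-- The standard flag as a family. -/
noncomputable def flagFam (p n : ℕ) : Finset (Submodule (ZMod p) (Fin n → ZMod p)) :=
  (Finset.range (n + 1)).image (Fl p n)

theorem card_flagFam_le : (flagFam p n).card ≤ n + 1 :=
  Finset.card_image_le.trans (by simp)

theorem finrank_Fl {l : ℕ} (hl : l ≤ n) : finrank (ZMod p) (Fl p n l) = l := by
  rw [Fl, finrank_coordSub]
  have h : ((univ : Finset (Fin n)).filter fun y => y.val < l).map Fin.valEmbedding = range l := by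
    ext a
    simp only [mem_map, mem_filter, mem_univ, true_and, mem_range, Fin.valEmbedding_apply]
    constructor
    · rintro ⟨y, hy, rfl⟩; exact hy
    · intro ha; exact ⟨⟨a, by omega⟩, ha, rfl⟩
  have := congrArg Finset.card h
  rw [Finset.card_map] at this
  simp only [Finset.card_range, Nat.card_Ico] at this
  convert this using 2
  ext y
  simp

theorem finrank_St (x : ℕ) : finrank (ZMod p) (St p n x) = n - x := by
  rw [St, finrank_coordSub]
  have h : ((univ : Finset (Fin n)).filter fun y => x ≤ y.val).map Fin.valEmbedding = Ico x n := by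
    ext a
    simp only [mem_map, mem_filter, mem_univ, true_and, mem_Ico, Fin.valEmbedding_apply]
    constructor
    · rintro ⟨y, hy, rfl⟩; exact ⟨hy, y.isLt⟩
    · intro ha; exact ⟨⟨a, ha.2⟩, ha.1, rfl⟩
  have := congrArg Finset.card h
  rw [Finset.card_map] at this
  simp only [Finset.card_range, Nat.card_Ico] at this
  convert this using 2
  ext y
  simp

theorem St_mono {x x' : ℕ} (h : x ≤ x') : St p n x' ≤ St p n x := fun v hv y hy =>
  hv y fun h' => hy (h.trans h')

theorem Fl_mono {l l' : ℕ} (h : l ≤ l') : Fl p n l ≤ Fl p n l' := fun v hv y hy =>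
  hv y fun h' => hy (lt_of_lt_of_le h' h)

theorem St_inf_Fl (x : ℕ) : St p n x ⊓ Fl p n x = ⊥ := by
  refine eq_bot_iff.2 fun v hv => ?_
  rw [Submodule.mem_bot]
  funext y
  rcases Submodule.mem_inf.1 hv with ⟨h1, h2⟩
  by_cases h : x ≤ y.val
  · exact h2 y (fun h' => by omega)
  · exact h1 y h

/-- Upper unitriangular. -/
def IsUni (M : Matrix (Fin n) (Fin n) (ZMod p)) : Prop :=
  (∀ x, M x x = 1) ∧ ∀ x y, y < x → M x y = 0

theorem IsUni.map_Fl_le {M : Matrix (Fin n) (Fin n) (ZMod p)} (hM : IsUni M) (l : ℕ) :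
    (Fl p n l).map M.mulVecLin ≤ Fl p n l := by
  rintro _ ⟨v, hv, rfl⟩ x hx
  rw [Matrix.mulVecLin_apply]
  show ∑ y, M x y * v y = 0
  refine Finset.sum_eq_zero fun y _ => ?_
  by_cases hy : y.val < l
  · rw [hM.2 x y (Fin.lt_def.2 (by omega)), zero_mul]
  · rw [hv y hy, mul_zero]

theorem IsUni.det_eq_one {M : Matrix (Fin n) (Fin n) (ZMod p)} (hM : IsUni M) : M.det = 1 := by
  rw [Matrix.det_of_isUpperTriangular fun x y hxy => hM.2 x y hxy]
  exact Finset.prod_eq_one fun x _ => hM.1 x

theorem IsUni.injective {M : Matrix (Fin n) (Fin n) (ZMod p)} (hM : IsUni M) :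
    Function.Injective M.mulVecLin := by
  have hu : IsUnit M := (Matrix.isUnit_iff_isUnit_det M).2 (by rw [hM.det_eq_one]; exact isUnit_one)
  intro u v h
  exact (Matrix.mulVec_injective_of_isUnit hu) h

theorem IsUni.finrank_map {M : Matrix (Fin n) (Fin n) (ZMod p)} (hM : IsUni M)
    (S : Submodule (ZMod p) (Fin n → ZMod p)) :
    finrank (ZMod p) (S.map M.mulVecLin) = finrank (ZMod p) S :=
  (LinearEquiv.finrank_eq (Submodule.equivMapOfInjective M.mulVecLin hM.injective S)).symm

theorem IsUni.map_St_inf_Fl {M : Matrix (Fin n) (Fin n) (ZMod p)} (hM : IsUni M) (x : ℕ) :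
    (St p n x).map M.mulVecLin ⊓ Fl p n x = ⊥ := by
  have h : (Fl p n x).map M.mulVecLin = Fl p n x :=
    Submodule.eq_of_le_of_finrank_eq (hM.map_Fl_le x) (hM.finrank_map _)
  calc (St p n x).map M.mulVecLin ⊓ Fl p n x
      = (St p n x).map M.mulVecLin ⊓ (Fl p n x).map M.mulVecLin := by rw [h]
    _ = (St p n x ⊓ Fl p n x).map M.mulVecLin := (Submodule.map_inf _ hM.injective).symm
    _ = ⊥ := by rw [St_inf_Fl, Submodule.map_bot]

theorem isTrans_flag_iff (U : Submodule (ZMod p) (Fin n → ZMod p)) :
    IsTrans (flagFam p n) U ↔ U ⊓ Fl p n (n - finrank (ZMod p) U) = ⊥ := by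
  have hd : finrank (ZMod p) U ≤ n := by
    simpa [Module.finrank_fin_fun] using U.finrank_le
  have hn : finrank (ZMod p) (Fin n → ZMod p) = n := Module.finrank_fin_fun _
  constructor
  · intro h
    have h1 := h (Fl p n (n - finrank (ZMod p) U))
      (mem_image.2 ⟨n - finrank (ZMod p) U, mem_range.2 (by omega), rfl⟩)
    rw [hn, finrank_Fl (by omega)] at h1
    refine Submodule.finrank_eq_zero.1 ?_
    omega
  · intro h F hF
    obtain ⟨l, hl, rfl⟩ := mem_image.1 hF
    have hl' : l ≤ n := by have := mem_range.1 hl; omega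
    rw [hn, finrank_Fl hl']
    rcases le_or_gt l (n - finrank (ZMod p) U) with hc | hc
    · have h0 : U ⊓ Fl p n l = ⊥ :=
        eq_bot_iff.2 (le_trans (inf_le_inf_left U (Fl_mono hc)) h.le)
      rw [h0, finrank_bot]
      omega
    · have hdisj : (U ⊓ Fl p n l) ⊓ Fl p n (n - finrank (ZMod p) U) = ⊥ :=
        eq_bot_iff.2 (le_trans (inf_le_inf_right _ inf_le_left) h.le)
      have h1 := Submodule.finrank_sup_add_finrank_inf_eq (U ⊓ Fl p n l)
        (Fl p n (n - finrank (ZMod p) U))
      rw [hdisj, finrank_bot, finrank_Fl (show n - finrank (ZMod p) U ≤ n by omega)] at h1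
      have h2 : finrank (ZMod p) ↥((U ⊓ Fl p n l) ⊔ Fl p n (n - finrank (ZMod p) U)) ≤ l := by
        have := Submodule.finrank_mono
          (sup_le (inf_le_right (a := U) (b := Fl p n l)) (Fl_mono (p := p) (n := n) hc.le))
        rwa [finrank_Fl hl'] at this
      omega

theorem isTrans_map_St {M : Matrix (Fin n) (Fin n) (ZMod p)} (hM : IsUni M) {x : ℕ} (hx : x ≤ n) :
    IsTrans (flagFam p n) ((St p n x).map M.mulVecLin) := by
  rw [isTrans_flag_iff, hM.finrank_map, finrank_St, show n - (n - x) = x by omega]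
  exact hM.map_St_inf_Fl x

/-- Unitriangular matrices are transitive on chains transversal to the flag. -/
theorem exists_uni_chain (τ : Finset (Submodule (ZMod p) (Fin n → ZMod p)))
    (hchain : ∀ U ∈ τ, ∀ U' ∈ τ, U ≤ U' ∨ U' ≤ U) (htr : ∀ U ∈ τ, IsTrans (flagFam p n) U) :
    ∃ M : Matrix (Fin n) (Fin n) (ZMod p), IsUni M ∧
      ∀ U ∈ τ, (St p n (n - finrank (ZMod p) U)).map M.mulVecLin = U := by
  have hle : ∀ U : Submodule (ZMod p) (Fin n → ZMod p), finrank (ZMod p) U ≤ n := fun U => by
    simpa [Module.finrank_fin_fun] using U.finrank_le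
  have hcol : ∀ y : Fin n, ∃ v : Fin n → ZMod p, v y = 1 ∧ (∀ z : Fin n, y < z → v z = 0) ∧
      ∀ U ∈ τ, n - finrank (ZMod p) U ≤ y.val → v ∈ U := by
    intro y
    by_cases hS : (τ.filter fun U : Submodule (ZMod p) (Fin n → ZMod p) => n - finrank (ZMod p) U ≤ y.val).Nonempty
    · obtain ⟨U₀, hU₀, hmin⟩ := exists_min_image
        (τ.filter fun U : Submodule (ZMod p) (Fin n → ZMod p) => n - finrank (ZMod p) U ≤ y.val)
        (fun U : Submodule (ZMod p) (Fin n → ZMod p) => finrank (ZMod p) U) hS
      rw [mem_filter] at hU₀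
      have hi := (isTrans_flag_iff U₀).1 (htr U₀ hU₀.1)
      set x := n - finrank (ZMod p) U₀ with hx
      have htop : U₀ ⊔ Fl p n x = ⊤ := by
        refine Submodule.eq_top_of_finrank_eq ?_
        have h1 := Submodule.finrank_sup_add_finrank_inf_eq U₀ (Fl p n x)
        rw [hi, finrank_bot, finrank_Fl (show x ≤ n by omega)] at h1
        rw [Module.finrank_fin_fun]
        have := hle U₀
        omega
      obtain ⟨v, hv, w, hw, hvw⟩ : ∃ v ∈ U₀, ∃ w ∈ Fl p n x,
          v + w = (Pi.single y (1 : ZMod p) : Fin n → ZMod p) :=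
        Submodule.mem_sup.1 (htop.symm ▸ Submodule.mem_top)
      have hw0 : ∀ z : Fin n, x ≤ z.val → w z = 0 := fun z hz => hw z (fun h => by omega)
      have hve : ∀ z : Fin n, x ≤ z.val → v z = (Pi.single y (1 : ZMod p) : Fin n → ZMod p) z :=
        fun z hz => by rw [← hvw, Pi.add_apply, hw0 z hz, add_zero]
      refine ⟨v, ?_, ?_, ?_⟩
      · rw [hve y hU₀.2, Pi.single_eq_same]
      · intro z hz
        rw [hve z (le_trans hU₀.2 (le_of_lt hz)), Pi.single_eq_of_ne (ne_of_gt hz)]
      · intro U hU hUy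
        have hm := hmin U (mem_filter.2 ⟨hU, hUy⟩)
        rcases hchain U₀ hU₀.1 U hU with h | h
        · exact h hv
        · rw [Submodule.eq_of_le_of_finrank_le h hm]; exact hv
    · refine ⟨Pi.single y 1, by simp, fun z hz => Pi.single_eq_of_ne (ne_of_gt hz) _, ?_⟩
      intro U hU hUy
      exact absurd ⟨U, mem_filter.2 ⟨hU, hUy⟩⟩ hS
  choose v hv1 hv0 hvU using hcol
  have hM : IsUni (fun x y => v y x : Matrix (Fin n) (Fin n) (ZMod p)) :=
    ⟨fun x => hv1 x, fun x y h => hv0 y x h⟩
  refine ⟨fun x y => v y x, hM, fun U hU => ?_⟩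
  refine Submodule.eq_of_le_of_finrank_eq ?_ ?_
  · rintro _ ⟨w, hw, rfl⟩
    have hsum : Matrix.mulVecLin (fun x y => v y x : Matrix (Fin n) (Fin n) (ZMod p)) w
        = ∑ y, w y • v y := by
      funext x
      rw [Finset.sum_apply]
      show ∑ y, v y x * w y = ∑ y, w y * v y x
      exact Finset.sum_congr rfl fun y _ => mul_comm _ _
    rw [hsum]
    refine Submodule.sum_mem _ fun y _ => ?_
    by_cases hy : n - finrank (ZMod p) U ≤ y.val
    · exact U.smul_mem _ (hvU y U hU hy)
    · rw [hw y hy, zero_smul]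
      exact U.zero_mem
  · rw [hM.finrank_map, finrank_St]
    have := hle U
    omega

end Vale.Agent.P067.Cob
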