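import Vale.Agent.P067.Cob.Coset
import Vale.Agent.P067.Cob.Flags

/-!
The link of a nonempty standard face, restricted to an interval of types inside one block, is the
complex of chains of transversal subspaces of the block (B1, B2; owner helper7).
-/

namespace Vale.Agent.P067.Cob

open Finset Module Polynomial

open scoped Classical

set_option linter.unusedSectionVars false

section Pos

variable {k : ℕ} [NeZero k]

theorem ltc_shift (t₀ i m l : Fin k) :
    ltc i m l ↔ ltc (i - t₀) (m - t₀) (l - t₀) := by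
  unfold ltc
  rw [sub_sub_sub_cancel_right, sub_sub_sub_cancel_right]

theorem mem_cyc {a i : Fin k} {r : ℕ} (hr : r ≤ k) : i ∈ cyc a r ↔ (i - a).val < r := by
  unfold cyc
  rw [mem_image]
  constructor
  · rintro ⟨x, hx, rfl⟩
    rw [mem_range] at hx
    rw [add_sub_cancel_left, Fin.val_ofNat, Nat.mod_eq_of_lt (by omega)]
    exact hx
  · intro h
    refine ⟨(i - a).val, mem_range.2 h, ?_⟩
    have : Fin.ofNat k (i - a).val = i - a := by
      apply Fin.ext
      rw [Fin.val_ofNat, Nat.mod_eq_of_lt (i - a).isLt]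
    rw [this, add_sub_cancel]

/-- A block of the partial order attached to a set of types. -/
structure Blk (T : Finset (Fin k)) where
  t₀ : Fin k
  n : ℕ
  mem : t₀ ∈ T
  n_pos : 1 ≤ n
  n_le : n ≤ k
  out : ∀ t ∈ T, t ≠ t₀ → n ≤ (t - t₀).val
  stop : n = k ∨ ∃ t ∈ T, (t - t₀).val = n

namespace Blk

variable {T : Finset (Fin k)} (b : Blk T)

/-- The index at a position of the block. -/
def idx (x : Fin b.n) : Fin k := b.t₀ + ⟨x.val, lt_of_lt_of_le x.isLt b.n_le⟩

theorem pos_idx (x : Fin b.n) : (b.idx x - b.t₀).val = x.val := by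
  rw [idx, add_sub_cancel_left]

theorem idx_pos (m : Fin k) (hm : (m - b.t₀).val < b.n) : b.idx ⟨(m - b.t₀).val, hm⟩ = m := by
  rw [idx]
  exact add_sub_cancel _ _

theorem idx_injective : Function.Injective b.idx := fun x y h => by
  apply Fin.ext
  rw [← b.pos_idx x, ← b.pos_idx y, h]

theorem pos_lt {m l : Fin k} (h : ∀ i ∈ T, ltc i m l) : (m - b.t₀).val < (l - b.t₀).val :=
  h _ b.mem

theorem pos_iff {m l : Fin k} (h : ∀ i ∈ T, ltc i m l) :
    (m - b.t₀).val < b.n ↔ (l - b.t₀).val < b.n := by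
  have h1 := b.pos_lt h
  refine ⟨fun hm => ?_, fun hl => h1.trans hl⟩
  by_contra hl
  rcases b.stop with hk | ⟨t, ht, htn⟩
  · have := (l - b.t₀).isLt
    omega
  · have h2 := (ltc_shift b.t₀ t m l).1 (h t ht)
    unfold ltc at h2
    rw [val_sub_eq (m - b.t₀) (t - b.t₀), val_sub_eq (l - b.t₀) (t - b.t₀), htn] at h2
    have := (l - b.t₀).isLt
    have := (m - b.t₀).isLt
    split_ifs at h2 <;> omega

theorem rel_idx (x y : Fin b.n) : (∀ i ∈ T, ltc i (b.idx x) (b.idx y)) ↔ x < y := by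
  constructor
  · intro h
    have := b.pos_lt h
    rw [b.pos_idx, b.pos_idx] at this
    exact this
  · intro hxy i hi
    rw [ltc_shift b.t₀]
    unfold ltc
    rw [val_sub_eq (b.idx x - b.t₀) (i - b.t₀), val_sub_eq (b.idx y - b.t₀) (i - b.t₀),
      b.pos_idx, b.pos_idx]
    have hx := x.isLt
    have hy := y.isLt
    have hxy' : x.val < y.val := hxy
    by_cases ht : i = b.t₀
    · subst ht
      rw [sub_self, Fin.val_zero]
      simpa using hxy'
    · have := b.out i hi ht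
      have := (i - b.t₀).isLt
      split_ifs <;> omega

end Blk

theorem exists_blk {T : Finset (Fin k)} (hT : T.Nonempty) (a : Fin k) (r : ℕ) (hr : 1 ≤ r)
    (hrk : r ≤ k) (hdisj : ∀ i ∈ T, i ∉ cyc a r) :
    ∃ b : Blk T, 1 ≤ (a - b.t₀).val ∧ (a - b.t₀).val + r ≤ b.n := by
  obtain ⟨t₀, ht₀, hmin⟩ := T.exists_min_image (fun t => (a - t).val) hT
  have hkey : ∀ t ∈ T, ∀ x : ℕ, (t - t₀).val = x → ¬ (1 ≤ x ∧ x < (a - t₀).val + r) := by
    intro t ht x hx hc
    have h1 := hdisj t ht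
    rw [mem_cyc hrk, show t - a = (t - t₀) - (a - t₀) by rw [sub_sub_sub_cancel_right],
      val_sub_eq (t - t₀) (a - t₀), hx] at h1
    have h2 := hmin t ht
    replace h2 : (a - t₀).val ≤ (a - t).val := h2
    rw [show a - t = (a - t₀) - (t - t₀) by rw [sub_sub_sub_cancel_right],
      val_sub_eq (a - t₀) (t - t₀), hx] at h2
    have := (a - t₀).isLt
    have := (t - t₀).isLt
    split_ifs at h1 h2 <;> omega
  have h0 := hdisj t₀ ht₀
  rw [mem_cyc hrk] at h0
  have hA : 1 ≤ (a - t₀).val := by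
    by_contra h
    have h' : a - t₀ = 0 := Fin.ext (by rw [Fin.val_zero]; omega)
    rw [sub_eq_zero] at h'
    rw [h', sub_self, Fin.val_zero] at h0
    omega
  have hAk : (a - t₀).val + r ≤ k := by
    rw [show t₀ - a = (0 : Fin k) - (a - t₀) by rw [zero_sub, neg_sub],
      val_sub_eq (0 : Fin k) (a - t₀), Fin.val_zero] at h0
    have := (a - t₀).isLt
    split_ifs at h0 <;> omega
  have hex : ∃ x, 1 ≤ x ∧ (x = k ∨ ∃ t ∈ T, (t - t₀).val = x) :=
    ⟨k, Nat.one_le_iff_ne_zero.2 (NeZero.ne k), Or.inl rfl⟩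
  obtain ⟨hn1, hn2⟩ := Nat.find_spec hex
  refine ⟨⟨t₀, Nat.find hex, ht₀, hn1, Nat.find_min' hex
    ⟨Nat.one_le_iff_ne_zero.2 (NeZero.ne k), Or.inl rfl⟩, ?_, hn2⟩, hA, ?_⟩
  · intro t ht hne
    refine Nat.find_min' hex ⟨?_, Or.inr ⟨t, ht, rfl⟩⟩
    refine Nat.one_le_iff_ne_zero.2 fun h => hne ?_
    exact sub_eq_zero.1 (Fin.ext (by rw [h, Fin.val_zero]))
  · show (a - t₀).val + r ≤ Nat.find hex
    rcases hn2 with h | ⟨t, ht, htx⟩
    · omega
    · by_contra hc
      exact hkey t ht _ htx ⟨hn1, by omega⟩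

end Pos

variable {p k : ℕ} [NeZero k] [Fact p.Prime]

namespace Blk

variable {T : Finset (Fin k)} (b : Blk T)

/-- Evaluation at one of the part of a matrix lying in the block. -/
noncomputable def ev (g : Gam p k) : Matrix (Fin b.n) (Fin b.n) (ZMod p) :=
  fun x y => ((g.1 : Matrix (Fin k) (Fin k) (ZMod p)[X]) (b.idx x) (b.idx y)).eval 1

theorem ev_one : b.ev (1 : Gam p k) = 1 := by
  funext x y
  show ((((1 : Gam p k).1) : Matrix (Fin k) (Fin k) (ZMod p)[X]) (b.idx x) (b.idx y)).eval 1 = _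
  by_cases h : x = y
  · subst h; simp
  · have : b.idx x ≠ b.idx y := fun e => h (b.idx_injective e)
    simp [h, this]

theorem ev_mul {g : Gam p k} (hg : g ∈ ⨅ i ∈ T, KGam p k i) (h : Gam p k) :
    b.ev (g * h) = b.ev g * b.ev h := by
  have hg' := (iInf_KGam_mem p k ⟨_, b.mem⟩ g).1 hg
  funext x y
  rw [Matrix.mul_apply]
  show ((((g * h : Gam p k).1) : Matrix (Fin k) (Fin k) (ZMod p)[X]) (b.idx x) (b.idx y)).eval 1 = _
  rw [Subgroup.coe_mul, Matrix.SpecialLinearGroup.coe_mul, Matrix.mul_apply, eval_finsetSum]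
  calc ∑ q, ((g.1 : Matrix (Fin k) (Fin k) (ZMod p)[X]) (b.idx x) q *
          (h.1 : Matrix (Fin k) (Fin k) (ZMod p)[X]) q (b.idx y)).eval 1
      = ∑ q ∈ univ.map ⟨b.idx, b.idx_injective⟩,
          ((g.1 : Matrix (Fin k) (Fin k) (ZMod p)[X]) (b.idx x) q *
            (h.1 : Matrix (Fin k) (Fin k) (ZMod p)[X]) q (b.idx y)).eval 1 :=
        (Finset.sum_subset (subset_univ _) fun q _ hq => ?_).symm
    _ = _ := by
        rw [Finset.sum_map]
        exact Finset.sum_congr rfl fun z _ => eval_mul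
  have hq' : ¬ (q - b.t₀).val < b.n := fun hlt =>
    hq (mem_map.2 ⟨⟨_, hlt⟩, mem_univ _, b.idx_pos q hlt⟩)
  obtain ⟨c, hc⟩ := hg' (b.idx x) q
  have h1 : b.idx x ≠ q := fun e => hq' (by rw [← e, b.pos_idx]; exact x.isLt)
  have h2 : ¬ ∀ i ∈ T, ltc i (b.idx x) q := fun e =>
    hq' ((b.pos_iff e).1 (by rw [b.pos_idx]; exact x.isLt))
  rw [hc, if_neg h1, if_neg h2, zero_mul, eval_zero]

theorem ev_uni {g : Gam p k} (hg : g ∈ ⨅ i ∈ T, KGam p k i) : IsUni (b.ev g) := by
  have hg' := (iInf_KGam_mem p k ⟨_, b.mem⟩ g).1 hg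
  refine ⟨fun x => ?_, fun x y hxy => ?_⟩
  · obtain ⟨c, hc⟩ := hg' (b.idx x) (b.idx x)
    show Polynomial.eval 1 _ = _
    rw [hc, if_pos rfl, eval_one]
  · obtain ⟨c, hc⟩ := hg' (b.idx x) (b.idx y)
    show Polynomial.eval 1 _ = _
    rw [hc, if_neg fun e => (ne_of_gt hxy) (b.idx_injective e),
      if_neg fun e => lt_asymm hxy ((b.rel_idx x y).1 e), eval_zero]

theorem ev_inv_mul {g : Gam p k} (hg : g ∈ ⨅ i ∈ T, KGam p k i) : b.ev g⁻¹ * b.ev g = 1 := by
  rw [← b.ev_mul (inv_mem hg), inv_mul_cancel, b.ev_one]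

theorem exists_ev_eq {M : Matrix (Fin b.n) (Fin b.n) (ZMod p)} (hM : IsUni M) :
    ∃ g : Gam p k, g ∈ (⨅ i ∈ T, KGam p k i) ∧ b.ev g = M := by
  set A : Matrix (Fin k) (Fin k) (ZMod p)[X] := Matrix.of fun m l =>
    if m = l then 1 else
      if h : (m - b.t₀).val < b.n ∧ (l - b.t₀).val < b.n ∧ (m - b.t₀).val < (l - b.t₀).val then
        C (M ⟨_, h.1⟩ ⟨_, h.2.1⟩) * X ^ dlt m l
      else 0 with hA
  have hrel : ∀ m l, (m - b.t₀).val < b.n ∧ (l - b.t₀).val < b.n ∧
      (m - b.t₀).val < (l - b.t₀).val → ∀ i ∈ T, ltc i m l := by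
    rintro m l ⟨h1, h2, h3⟩
    have := (b.rel_idx ⟨_, h1⟩ ⟨_, h2⟩).2 h3
    rwa [b.idx_pos m h1, b.idx_pos l h2] at this
  have hdet : A.det = 1 := by
    rw [← Matrix.det_submatrix_equiv_self (Equiv.addLeft b.t₀) A,
      Matrix.det_of_isUpperTriangular]
    · refine Finset.prod_eq_one fun x _ => ?_
      show A (b.t₀ + x) (b.t₀ + x) = 1
      simp only [hA, Matrix.of_apply]
      simp
    · intro x y hxy
      have hxy' : y.val < x.val := hxy
      show A (b.t₀ + x) (b.t₀ + y) = 0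
      simp only [hA, Matrix.of_apply]
      rw [if_neg fun e => (by omega : x.val ≠ y.val) (congrArg Fin.val (add_left_cancel e)), dif_neg]
      rintro ⟨_, _, h3⟩
      rw [add_sub_cancel_left, add_sub_cancel_left] at h3
      omega
  have hmem : (⟨A, hdet⟩ : Matrix.SpecialLinearGroup (Fin k) (ZMod p)[X]) ∈ Gam p k := by
    refine ⟨fun m l hne hml => ?_, fun m => ?_⟩
    · show A m l ∈ _
      simp only [hA, Matrix.of_apply]
      rw [if_neg hne]
      split_ifs with h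
      · rw [show dlt m l = 1 from if_pos (lt_of_le_of_ne (not_lt.1 hml) (Ne.symm hne)), pow_one]
        exact Ideal.mul_mem_left _ _ (Ideal.mem_span_singleton_self _)
      · exact Ideal.zero_mem _
    · show A m m - 1 ∈ _
      simp [hA, Matrix.of_apply]
  refine ⟨⟨_, hmem⟩, (iInf_KGam_mem p k ⟨_, b.mem⟩ _).2 fun m l => ?_, ?_⟩
  · show ∃ c, A m l = _
    simp only [hA, Matrix.of_apply]
    by_cases hml : m = l
    · exact ⟨0, by rw [if_pos hml, if_pos hml]⟩
    · by_cases h : (m - b.t₀).val < b.n ∧ (l - b.t₀).val < b.n ∧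
        (m - b.t₀).val < (l - b.t₀).val
      · refine ⟨M ⟨_, h.1⟩ ⟨_, h.2.1⟩, ?_⟩
        rw [if_neg hml, if_neg hml, dif_pos h, if_pos (hrel m l h)]
      · refine ⟨0, ?_⟩
        rw [if_neg hml, if_neg hml, dif_neg h]
        split_ifs <;> simp
  · funext x y
    show Polynomial.eval 1 (A (b.idx x) (b.idx y)) = _
    simp only [hA, Matrix.of_apply, b.pos_idx]
    rcases lt_trichotomy x y with h | h | h
    · rw [if_neg fun e => h.ne (b.idx_injective e),
        dif_pos ⟨x.isLt, y.isLt, (h : x.val < y.val)⟩]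
      simp
    · subst h; simp [hM.1]
    · rw [if_neg fun e => h.ne' (b.idx_injective e),
        dif_neg fun e => absurd (show x < y from e.2.2) (lt_asymm h), eval_zero, hM.2 x y h]

theorem map_St_eq_iff {g : Gam p k} (hg : g ∈ ⨅ i ∈ T, KGam p k i) {i : Fin k}
    (hi : (i - b.t₀).val < b.n) :
    (St p b.n (i - b.t₀).val).map (b.ev g).mulVecLin = St p b.n (i - b.t₀).val ↔
      g ∈ KGam p k i := by
  set x := (i - b.t₀).val with hx
  have hU := b.ev_uni hg
  have hsh : ∀ m l, (∀ j ∈ T, ltc j m l) →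
      (¬ ltc i m l ↔ (m - b.t₀).val < x ∧ x ≤ (l - b.t₀).val) := by
    intro m l h
    have h1 := b.pos_lt h
    rw [ltc_shift b.t₀]
    unfold ltc
    rw [val_sub_eq (m - b.t₀) (i - b.t₀), val_sub_eq (l - b.t₀) (i - b.t₀), ← hx]
    have := (l - b.t₀).isLt
    have := (m - b.t₀).isLt
    split_ifs <;> omega
  have hg' := (iInf_KGam_mem p k ⟨_, b.mem⟩ g).1 hg
  have hsing : g ∈ KGam p k i ↔ ∀ m l, ∃ c : ZMod p,
      (g.1 : Matrix (Fin k) (Fin k) (ZMod p)[X]) m l =
        if m = l then 1 else if ltc i m l then C c * X ^ dlt m l else 0 := Iff.rfl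
  constructor
  · intro hmap
    refine hsing.2 fun m l => ?_
    obtain ⟨c, hc⟩ := hg' m l
    by_cases hml : m = l
    · exact ⟨0, by rw [hc, if_pos hml, if_pos hml]⟩
    rw [if_neg hml] at hc
    by_cases hT : ∀ j ∈ T, ltc j m l
    · rw [if_pos hT] at hc
      by_cases hil : ltc i m l
      · exact ⟨c, by rw [hc, if_neg hml, if_pos hil]⟩
      · obtain ⟨h1, h2⟩ := (hsh m l hT).1 hil
        have hm : (m - b.t₀).val < b.n := h1.trans hi
        have hl : (l - b.t₀).val < b.n := (b.pos_iff hT).1 hm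
        have hcol : (Pi.single (⟨_, hl⟩ : Fin b.n) (1 : ZMod p)) ∈ St p b.n x := by
          intro y hy
          refine Pi.single_eq_of_ne (fun e => hy ?_) _
          rw [e]; exact h2
        have h3 : (b.ev g).mulVecLin (Pi.single (⟨_, hl⟩ : Fin b.n) 1) ∈ St p b.n x :=
          hmap ▸ Submodule.mem_map_of_mem hcol
        have h4 := h3 ⟨_, hm⟩ (show ¬ x ≤ (m - b.t₀).val by omega)
        rw [Matrix.mulVecLin_apply, Matrix.mulVec_single_one] at h4
        have h5 : c = 0 := by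
          simpa [Blk.ev, b.idx_pos m hm, b.idx_pos l hl, hc] using h4
        refine ⟨0, ?_⟩
        rw [hc, h5, if_neg hml, if_neg hil, C_0, zero_mul]
    · rw [if_neg hT] at hc
      refine ⟨0, ?_⟩
      rw [hc, if_neg hml]
      split_ifs <;> simp
  · intro hk
    refine Submodule.eq_of_le_of_finrank_eq ?_ (hU.finrank_map _)
    rintro _ ⟨v, hv, rfl⟩ a ha
    rw [Matrix.mulVecLin_apply]
    show ∑ y, b.ev g a y * v y = 0
    refine Finset.sum_eq_zero fun y _ => ?_
    by_cases hy : x ≤ y.val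
    · have hay : a < y := by show a.val < y.val; omega
      have hT := (b.rel_idx a y).2 hay
      have hil : ¬ ltc i (b.idx a) (b.idx y) :=
        (hsh _ _ hT).2 ⟨by rw [b.pos_idx]; omega, by rw [b.pos_idx]; exact hy⟩
      obtain ⟨c, hc⟩ := hsing.1 hk (b.idx a) (b.idx y)
      show Polynomial.eval 1 _ * v y = 0
      rw [hc, if_neg fun e => hay.ne (b.idx_injective e), if_neg hil, eval_zero, zero_mul]
    · rw [hv y hy, mul_zero]

end Blk

/-- The complex of a block. -/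
theorem block_model (T : Finset (Fin k)) (hT : T.Nonempty) (a : Fin k) (r : ℕ) (hr : 1 ≤ r)
    (hrk : r ≤ k) (hdisj : ∀ i ∈ T, i ∉ cyc a r) :
    ∃ n lo : ℕ, 1 ≤ lo ∧ lo + r - 1 < n ∧ n ≤ k ∧
      ∀ S : Sys p (Fin n → ZMod p), S.X = IsTrans (flagFam p n) →
        ∃ f : ((i : Fin k) × ((⨅ j ∈ T, KGam p k j : Subgroup (Gam p k)) ⧸
              (KGam p k i).subgroupOf (⨅ j ∈ T, KGam p k j))) →
            Submodule (ZMod p) (Fin n → ZMod p),
          (∀ v w, (coset (fun i => (KGam p k i).subgroupOf (⨅ j ∈ T, KGam p k j))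
              (cyc a r)).face {v} →
            (coset (fun i => (KGam p k i).subgroupOf (⨅ j ∈ T, KGam p k j))
              (cyc a r)).face {w} → f v = f w → v = w) ∧
          (∀ τ, (S.band lo (lo + r - 1)).face τ ↔
            ∃ σ, (coset (fun i => (KGam p k i).subgroupOf (⨅ j ∈ T, KGam p k j))
              (cyc a r)).face σ ∧ σ.image f = τ) := by
  obtain ⟨b, hA, hAn⟩ := exists_blk hT a r hr hrk hdisj
  set A := (a - b.t₀).val with hAdef
  have hcyc : ∀ i : Fin k, i ∈ cyc a r ↔ A ≤ (i - b.t₀).val ∧ (i - b.t₀).val < A + r := by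
    intro i
    rw [mem_cyc hrk, show i - a = (i - b.t₀) - (a - b.t₀) by rw [sub_sub_sub_cancel_right],
      val_sub_eq (i - b.t₀) (a - b.t₀), ← hAdef]
    have := (i - b.t₀).isLt
    have := b.n_le
    split_ifs <;> omega
  refine ⟨b.n, b.n - (A + r - 1), by omega, by omega, b.n_le, fun S hS => ?_⟩
  refine ⟨fun v => (St p b.n (v.1 - b.t₀).val).map (b.ev v.2.out.1).mulVecLin, ?_⟩
  set H := (⨅ j ∈ T, KGam p k j : Subgroup (Gam p k)) with hH
  set f := fun v : (i : Fin k) × (H ⧸ (KGam p k i).subgroupOf H) =>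
    (St p b.n (v.1 - b.t₀).val).map (b.ev v.2.out.1).mulVecLin with hf
  have hmk : ∀ (i : Fin k) (h : H), i ∈ cyc a r →
      f ⟨i, (h : H ⧸ (KGam p k i).subgroupOf H)⟩ =
        (St p b.n (i - b.t₀).val).map (b.ev h.1).mulVecLin := by
    intro i h hi
    obtain ⟨h', hh'⟩ := QuotientGroup.mk_out_eq_mul ((KGam p k i).subgroupOf H) h
    simp only [hf]
    rw [hh', Subgroup.coe_mul, b.ev_mul h.2, Matrix.mulVecLin_mul, Submodule.map_comp]
    congr 1
    have := ((hcyc i).1 hi).2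
    exact (b.map_St_eq_iff h'.1.2 (by omega)).2 (Subgroup.mem_subgroupOf.1 h'.2)
  refine ⟨fun v w hv hw hvw => ?_, fun τ => ⟨fun hτ => ?_, fun hσ => ?_⟩⟩
  · obtain ⟨g, hg⟩ := hv
    obtain ⟨g', hg'⟩ := hw
    obtain ⟨hi, hvg⟩ := hg v (mem_singleton_self v)
    obtain ⟨hj, hwg⟩ := hg' w (mem_singleton_self w)
    obtain ⟨i, q⟩ := v
    obtain ⟨j, q'⟩ := w
    simp only at hi hvg hj hwg
    subst hvg
    subst hwg
    change f _ = f _ at hvw
    rw [hmk i g hi, hmk j g' hj] at hvw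
    have hx := ((hcyc i).1 hi).2
    have hy := ((hcyc j).1 hj).2
    have hd := congrArg (fun U : Submodule (ZMod p) (Fin b.n → ZMod p) =>
      finrank (ZMod p) U) hvw
    simp only [(b.ev_uni g.2).finrank_map, (b.ev_uni g'.2).finrank_map, finrank_St] at hd
    have hij : i = j := sub_left_inj.1 (Fin.ext (by omega) : i - b.t₀ = j - b.t₀)
    subst hij
    refine Sigma.ext rfl (heq_of_eq ?_)
    rw [QuotientGroup.eq, Subgroup.mem_subgroupOf]
    have hmem : (g⁻¹ * g' : H).1 ∈ H := (g⁻¹ * g' : H).2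
    refine (b.map_St_eq_iff hmem (i := i) (by omega)).1 ?_
    rw [Subgroup.coe_mul, b.ev_mul (g⁻¹).2, Matrix.mulVecLin_mul, Submodule.map_comp, ← hvw,
      ← Submodule.map_comp, ← Matrix.mulVecLin_mul, Subgroup.coe_inv, b.ev_inv_mul g.2,
      Matrix.mulVecLin_one, Submodule.map_id]
  · obtain ⟨hmem, hch⟩ := hτ
    obtain ⟨M, hM, hMU⟩ := exists_uni_chain τ hch (fun U hU => hS ▸ (hmem U hU).1)
    obtain ⟨g, hg, hgM⟩ := b.exists_ev_eq hM
    have hty : ∀ U ∈ τ, ∃ i ∈ cyc a r, (i - b.t₀).val = b.n - finrank (ZMod p) U := by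
      intro U hU
      obtain ⟨_, h1, h2⟩ := hmem U hU
      have hlt : b.n - finrank (ZMod p) U < b.n := by omega
      exact ⟨b.idx ⟨_, hlt⟩, (hcyc _).2 (by rw [b.pos_idx]; constructor <;> simp <;> omega),
        b.pos_idx _⟩
    choose! ty hty1 hty2 using hty
    refine ⟨τ.image fun U => ⟨ty U, ((⟨g, hg⟩ : H) : H ⧸ (KGam p k (ty U)).subgroupOf H)⟩,
      ⟨⟨g, hg⟩, ?_⟩, ?_⟩
    · intro v hv
      obtain ⟨U, hU, rfl⟩ := mem_image.1 hv
      exact ⟨hty1 U hU, rfl⟩
    · rw [Finset.image_image]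
      refine Eq.trans (Finset.image_congr fun U hU => ?_) Finset.image_id
      show f _ = id U
      rw [hmk _ _ (hty1 U hU), hty2 U hU, hgM]
      exact hMU U hU
  · obtain ⟨σ, ⟨g, hg⟩, rfl⟩ := hσ
    have hval : ∀ v ∈ σ, v.1 ∈ cyc a r ∧
        f v = (St p b.n (v.1 - b.t₀).val).map (b.ev g.1).mulVecLin := by
      rintro ⟨i, q⟩ hv
      obtain ⟨hi, hq⟩ := hg _ hv
      simp only at hi hq
      subst hq
      exact ⟨hi, hmk i g hi⟩
    refine ⟨fun U hU => ?_, fun U hU U' hU' => ?_⟩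
    · obtain ⟨v, hv, rfl⟩ := mem_image.1 hU
      obtain ⟨hi, he⟩ := hval v hv
      obtain ⟨h1, h2⟩ := (hcyc _).1 hi
      show S.X (f v) ∧ _ ≤ finrank (ZMod p) (f v) ∧ finrank (ZMod p) (f v) ≤ _
      rw [he, hS, (b.ev_uni g.2).finrank_map, finrank_St]
      exact ⟨isTrans_map_St (b.ev_uni g.2) (by omega), by omega, by omega⟩
    · obtain ⟨v, hv, rfl⟩ := mem_image.1 hU
      obtain ⟨w, hw, rfl⟩ := mem_image.1 hU'
      show f v ≤ f w ∨ f w ≤ f v
      rw [(hval v hv).2, (hval w hw).2]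
      rcases le_total (v.1 - b.t₀).val (w.1 - b.t₀).val with h | h
      · exact Or.inr (Submodule.map_mono (St_mono h))
      · exact Or.inl (Submodule.map_mono (St_mono h))

end Vale.Agent.P067.Cob
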