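import Vale.Agent.P067.Cob.Coset
import Vale.Agent.P067.Cob.Band
import Vale.Agent.P067.Cob.BlockModel

/-!
Links of the coset complexes through transversal flags in one block (B1, B2; owner helper7).
-/

namespace Vale.Agent.P067.Cob

open Finset Module

open scoped Classical

theorem link_link {V : Type} (K : Cplx V) (F G : Finset V) (hF : (K.link G).face F) :
    (K.link G).link F = K.link (F ∪ G) := by
  have key : ((K.link G).link F).face = (K.link (F ∪ G)).face := by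
    funext τ
    apply propext
    constructor
    · rintro (h | ⟨hd, h⟩)
      · exact Or.inl h
      · rcases h with h | ⟨hd', h'⟩
        · exact Or.inl (Finset.subset_empty.1 (h ▸ subset_union_left))
        · rw [Finset.disjoint_union_left] at hd'
          exact Or.inr ⟨Finset.disjoint_union_right.2 ⟨hd, hd'.1⟩, by rwa [← union_assoc]⟩
    · rintro (h | ⟨hd, h⟩)
      · exact Or.inl h
      · rw [Finset.disjoint_union_right] at hd
        refine Or.inr ⟨hd.1, Or.inr ⟨Finset.disjoint_union_left.2 ⟨hd.2, ?_⟩,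
          by rwa [union_assoc]⟩⟩
        rcases hF with h0 | ⟨h0, _⟩
        · rw [h0]; exact Finset.disjoint_empty_left _
        · exact h0
  cases hK : (K.link G).link F
  cases hK' : K.link (F ∪ G)
  rw [hK, hK'] at key
  congr

/-- A cyclic interval missing a small set of types. -/
theorem exists_cyc_disjoint {k : ℕ} [NeZero k] (T : Finset (Fin k)) (r c : ℕ) (hc : T.card < c)
    (hk : c * r ≤ k) : ∃ a : Fin k, ∀ i ∈ T, i ∉ cyc a r := by
  by_contra h
  push Not at h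
  choose w hw1 hw2 using h
  have hle : r ≤ k := le_trans (Nat.le_mul_of_pos_left r (by omega)) hk
  have hinj : ∀ x ∈ range c, ∀ y ∈ range c,
      w (Fin.ofNat k (x * r)) = w (Fin.ofNat k (y * r)) → x = y := by
    intro x hx y hy hxy
    rw [mem_range] at hx hy
    have hw : ∀ z, z < c → z * r ≤ (w (Fin.ofNat k (z * r))).val ∧
        (w (Fin.ofNat k (z * r))).val < (z + 1) * r := by
      intro z hz
      have h1 := (mem_cyc hle).1 (hw2 (Fin.ofNat k (z * r)))
      have h2 : (z + 1) * r ≤ k := le_trans (Nat.mul_le_mul_right r hz) hk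
      rw [add_mul, one_mul] at h2 ⊢
      rw [val_sub_eq, Fin.val_ofNat, Nat.mod_eq_of_lt (by omega)] at h1
      split_ifs at h1 <;> omega
    obtain ⟨hx1, hx2⟩ := hw x hx
    obtain ⟨hy1, hy2⟩ := hw y hy
    rw [hxy] at hx1 hx2
    rcases lt_trichotomy x y with hlt | heq | hlt
    · have := Nat.mul_le_mul_right r (show x + 1 ≤ y from hlt); omega
    · exact heq
    · have := Nat.mul_le_mul_right r (show y + 1 ≤ x from hlt); omega
  have := Finset.card_le_card_of_injOn (s := range c) (t := T)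
    (fun x => w (Fin.ofNat k (x * r))) (fun x _ => hw1 _) (fun x hx y hy => hinj x hx y hy)
  rw [card_range] at this
  omega

theorem block_fills (m L k : ℕ) [NeZero k] : ∃ N p₀, ∀ (p : ℕ) [Fact p.Prime], p₀ ≤ p →
    ∀ (T : Finset (Fin k)), T.Nonempty → ∀ (a : Fin k) (r : ℕ), 2 * m + 1 ≤ r → r ≤ k →
      (∀ i ∈ T, i ∉ cyc a r) →
      (coset (fun i => (KGam p k i).subgroupOf (⨅ j ∈ T, KGam p k j)) (cyc a r)).Fills m L N := by
  obtain ⟨p₁, h₁⟩ := exists_transSys (k + 1) k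
  obtain ⟨N, p₂, h₂⟩ := band_fills m L (k + 1) k
  refine ⟨N, max p₁ p₂, fun p _ hp T hT a r hr hrk hdisj => ?_⟩
  obtain ⟨n, lo, hlo, hhi, hnk, hmod⟩ := block_model (p := p) T hT a r (by omega) hrk hdisj
  have hn : finrank (ZMod p) (Fin n → ZMod p) = n := Module.finrank_fin_fun _
  have hcard : (flagFam p n).card ≤ k + 1 := card_flagFam_le.trans (by omega)
  obtain ⟨S, hS1, hS2⟩ := h₁ p (le_of_max_le_left hp) _ (by rw [hn]; exact hnk) _ hcard
  obtain ⟨f, hinj, hface⟩ := hmod S hS2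
  exact (Cplx.fills_of_iso _ _ f hinj hface m L N).2
    (h₂ p (le_of_max_le_right hp) _ (by rw [hn]; exact hnk) S (by rw [hS1]; exact hcard)
      lo (lo + r - 1) hlo (by omega) (by rw [hn]; exact hhi))

theorem block_ex (m k : ℕ) [NeZero k] : ∃ p₀, ∀ (p : ℕ) [Fact p.Prime], p₀ ≤ p →
    ∀ (T : Finset (Fin k)), T.Nonempty → ∀ (a : Fin k) (r : ℕ), 2 * m + 1 ≤ r → r ≤ k →
      (∀ i ∈ T, i ∉ cyc a r) →
      (coset (fun i => (KGam p k i).subgroupOf (⨅ j ∈ T, KGam p k j)) (cyc a r)).Ex m := by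
  obtain ⟨p₁, h₁⟩ := exists_transSys (k + 1) k
  obtain ⟨p₂, h₂⟩ := band_ex m (k + 1) k
  refine ⟨max p₁ p₂, fun p _ hp T hT a r hr hrk hdisj => ?_⟩
  obtain ⟨n, lo, hlo, hhi, hnk, hmod⟩ := block_model (p := p) T hT a r (by omega) hrk hdisj
  have hn : finrank (ZMod p) (Fin n → ZMod p) = n := Module.finrank_fin_fun _
  have hcard : (flagFam p n).card ≤ k + 1 := card_flagFam_le.trans (by omega)
  obtain ⟨S, hS1, hS2⟩ := h₁ p (le_of_max_le_left hp) _ (by rw [hn]; exact hnk) _ hcard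
  obtain ⟨f, hinj, hface⟩ := hmod S hS2
  exact (Cplx.ex_of_iso _ _ f hinj hface m).2
    (h₂ p (le_of_max_le_right hp) _ (by rw [hn]; exact hnk) S (by rw [hS1]; exact hcard)
      lo (lo + r - 1) hlo (by omega) (by rw [hn]; exact hhi))

theorem fills_family_congr {G ι : Type} [Group G] {K K' : ι → Subgroup G} (h : K = K')
    (R : Finset ι) (m L N : ℕ) : (coset K R).Fills m L N ↔ (coset K' R).Fills m L N := by
  subst h; rfl

theorem ex_family_congr {G ι : Type} [Group G] {K K' : ι → Subgroup G} (h : K = K')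
    (R : Finset ι) (m : ℕ) : (coset K R).Ex m ↔ (coset K' R).Ex m := by
  subst h; rfl

section Reduce

variable {p k : ℕ} [NeZero k] [Fact p.Prime] (s : ℕ)

/-- Reduction from a vertex group intersection of `Gam` to that of the finite group. -/
noncomputable def redT (hs : 2 ≤ s) {T : Finset (Fin k)} (hT : T.Nonempty) :
    (⨅ j ∈ T, KGam p k j : Subgroup (Gam p k)) →* (⨅ j ∈ T, KG p k s j : Subgroup (GG p k s)) :=
  MonoidHom.codRestrict ((red p k s).comp (⨅ j ∈ T, KGam p k j : Subgroup (Gam p k)).subtype) _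
    fun g => by
      rw [iInf_KG p k s hs hT]
      exact Subgroup.mem_map_of_mem _ g.2

theorem redT_surjective (hs : 2 ≤ s) {T : Finset (Fin k)} (hT : T.Nonempty) :
    Function.Surjective (redT (p := p) s hs hT) := by
  rintro ⟨x, hx⟩
  rw [iInf_KG p k s hs hT] at hx
  obtain ⟨g, hg, rfl⟩ := Subgroup.mem_map.1 hx
  exact ⟨⟨g, hg⟩, rfl⟩

theorem comap_redT (hs : 2 ≤ s) {T : Finset (Fin k)} (hT : T.Nonempty) (i : Fin k) :
    ((KG p k s i).subgroupOf (⨅ j ∈ T, KG p k s j)).comap (redT (p := p) s hs hT) =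
      (KGam p k i).subgroupOf (⨅ j ∈ T, KGam p k j) := by
  ext g
  rw [Subgroup.mem_comap, Subgroup.mem_subgroupOf, Subgroup.mem_subgroupOf]
  show red p k s g.1 ∈ KG p k s i ↔ _
  refine ⟨fun h => ?_, fun h => Subgroup.mem_map_of_mem _ h⟩
  obtain ⟨t, ht⟩ := hT
  have hgT : ∀ j ∈ T, g.1 ∈ KGam p k j := fun j hj =>
    Subgroup.mem_iInf.1 (Subgroup.mem_iInf.1 g.2 j) hj
  have hmem : red p k s g.1 ∈ ⨅ j ∈ insert i T, KG p k s j := by
    simp only [Subgroup.mem_iInf, Finset.mem_insert]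
    rintro j (rfl | hj)
    · exact h
    · exact Subgroup.mem_map_of_mem _ (hgT j hj)
  rw [iInf_KG p k s hs (insert_nonempty i T)] at hmem
  obtain ⟨x, hx, hxg⟩ := Subgroup.mem_map.1 hmem
  simp only [Subgroup.mem_iInf, Finset.mem_insert] at hx
  have : (⟨x, hx t (Or.inr ht)⟩ : KGam p k t) = ⟨g.1, hgT t ht⟩ :=
    red_injOn_KGam p k s hs t hxg
  have hxg' : x = g.1 := congrArg Subtype.val this
  exact hxg' ▸ hx i (Or.inl rfl)

end Reduce

theorem link_fills (m L k : ℕ) [NeZero k] : ∃ N p₀, ∀ (p : ℕ) [Fact p.Prime], p₀ ≤ p →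
    ∀ s, 2 ≤ s → ∀ σ, (Wc p k s univ).face σ → σ.Nonempty → ∀ (a : Fin k) (r : ℕ),
      2 * m + 1 ≤ r → r ≤ k → (∀ v ∈ σ, v.1 ∉ cyc a r) →
      (((Wc p k s univ).link σ).restrict fun v => v.1 ∈ cyc a r).Fills m L N := by
  obtain ⟨N, p₀, h⟩ := block_fills m L k
  refine ⟨N, p₀, fun p _ hp s hs σ hσ hne a r hr hrk hout => ?_⟩
  obtain ⟨g, T, hTR, rfl⟩ := (coset_face_iff _ _ _).1 hσ
  have hT : T.Nonempty := by
    rcases T.eq_empty_or_nonempty with h0 | h0
    · subst h0; simp [cell] at hne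
    · exact h0
  have hdisj : ∀ i ∈ T, i ∉ cyc a r := fun i hi => hout ⟨i, g⟩ (by simpa [cell] using hi)
  rw [fills_link_coset _ _ _ _ g hTR (subset_univ _) (Finset.disjoint_left.2 hdisj),
    ← fills_coset_comap _ (redT_surjective s hs hT)]
  rw [fills_family_congr (funext (comap_redT s hs hT))]
  exact h p hp T hT a r hr hrk hdisj

theorem link_cone (d : ℕ) : ∃ k₀, ∀ (k : ℕ) [NeZero k], k₀ ≤ k → ∃ N p₀, ∀ (p : ℕ) [Fact p.Prime],
    p₀ ≤ p → ∀ s, 2 ≤ s → ∀ σ, (Wc p k s univ).face σ → σ.Nonempty → σ.card ≤ d + 1 →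
      ((Wc p k s univ).link σ).Cone (d + 2) N := by
  refine ⟨(d + 2) * (2 * d + 5), fun k _ hk => ?_⟩
  choose φ₀ P₀ hφ₀ using fun L : ℕ => link_fills (d + 2) L k
  choose φ L₀ hφ using fun L : ℕ => Cplx.fills_of_part (d + 2) L φ₀
  obtain ⟨N, L, hcone⟩ := Cplx.cone_of_fills (d + 2) φ
  refine ⟨N, (range (L + 1)).sup fun L' => (range (L₀ L' + 1)).sup P₀,
    fun p _ hp s hs σ hσ hne hcard => ?_⟩
  obtain ⟨a, ha⟩ := exists_cyc_disjoint (σ.image fun v => v.1) (2 * d + 5) (d + 2)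
    (lt_of_le_of_lt card_image_le (by omega)) hk
  refine hcone _ fun L' hL' => hφ L' _ (fun v => v.1 ∈ cyc a (2 * d + 5)) fun F hF hP L'' hL'' => ?_
  have hp' : P₀ L'' ≤ p := by
    refine le_trans ?_ hp
    refine le_trans (Finset.le_sup (f := P₀) (mem_range.2 (by omega : L'' < L₀ L' + 1))) ?_
    exact Finset.le_sup (f := fun L' => (range (L₀ L' + 1)).sup P₀)
      (mem_range.2 (by omega : L' < L + 1))
  rw [link_link _ F σ hF]
  have hface : (Wc p k s univ).face (F ∪ σ) := by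
    rcases hF with h0 | ⟨_, h0⟩
    · rw [h0, empty_union]; exact hσ
    · exact cast (by congr <;> exact Subsingleton.elim _ _) h0
  have hout : ∀ v ∈ F ∪ σ, v.1 ∉ cyc a (2 * d + 5) := by
    intro v hv
    rcases mem_union.1 hv with h | h
    · exact hP v h
    · exact ha _ (mem_image_of_mem _ h)
  have := hφ₀ L'' p hp' s hs (F ∪ σ) hface (hne.mono subset_union_right) a (2 * d + 5) (by omega)
    (le_trans (Nat.le_mul_of_pos_left _ (by omega)) hk) hout
  have hm : ∀ (K : Cplx ((i : Fin k) × (GG p k s ⧸ KG p k s i))), K.Fills (d + 2) L'' (φ₀ L'') →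
      K.Fills (d + 2 - F.card) L'' (φ₀ L'') := fun K h j hj => h j (by omega)
  exact cast (by congr <;> exact Subsingleton.elim _ _) (hm _ this)

theorem sel_link_Wc (m k : ℕ) [NeZero k] : ∃ p₀, ∀ (p : ℕ) [Fact p.Prime], p₀ ≤ p →
    ∀ s, 2 ≤ s → ∀ (a : Fin k) (r : ℕ), 2 * m + 2 ≤ r → r ≤ k →
    ∀ σ, (Wc p k s univ).face σ → σ.Nonempty → (∀ v ∈ σ, v.1 ∉ cyc a r) →
      (((Wc p k s univ).link σ).restrict fun v => v.1 ∈ cyc a r).Ex m := by
  obtain ⟨p₀, h⟩ := block_ex m k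
  refine ⟨p₀, fun p _ hp s hs a r hr hrk σ hσ hne hout => ?_⟩
  obtain ⟨g, T, hTR, rfl⟩ := (coset_face_iff _ _ _).1 hσ
  have hT : T.Nonempty := by
    rcases T.eq_empty_or_nonempty with h0 | h0
    · subst h0; simp [cell] at hne
    · exact h0
  have hdisj : ∀ i ∈ T, i ∉ cyc a r := fun i hi => hout ⟨i, g⟩ (by simpa [cell] using hi)
  rw [ex_link_coset _ _ _ _ g hTR (subset_univ _) (Finset.disjoint_left.2 hdisj),
    ← ex_coset_comap _ (redT_surjective s hs hT)]
  rw [ex_family_congr (funext (comap_redT s hs hT))]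
  exact h p hp T hT a r (by omega) hrk hdisj

theorem sel_link_Uc (m k : ℕ) [NeZero k] : ∃ p₀, ∀ (p : ℕ) [Fact p.Prime], p₀ ≤ p →
    ∀ (a : Fin k) (r : ℕ), 2 * m + 2 ≤ r → r ≤ k →
    ∀ σ, (Uc p k univ).face σ → σ.Nonempty → (∀ v ∈ σ, v.1 ∉ cyc a r) →
      (((Uc p k univ).link σ).restrict fun v => v.1 ∈ cyc a r).Ex m := by
  obtain ⟨p₀, h⟩ := block_ex m k
  refine ⟨p₀, fun p _ hp a r hr hrk σ hσ hne hout => ?_⟩
  obtain ⟨g, T, hTR, rfl⟩ := (coset_face_iff _ _ _).1 hσ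
  have hT : T.Nonempty := by
    rcases T.eq_empty_or_nonempty with h0 | h0
    · subst h0; simp [cell] at hne
    · exact h0
  have hdisj : ∀ i ∈ T, i ∉ cyc a r := fun i hi => hout ⟨i, g⟩ (by simpa [cell] using hi)
  rw [ex_link_coset _ _ _ _ g hTR (subset_univ _) (Finset.disjoint_left.2 hdisj)]
  exact h p hp T hT a r (by omega) hrk hdisj

end Vale.Agent.P067.Cob
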