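import Vale.Agent.P067.Cob.Band
import Vale.Agent.P067.Cob.Building.Balanced

/-!
The infinite coset complex is acyclic in low degrees (section C; owner helper2).

The complex of normalised lattices is exact; the descending links of the unbalanced lattices are
bands of subspace systems, so the balanced lattices, which form the coset complex, keep exactness.
-/

namespace Vale.Agent.P067.Cob

open Finset

open scoped Classical

theorem Uc_ex (m : ℕ) : ∃ k₀, ∀ (k : ℕ) [NeZero k], k₀ ≤ k → ∃ p₀, ∀ (p : ℕ) [Fact p.Prime],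
    p₀ ≤ p → (Uc p k univ).Ex m := by
  refine ⟨max m 2 + 1, fun k _ hk => ?_⟩
  obtain ⟨P₀, h⟩ := Bld.ex_BalC (max m 2) k hk
  refine ⟨P₀, fun p _ hp => ?_⟩
  have hex := h (ZMod p) (le_card_zmod hp)
  have hle : ∀ n ≤ max m 2, (Bld.BalC (ZMod p) k).Ex n := fun n hn j hj =>
    hex j (lt_of_lt_of_le hj hn)
  exact Bld.Uc_ex_of_BalC (hle 2 (le_max_right _ _)) (hle m (le_max_left _ _))

end Vale.Agent.P067.Cob
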