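import Vale.Agent.P067.Cob.Complex

/-!
E2 of the notes in general form: an equivariant homotopy between a lift and its translate.

`I` is an abelian group of odd exponent acting on an exact complex; averaging makes the chains
modulo `I` exact; two maps equivariant for a free action are then homotopic, and the homotopy
descends to the quotient.
-/

namespace Vale.Agent.P067.Cob

open Finset

open scoped Classical

namespace Equi

variable {V : Type*}

@[simp] theorem bd_single (σ : Finset V) :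
    bd (Finsupp.single σ (1 : ZMod 2)) = ∑ v ∈ σ, Finsupp.single (σ.erase v) (1 : ZMod 2) := by
  simp [bd]

@[simp] theorem vpush_single {W : Type*} (f : V → W) (σ : Finset V) (c : ZMod 2) :
    vpush f (Finsupp.single σ c) = Finsupp.single (σ.image f) c := by
  simp [vpush]

/-- Twice anything is zero. -/
theorem add_same (z : Chain V) : z + z = 0 := ZModModule.add_self z

theorem lin_eq {W : Type*} {X : Submodule (ZMod 2) (Chain V)} {S : Set (Finset V)}
    (hX : X = Finsupp.supported (ZMod 2) (ZMod 2) S)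
    (f g : Chain V →ₗ[ZMod 2] Chain W) (h : ∀ σ ∈ S, f (Finsupp.single σ 1) = g (Finsupp.single σ 1))
    {z : Chain V} (hz : z ∈ X) : f z = g z := by
  subst hX
  rw [Finsupp.supported_eq_span_single] at hz
  exact LinearMap.eqOn_span' (by rintro _ ⟨σ, hσ, rfl⟩; exact h σ hσ) hz

theorem lin_mem {W : Type*} {S : Set (Finset V)} (f : Chain V →ₗ[ZMod 2] Chain W)
    (X : Submodule (ZMod 2) (Chain W)) (h : ∀ σ ∈ S, f (Finsupp.single σ 1) ∈ X)
    {z : Chain V} (hz : z ∈ Finsupp.supported (ZMod 2) (ZMod 2) S) : f z ∈ X := by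
  rw [Finsupp.supported_eq_span_single] at hz
  refine (Submodule.span_le (p := X.comap f)).2 ?_ hz
  rintro _ ⟨σ, hσ, rfl⟩
  exact h σ hσ

theorem single_mem {S : Set (Finset V)} {σ : Finset V} (h : σ ∈ S) :
    Finsupp.single σ (1 : ZMod 2) ∈ Finsupp.supported (ZMod 2) (ZMod 2) S :=
  Finsupp.single_mem_supported _ _ h

/-- The boundary commutes with a vertex map injective on the faces in question. -/
theorem bd_vpush_of {W : Type*} (f : V → W) {S : Set (Finset V)}
    (hf : ∀ σ ∈ S, Set.InjOn f σ) {z : Chain V}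
    (hz : z ∈ Finsupp.supported (ZMod 2) (ZMod 2) S) : bd (vpush f z) = vpush f (bd z) := by
  refine lin_eq rfl (bd ∘ₗ vpush f) (vpush f ∘ₗ bd) (fun σ hσ => ?_) hz
  simp only [LinearMap.comp_apply, bd_single, vpush_single, map_sum]
  rw [Finset.sum_image (hf σ hσ)]
  refine Finset.sum_congr rfl fun v hv => ?_
  congr 1
  ext a
  simp only [Finset.mem_erase, Finset.mem_image]
  constructor
  · rintro ⟨hne, b, hb, rfl⟩
    exact ⟨b, ⟨fun e => hne (by rw [e]), hb⟩, rfl⟩
  · rintro ⟨b, ⟨hne, hb⟩, rfl⟩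
    exact ⟨fun e => hne (hf σ hσ hb hv e), b, hb, rfl⟩

theorem mem_univ_supported (z : Chain V) :
    z ∈ Finsupp.supported (ZMod 2) (ZMod 2) (Set.univ : Set (Finset V)) := by
  simp

theorem bd_bd (z : Chain V) : bd (bd z) = 0 := by
  refine lin_eq rfl (bd ∘ₗ bd) 0 (fun σ _ => ?_) (mem_univ_supported z)
  simp only [LinearMap.comp_apply, LinearMap.zero_apply, bd_single, map_sum]
  rw [← Finset.sum_sigma σ (fun v => σ.erase v)
    (fun p : (_ : V) × V => Finsupp.single ((σ.erase p.1).erase p.2) (1 : ZMod 2))]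
  refine Finset.sum_involution (fun p _ => ⟨p.2, p.1⟩) ?_ ?_ ?_ ?_
  · intro p _
    simp only
    rw [Finset.erase_right_comm]
    exact add_same _
  · intro p hp _ e
    obtain ⟨-, h2⟩ := Finset.mem_sigma.1 hp
    exact (Finset.mem_erase.1 h2).1 (congrArg Sigma.fst e)
  · intro p hp
    obtain ⟨h1, h2⟩ := Finset.mem_sigma.1 hp
    obtain ⟨h3, h4⟩ := Finset.mem_erase.1 h2
    exact Finset.mem_sigma.2 ⟨h4, Finset.mem_erase.2 ⟨h3.symm, h1⟩⟩
  · intro p _
    rfl

variable {Γ : Type*} [Group Γ] [MulAction Γ V]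

/-- The translation of chains. -/
noncomputable def tr (g : Γ) : Chain V →ₗ[ZMod 2] Chain V := vpush (g • ·)

theorem tr_tr (g h : Γ) (z : Chain V) : tr g (tr h z) = tr (g * h) z := by
  refine lin_eq rfl (tr g ∘ₗ tr h) (tr (g * h)) (fun σ _ => ?_) (mem_univ_supported z)
  simp [tr, Finset.image_image, Function.comp_def, mul_smul]

theorem tr_one (z : Chain V) : tr (1 : Γ) z = z := by
  refine lin_eq rfl (tr (1 : Γ)) LinearMap.id (fun σ _ => ?_) (mem_univ_supported z)
  simp [tr]

theorem bd_tr (g : Γ) (z : Chain V) : bd (tr g z) = tr g (bd z) :=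
  bd_vpush_of _ (fun _ _ => (MulAction.injective g).injOn) (mem_univ_supported z)

theorem tr_mem_chains {K : Cplx V} (hK : ∀ (g : Γ) σ, K.face σ → K.face (σ.image (g • ·)))
    (g : Γ) {j : ℕ} {z : Chain V} (hz : z ∈ K.chains j) : tr g z ∈ K.chains j :=
  lin_mem _ _ (fun σ hσ => by
    rw [tr, vpush_single]
    exact single_mem ⟨hK g σ hσ.1,
      by rw [Finset.card_image_of_injective _ (MulAction.injective g)]; exact hσ.2⟩) hz

/-- The chains `a z - z`, `a ∈ I`. -/
noncomputable def coinv (I : Subgroup Γ) : Submodule (ZMod 2) (Chain V) :=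
  Submodule.span (ZMod 2) {x | ∃ a ∈ I, ∃ z : Chain V, x = tr a z + z}

theorem gen_mem_coinv {I : Subgroup Γ} {a : Γ} (ha : a ∈ I) (z : Chain V) :
    tr a z + z ∈ coinv I :=
  Submodule.subset_span ⟨a, ha, z, rfl⟩

theorem bd_coinv {I : Subgroup Γ} {z : Chain V} (hz : z ∈ coinv I) : bd z ∈ coinv I := by
  refine (Submodule.span_le (p := (coinv I).comap bd)).2 ?_ hz
  rintro _ ⟨a, ha, w, rfl⟩
  simp only [Submodule.comap_coe, Set.mem_preimage, SetLike.mem_coe, map_add, bd_tr]
  exact gen_mem_coinv ha _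

theorem tr_coinv {I : Subgroup Γ} {g : Γ} (hg : ∀ a ∈ I, g * a * g⁻¹ ∈ I) {z : Chain V}
    (hz : z ∈ coinv I) : tr g z ∈ coinv I := by
  refine (Submodule.span_le (p := (coinv I).comap (tr g))).2 ?_ hz
  rintro _ ⟨a, ha, w, rfl⟩
  simp only [Submodule.comap_coe, Set.mem_preimage, SetLike.mem_coe, map_add]
  have e : tr g (tr a w) = tr (g * a * g⁻¹) (tr g w) := by
    rw [tr_tr, tr_tr, inv_mul_cancel_right]
  rw [e]
  exact gen_mem_coinv (hg a ha) _

theorem vpush_coinv {V' : Type*} {I : Subgroup Γ} (f : V → V')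
    (hf : ∀ a ∈ I, ∀ v : V, f (a • v) = f v) {z : Chain V} (hz : z ∈ coinv I) :
    vpush f z = 0 := by
  refine (Submodule.span_le (p := LinearMap.ker (vpush f))).2 ?_ hz
  rintro _ ⟨a, ha, w, rfl⟩
  have e : vpush f (tr a w) = vpush f w := by
    refine lin_eq rfl (vpush f ∘ₗ tr a) (vpush f) (fun σ _ => ?_) (mem_univ_supported w)
    simp only [LinearMap.comp_apply, tr, vpush_single, Finset.image_image]
    congr 1
    exact Finset.image_congr fun v _ => hf a ha v
  simp [e, add_same]

/-- Operators available for averaging. -/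
structure Avg (I : Subgroup Γ) (K : Cplx V) (T : Chain V →ₗ[ZMod 2] Chain V) : Prop where
  comm_bd : ∀ z, bd (T z) = T (bd z)
  comm_tr : ∀ a ∈ I, ∀ z, T (tr a z) = tr a (T z)
  mem : ∀ j, ∀ z ∈ K.chains j, T z ∈ K.chains j
  congr : ∀ z, T z + z ∈ coinv I

/-- A chain with boundary in `coinv I` is congruent to a cycle. -/
theorem exists_cycle {p : ℕ} (hp : Odd p) {I : Subgroup Γ}
    (hcomm : ∀ a ∈ I, ∀ b ∈ I, a * b = b * a) (hexp : ∀ a ∈ I, a ^ p = 1)
    {K : Cplx V} (hK : ∀ (g : Γ) σ, K.face σ → K.face (σ.image (g • ·)))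
    {z : Chain V} (hz : bd z ∈ coinv I) {j : ℕ} (hzj : z ∈ K.chains j) :
    ∃ z' ∈ K.chains j, bd z' = 0 ∧ z' + z ∈ coinv I := by
  suffices h : ∀ x ∈ coinv (V := V) I, ∀ T₀, Avg I K T₀ → ∃ T, Avg I K T ∧
      (∀ y, T₀ y = 0 → T y = 0) ∧ T x = 0 by
    obtain ⟨T, hT, -, hTx⟩ := h _ hz LinearMap.id
      ⟨fun _ => rfl, fun _ _ _ => rfl, fun _ _ h => h, fun z => by simp [add_same]⟩
    exact ⟨T z, hT.mem j z hzj, by rw [hT.comm_bd, hTx], hT.congr z⟩
  intro x hx
  induction hx using Submodule.span_induction with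
  | mem x hx =>
    obtain ⟨a, ha, w, rfl⟩ := hx
    intro T₀ h₀
    let A : Chain V →ₗ[ZMod 2] Chain V := ∑ e ∈ Finset.range p, tr (a ^ e)
    have hA : ∀ y, A y = ∑ e ∈ Finset.range p, tr (a ^ e) y := fun y => by
      simp [A, LinearMap.sum_apply]
    have hpow : ∀ e, a ^ e ∈ I := fun e => I.pow_mem ha e
    refine ⟨A ∘ₗ T₀, ⟨fun y => ?_, fun b hb y => ?_, fun i y hy => ?_, fun y => ?_⟩,
      fun y hy => by simp [hy], ?_⟩
    · simp only [LinearMap.comp_apply, hA, map_sum, bd_tr, h₀.comm_bd]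
    · simp only [LinearMap.comp_apply, hA, map_sum, h₀.comm_tr b hb, tr_tr]
      exact Finset.sum_congr rfl fun e _ => by rw [hcomm _ (hpow e) _ hb]
    · rw [LinearMap.comp_apply, hA]
      exact Submodule.sum_mem _ fun e _ => tr_mem_chains hK _ (h₀.mem i y hy)
    · have h1 : ∑ _e ∈ Finset.range p, T₀ y = T₀ y := by
        rw [Finset.sum_const, Finset.card_range]
        obtain ⟨r, rfl⟩ := hp
        rw [succ_nsmul, two_mul, add_nsmul, add_same, zero_add]
      have h2 : A (T₀ y) + T₀ y ∈ coinv I := by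
        rw [hA]
        conv => arg 2; arg 2; rw [← h1]
        rw [← Finset.sum_add_distrib]
        exact Submodule.sum_mem _ fun e _ => gen_mem_coinv (hpow e) _
      have := (coinv I).add_mem h2 (h₀.congr y)
      rwa [add_assoc, ← add_assoc (T₀ y), add_same, zero_add] at this
    · have h1 : T₀ (tr a w + w) = tr a (T₀ w) + T₀ w := by rw [map_add, h₀.comm_tr a ha]
      have h2 : ∑ e ∈ Finset.range p, tr (a ^ (e + 1)) (T₀ w)
          = ∑ e ∈ Finset.range p, tr (a ^ e) (T₀ w) := by
        have := Finset.sum_range_succ' (fun e => tr (a ^ e) (T₀ w)) p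
        rw [Finset.sum_range_succ] at this
        simp only [hexp a ha, pow_zero] at this
        exact (add_right_cancel this).symm
      rw [LinearMap.comp_apply, h1, map_add, hA, hA]
      simp only [tr_tr, ← pow_succ, h2, add_same]
  | zero => exact fun T₀ h₀ => ⟨T₀, h₀, fun _ h => h, map_zero _⟩
  | add x y _ _ ihx ihy =>
    intro T₀ h₀
    obtain ⟨T₁, h₁, k₁, e₁⟩ := ihx T₀ h₀
    obtain ⟨T₂, h₂, k₂, e₂⟩ := ihy T₁ h₁
    exact ⟨T₂, h₂, fun v hv => k₂ v (k₁ v hv), by rw [map_add, k₂ x e₁, e₂, add_zero]⟩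
  | smul c x _ ih =>
    intro T₀ h₀
    obtain ⟨T, h, k, e⟩ := ih T₀ h₀
    exact ⟨T, h, k, by rw [map_smul, e, smul_zero]⟩

/-- The data of the homotopy argument: a complex, a subcomplex on which `N` acts freely, and a
vertex map constant on the orbits of `I` and `N`. -/
structure Setup (K : Cplx V) {V' : Type*} (pv : V → V') (I N : Subgroup Γ) (P : Set (Finset V))
    (x : Γ) : Prop where
  inv : ∀ (g : Γ) σ, K.face σ → K.face (σ.image (g • ·))
  sub : ∀ σ ∈ P, K.face σ
  down : ∀ σ ∈ P, ∀ τ ⊆ σ, τ ∈ P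
  stable : ∀ g ∈ N, ∀ σ ∈ P, σ.image (g • ·) ∈ P
  free : ∀ g ∈ N, ∀ σ ∈ P, σ.Nonempty → σ.image (g • ·) = σ → g = 1
  fibre : ∀ σ ∈ P, ∀ τ ∈ P, σ.image pv = τ.image pv → ∃ g ∈ N, σ.image (g • ·) = τ
  push_I : ∀ a ∈ I, ∀ v, pv (a • v) = pv v
  push_N : ∀ g ∈ N, ∀ v, pv (g • v) = pv v
  normal : ∀ g ∈ N, ∀ a ∈ I, g * a * g⁻¹ ∈ I
  commutator : ∀ g ∈ N, x * g * x⁻¹ * g⁻¹ ∈ I
  injOn : ∀ σ, K.face σ → Set.InjOn pv σ

variable {K : Cplx V} {V' : Type*} {pv : V → V'} {I N : Subgroup Γ} {P : Set (Finset V)} {x : Γ}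

/-- The chains carried by `P` in a fixed size. -/
noncomputable def pchains (P : Set (Finset V)) (j : ℕ) : Submodule (ZMod 2) (Chain V) :=
  Finsupp.supported (ZMod 2) (ZMod 2) {σ | σ ∈ P ∧ σ.card = j}

theorem Setup.bd_mem (hS : Setup K pv I N P x) {j : ℕ} {z : Chain V}
    (hz : z ∈ pchains P (j + 1)) : bd z ∈ pchains P j :=
  lin_mem _ _ (fun σ hσ => by
    rw [bd_single]
    exact Submodule.sum_mem _ fun v hv => single_mem
      ⟨hS.down σ hσ.1 _ (Finset.erase_subset _ _),
        by rw [Finset.card_erase_of_mem hv, hσ.2, Nat.add_sub_cancel]⟩) hz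

/-- The linear extension of a function on faces. -/
noncomputable def ext {W : Type*} (h : Finset V → Chain W) : Chain V →ₗ[ZMod 2] Chain W :=
  Finsupp.linearCombination (ZMod 2) h

@[simp] theorem ext_single {W : Type*} (h : Finset V → Chain W) (σ : Finset V) :
    ext h (Finsupp.single σ 1) = h σ := by
  simp [ext]

/-- A homotopy from the inclusion to the translate by `x`, equivariant, below size `n`. -/
structure Htp (K : Cplx V) (I N : Subgroup Γ) (P : Set (Finset V)) (x : Γ) (n : ℕ)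
    (h : Finset V → Chain V) : Prop where
  mem : ∀ σ ∈ P, σ.card < n → h σ ∈ K.chains (σ.card + 1)
  equi : ∀ g ∈ N, ∀ σ ∈ P, σ.card < n → h (σ.image (g • ·)) = tr g (h σ)
  rel : ∀ σ ∈ P, σ.card < n → bd (h σ) + ext h (bd (Finsupp.single σ 1)) +
    tr x (Finsupp.single σ 1) + Finsupp.single σ 1 ∈ coinv I

theorem Setup.exists_htp (hS : Setup K pv I N P x) {p : ℕ} (hp : Odd p)
    (hcomm : ∀ a ∈ I, ∀ b ∈ I, a * b = b * a) (hexp : ∀ a ∈ I, a ^ p = 1)
    {m : ℕ} (hEx : K.Ex m) : ∀ n ≤ m, ∃ h, Htp K I N P x n h := by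
  intro n
  induction n with
  | zero => exact fun _ => ⟨fun _ => 0, by simp, by simp, by simp⟩
  | succ n ih =>
    intro hn
    obtain ⟨h, hh⟩ := ih (by omega)
    rcases Nat.eq_zero_or_pos n with rfl | hn0
    · refine ⟨fun _ => 0, fun σ _ _ => Submodule.zero_mem _, fun g _ σ _ _ => by simp,
        fun σ _ hσ => ?_⟩
      have : σ = ∅ := Finset.card_eq_zero.1 (by omega)
      subst this
      simp [tr, ext, add_same]
    have hrep : ∀ σ ∈ P, σ.card = n → ∃ w ∈ K.chains (n + 1),
        bd w + ext h (bd (Finsupp.single σ 1)) + tr x (Finsupp.single σ 1) +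
          Finsupp.single σ 1 ∈ coinv I := by
      intro σ hσP hσn
      set z : Chain V := ext h (bd (Finsupp.single σ 1)) + tr x (Finsupp.single σ 1) +
        Finsupp.single σ 1
      obtain ⟨k, rfl⟩ : ∃ k, n = k + 1 := ⟨n - 1, by omega⟩
      have hσ1 : Finsupp.single σ (1 : ZMod 2) ∈ pchains P (k + 1) := single_mem ⟨hσP, hσn⟩
      have hσK : Finsupp.single σ (1 : ZMod 2) ∈ K.chains (k + 1) :=
        single_mem ⟨hS.sub σ hσP, hσn⟩
      have hq := hS.bd_mem hσ1
      have hz : z ∈ K.chains (k + 1) := by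
        refine Submodule.add_mem _ (Submodule.add_mem _ ?_ (tr_mem_chains hS.inv _ hσK)) hσK
        refine lin_mem _ _ (fun τ hτ => ?_) hq
        rw [ext_single, ← hτ.2]
        exact hh.mem τ hτ.1 (by have := hτ.2; omega)
      have hrel : bd (ext h (bd (Finsupp.single σ 1))) + tr x (bd (Finsupp.single σ 1)) +
          bd (Finsupp.single σ 1) ∈ coinv I := by
        have := lin_mem (bd ∘ₗ ext h + ext h ∘ₗ bd + tr x + LinearMap.id) (coinv I)
          (fun τ hτ => by
            simpa using hh.rel τ hτ.1 (by have := hτ.2; omega)) hq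
        simpa only [LinearMap.add_apply, LinearMap.comp_apply, LinearMap.id_apply, bd_bd, map_zero,
          add_zero] using this
      have hbz : bd z ∈ coinv I := by simpa [z, map_add, bd_tr] using hrel
      obtain ⟨z', hz', hc, he⟩ := exists_cycle hp hcomm hexp hS.inv hbz hz
      obtain ⟨w, hw, hwz⟩ := hEx (k + 1) (by omega) z' hz' hc
      refine ⟨w, hw, ?_⟩
      rw [hwz]
      simpa [z, add_assoc] using he
    let lift : Finset V' → Finset V := fun c =>
      if hc : ∃ τ ∈ P, τ.card = n ∧ τ.image pv = c then hc.choose else ∅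
    have hlift : ∀ σ ∈ P, σ.card = n → lift (σ.image pv) ∈ P ∧ (lift (σ.image pv)).card = n ∧
        ∃ g ∈ N, (lift (σ.image pv)).image (g • ·) = σ := by
      intro σ hσ hσn
      have hc : ∃ τ ∈ P, τ.card = n ∧ τ.image pv = σ.image pv := ⟨σ, hσ, hσn, rfl⟩
      simp only [lift, dif_pos hc]
      exact ⟨hc.choose_spec.1, hc.choose_spec.2.1,
        hS.fibre _ hc.choose_spec.1 σ hσ hc.choose_spec.2.2⟩
    let mv : Finset V → Γ := fun σ =>
      if hg : ∃ g ∈ N, (lift (σ.image pv)).image (g • ·) = σ then hg.choose else 1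
    have hmv : ∀ σ ∈ P, σ.card = n →
        mv σ ∈ N ∧ (lift (σ.image pv)).image (mv σ • ·) = σ := by
      intro σ hσ hσn
      simp only [mv, dif_pos (hlift σ hσ hσn).2.2]
      exact (hlift σ hσ hσn).2.2.choose_spec
    have hcardim : ∀ (g : Γ) (σ : Finset V), (σ.image (g • ·)).card = σ.card := fun g σ =>
      Finset.card_image_of_injective _ (MulAction.injective g)
    let w : Finset V → Chain V := fun τ =>
      if hτ : τ ∈ P ∧ τ.card = n then (hrep τ hτ.1 hτ.2).choose else 0
    let h' : Finset V → Chain V := fun σ =>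
      if σ.card < n then h σ else tr (mv σ) (w (lift (σ.image pv)))
    have hbdσ : ∀ σ ∈ P, σ.card ≤ n →
        bd (Finsupp.single σ (1 : ZMod 2)) ∈ pchains P (σ.card - 1) := by
      intro σ hσ _
      rw [bd_single]
      exact Submodule.sum_mem _ fun v hv => single_mem
        ⟨hS.down σ hσ _ (Finset.erase_subset _ _), Finset.card_erase_of_mem hv⟩
    refine ⟨h', fun σ hσ hlt => ?_, fun g hg σ hσ hlt => ?_, fun σ hσ hlt => ?_⟩
    · by_cases hc : σ.card < n
      · simpa [h', hc] using hh.mem σ hσ hc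
      · have hσn : σ.card = n := by omega
        obtain ⟨hl1, hl2, -⟩ := hlift σ hσ hσn
        simp only [h', if_neg hc, w, dif_pos (And.intro hl1 hl2), hσn]
        exact tr_mem_chains hS.inv _ (hrep _ hl1 hl2).choose_spec.1
    · by_cases hc : σ.card < n
      · simpa [h', hcardim, hc] using hh.equi g hg σ hσ hc
      · have hσn : σ.card = n := by omega
        have hgσ : σ.image (g • ·) ∈ P := hS.stable g hg σ hσ
        have himg : (σ.image (g • ·)).image pv = σ.image pv := by
          rw [Finset.image_image]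
          exact Finset.image_congr fun v _ => hS.push_N g hg v
        obtain ⟨m1, m2⟩ := hmv σ hσ hσn
        obtain ⟨n1, n2⟩ := hmv _ hgσ (by rw [hcardim, hσn])
        rw [himg] at n2
        obtain ⟨hl1, hl2, -⟩ := hlift σ hσ hσn
        have key : mv (σ.image (g • ·)) = g * mv σ := by
          have e := hS.free ((g * mv σ)⁻¹ * mv (σ.image (g • ·)))
            (N.mul_mem (N.inv_mem (N.mul_mem hg m1)) n1) _ hl1
            (Finset.card_pos.1 (by omega)) (by
            have e1 : (lift (σ.image pv)).image ((g * mv σ) • ·) = σ.image (g • ·) := by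
              conv_rhs => rw [← m2, Finset.image_image]
              simp [Function.comp_def, mul_smul]
            have e2 := congrArg (Finset.image ((g * mv σ)⁻¹ • ·)) (n2.trans e1.symm)
            simpa [Finset.image_image, Function.comp_def, ← mul_smul] using e2)
          rw [inv_mul_eq_one] at e
          exact e.symm
        simp only [h', hcardim, if_neg hc, himg, key, tr_tr]
    · by_cases hc : σ.card < n
      · simp only [h', if_pos hc]
        have := hh.rel σ hσ hc
        rwa [show ext h' (bd (Finsupp.single σ 1)) = ext h (bd (Finsupp.single σ 1)) from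
          lin_eq rfl (ext h') (ext h) (fun τ hτ => by
            simp only [ext_single, h']
            rw [if_pos (by have := hτ.2; omega)]) (hbdσ σ hσ hc.le)]
      · have hσn : σ.card = n := by omega
        obtain ⟨hl1, hl2, -⟩ := hlift σ hσ hσn
        obtain ⟨m1, m2⟩ := hmv σ hσ hσn
        have hval : h' σ = tr (mv σ) (hrep _ hl1 hl2).choose := by
          simp only [h', if_neg hc, w, dif_pos (And.intro hl1 hl2)]
        rw [hval]
        set L := lift (σ.image pv)
        set g := mv σ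
        have hL := (hrep L hl1 hl2).choose_spec.2
        have hone : Finsupp.single σ (1 : ZMod 2) = tr g (Finsupp.single L 1) := by
          rw [tr, vpush_single, m2]
        have hqL := hbdσ L hl1 hl2.le
        rw [hl2] at hqL
        have hH : ext h' (bd (Finsupp.single σ 1)) = tr g (ext h (bd (Finsupp.single L 1))) := by
          rw [hone, bd_tr]
          refine lin_eq rfl (ext h' ∘ₗ tr g) (tr g ∘ₗ ext h) (fun τ hτ => ?_) hqL
          simp only [LinearMap.comp_apply, tr, vpush_single, ext_single, h']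
          rw [hcardim, if_pos (by have := hτ.2; omega)]
          exact hh.equi g m1 τ hτ.1 (by have := hτ.2; omega)
        rw [hH, hone]
        have h1 := tr_coinv (hS.normal g m1) hL
        simp only [map_add] at h1
        have h2 := gen_mem_coinv (hS.commutator g m1) (tr g (tr x (Finsupp.single L 1)))
        rw [tr_tr, tr_tr, show x * g * x⁻¹ * g⁻¹ * g * x = x * g by group,
          ← tr_tr x g] at h2
        rw [bd_tr]
        have h3 := (coinv I).add_mem h1 h2
        rw [show ∀ a b c d e : Chain V, a + b + c + d + (e + c) = a + b + e + d + (c + c) from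
          fun a b c d e => by abel, add_same, add_zero] at h3
        exact h3

/-- E2: a cycle carried by the image of `P` is homologous to its translate. -/
theorem Setup.translate_null (hS : Setup K pv I N P x) {p : ℕ} (hp : Odd p)
    (hcomm : ∀ a ∈ I, ∀ b ∈ I, a * b = b * a) (hexp : ∀ a ∈ I, a ^ p = 1)
    {m : ℕ} (hEx : K.Ex m) {j : ℕ} (hj : j < m) {K' : Cplx V'}
    (hK' : ∀ σ, K.face σ → K'.face (σ.image pv)) {y : Chain V} (hy : y ∈ pchains P j)
    (hc : bd (vpush pv y) = 0) :
    K'.Null j (vpush pv (tr x y) + vpush pv y) := by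
  obtain ⟨h, hh⟩ := hS.exists_htp hp hcomm hexp hEx (j + 1) hj
  have hw : ext h y ∈ K.chains (j + 1) :=
    lin_mem _ _ (fun σ hσ => by
      rw [ext_single, ← hσ.2]
      exact hh.mem σ hσ.1 (by have := hσ.2; omega)) hy
  refine ⟨vpush pv (ext h y), lin_mem _ _ (fun σ hσ => ?_) hw, ?_⟩
  · rw [vpush_single]
    exact single_mem ⟨hK' σ hσ.1, by rw [Finset.card_image_of_injOn (hS.injOn σ hσ.1)]; exact hσ.2⟩
  have hmem := lin_mem (bd ∘ₗ ext h + ext h ∘ₗ bd + tr x + LinearMap.id) (coinv I)
    (fun σ hσ => by simpa using hh.rel σ hσ.1 (by have := hσ.2; omega)) hy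
  have h0 := vpush_coinv pv hS.push_I hmem
  simp only [LinearMap.add_apply, LinearMap.comp_apply, LinearMap.id_apply, map_add] at h0
  rw [bd_vpush_of pv (fun σ hσ => hS.injOn σ hσ.1) hw]
  have hzero : vpush pv (ext h (bd y)) = 0 := by
    rcases Nat.eq_zero_or_pos j with rfl | hj0
    · have : bd y = 0 := lin_eq rfl bd 0 (fun σ hσ => by
        rw [Finset.card_eq_zero.1 hσ.2]; simp) hy
      simp [this]
    obtain ⟨i, rfl⟩ : ∃ i, j = i + 1 := ⟨j - 1, by omega⟩
    let F : Finset V' → Chain V' := fun c =>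
      if hc : ∃ τ ∈ P, τ.card = i ∧ τ.image pv = c then vpush pv (h hc.choose) else 0
    have hfac : ∀ q ∈ pchains P i, vpush pv (ext h q) = ext F (vpush pv q) := fun q hq =>
      lin_eq rfl (vpush pv ∘ₗ ext h) (ext F ∘ₗ vpush pv) (fun σ hσ => by
        have hc : ∃ τ ∈ P, τ.card = i ∧ τ.image pv = σ.image pv := ⟨σ, hσ.1, hσ.2, rfl⟩
        simp only [LinearMap.comp_apply, ext_single, vpush_single, F, dif_pos hc]
        obtain ⟨g, hg, e⟩ := hS.fibre _ hc.choose_spec.1 σ hσ.1 hc.choose_spec.2.2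
        conv_lhs => rw [← e, hh.equi g hg _ hc.choose_spec.1 (by
          rw [hc.choose_spec.2.1]; omega)]
        refine lin_eq rfl (vpush pv ∘ₗ tr g) (vpush pv) (fun τ _ => ?_) (mem_univ_supported _)
        simp only [LinearMap.comp_apply, tr, vpush_single, Finset.image_image]
        congr 1
        exact Finset.image_congr fun v _ => hS.push_N g hg v) hq
    rw [hfac _ (hS.bd_mem hy),
      ← bd_vpush_of pv (fun σ hσ => hS.injOn σ (hS.sub σ hσ.1)) hy, hc, map_zero]
  rw [hzero, add_zero, add_assoc] at h0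
  exact add_eq_zero_iff_eq_neg.1 h0 |>.trans (ZModModule.neg_eq_self _)

end Equi

end Vale.Agent.P067.Cob
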