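import Vale.Agent.P067.Band.Fills
import Vale.Agent.P067.Cob.Equi

/-!
Part lemmas, cones, transfer along vertex maps.

A chain is cleared of the faces with the largest number of vertices outside the part `P`, using
fillings in the links of those vertex sets restricted to `P`.
-/

namespace Vale.Agent.P067.Cob.Cplx

open Finset

open scoped Classical

open Band (mem_chains bd_single joinF_single card_add card_sum supp_join supp_vpush chain_sum
  bd_vpush vpush_single card_linComb supp_linComb)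

variable {V W : Type}

/-- The vertices of a face outside the part. -/
noncomputable def outs (P : V → Prop) (σ : Finset V) : Finset V := σ.filter fun v => ¬ P v

/-- The faces of a chain with given outside vertices `F`, with `F` removed. -/
noncomputable def lkPart (P : V → Prop) (F : Finset V) : Chain V →ₗ[ZMod 2] Chain V :=
  Finsupp.linearCombination (ZMod 2)
    fun σ : Finset V => if outs P σ = F then Finsupp.single (σ \ F) (1 : ZMod 2) else 0

theorem lkPart_single (P : V → Prop) (F σ : Finset V) :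
    lkPart P F (Finsupp.single σ 1) =
      if outs P σ = F then Finsupp.single (σ \ F) 1 else 0 := by
  simp [lkPart, Finsupp.linearCombination_single]

theorem outs_erase (P : V → Prop) (σ : Finset V) (v : V) :
    outs P (σ.erase v) = (outs P σ).erase v :=
  Finset.filter_erase _ _ _

theorem lkPart_supp (P : V → Prop) (F : Finset V) (z : Chain V) :
    ∀ τ ∈ (lkPart P F z).support, ∃ σ ∈ z.support, outs P σ = F ∧ τ = σ \ F := fun τ hτ => by
  obtain ⟨σ, hσ, hm⟩ := mem_biUnion.1 (supp_linComb _ z hτ)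
  by_cases h : outs P σ = F
  · simp only [if_pos h] at hm
    exact ⟨σ, hσ, h, mem_singleton.1 (Finsupp.support_single_subset hm)⟩
  · simp [h] at hm

theorem lkPart_card (P : V → Prop) (F : Finset V) (z : Chain V) :
    (lkPart P F z).support.card ≤ z.support.card := by
  refine (card_linComb _ z 1 fun σ _ => ?_).trans (mul_one _).le
  split_ifs
  · exact (card_le_card Finsupp.support_single_subset).trans (card_singleton _).le
  · simp

theorem lkPart_bd (P : V → Prop) (F : Finset V) (z : Chain V)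
    (h : ∀ σ ∈ z.support, (outs P σ).card ≤ F.card) :
    lkPart P F (bd z) = bd (lkPart P F z) := by
  rw [chain_sum z]
  simp only [map_sum, map_smul]
  refine sum_congr rfl fun σ hσ => congrArg _ ?_
  simp only [bd_single, one_smul, map_sum, lkPart_single]
  by_cases hF : outs P σ = F
  · have hsub : F ⊆ σ := hF ▸ filter_subset _ _
    rw [if_pos hF, bd_single, one_smul]
    simp only [outs_erase, hF]
    rw [← sum_subset (s₁ := σ \ F) (s₂ := σ) sdiff_subset]
    · refine sum_congr rfl fun v hv => ?_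
      rw [if_pos (erase_eq_of_notMem (mem_sdiff.1 hv).2)]
      congr 1
      ext x; simp [and_assoc]
    · intro v hv hv'
      exact if_neg fun e => erase_ne_self.2 (by simpa [hv] using hv') e
  · rw [if_neg hF, map_zero]
    refine sum_eq_zero fun v hv => if_neg fun e => ?_
    rw [outs_erase] at e
    by_cases hm : v ∈ outs P σ
    · have h1 := h σ hσ
      have h2 := congrArg Finset.card e
      rw [card_erase_of_mem hm] at h2
      have := card_pos.2 ⟨v, hm⟩
      omega
    · exact hF (by rwa [erase_eq_of_notMem hm] at e)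

theorem bd_joinF (F : Finset V) (c : Chain V) (h : ∀ τ ∈ c.support, Disjoint τ F) :
    bd (joinF F c) = joinF F (bd c) + ∑ v ∈ F, joinF (F.erase v) c := by
  rw [chain_sum c]
  simp only [map_sum, map_smul]
  rw [Finset.sum_comm (s := F), ← sum_add_distrib]
  refine sum_congr rfl fun τ hτ => ?_
  rw [← smul_sum, ← smul_add]
  refine congrArg _ ?_
  simp only [joinF_single, bd_single, one_smul, map_sum]
  rw [sum_union (h τ hτ)]
  refine congrArg₂ (· + ·) (sum_congr rfl fun v hv => ?_) (sum_congr rfl fun v hv => ?_)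
  · rw [erase_union_distrib, erase_eq_of_notMem (disjoint_left.1 (h τ hτ) hv)]
  · rw [erase_union_distrib, erase_eq_of_notMem (disjoint_right.1 (h τ hτ) hv)]

theorem bd_card {j : ℕ} (y : Chain V) (h : ∀ σ ∈ y.support, σ.card = j) :
    (bd y).support.card ≤ y.support.card * j := by
  refine card_linComb _ y j fun σ hσ => ?_
  refine (card_sum _ _ (N := 1) fun v _ => ?_).trans ?_
  · exact (card_le_card Finsupp.support_single_subset).trans (card_singleton _).le
  · rw [h σ hσ, mul_one]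

/-- One step of clearing: the faces with exactly `q` vertices outside `P` are replaced by faces
with fewer. -/
theorem clear_step (K : Cplx V) (P : V → Prop) {i q : ℕ} (z : Chain V)
    (hz : z ∈ K.chains i) (hle : ∀ σ ∈ z.support, (outs P σ).card ≤ q)
    (hbd : ∀ σ ∈ (bd z).support, (outs P σ).card < q) (N : ℕ)
    (hfill : ∀ F, K.face F → (∀ v ∈ F, ¬ P v) → F.card = q → q ≤ i →
      lkPart P F z ∈ ((K.link F).restrict P).chains (i - q) → bd (lkPart P F z) = 0 →
      (∃ σ ∈ z.support, outs P σ = F) →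
        ∃ w ∈ ((K.link F).restrict P).chains (i - q + 1), bd w = lkPart P F z ∧
          w.support.card ≤ N) :
    ∃ y ∈ K.chains (i + 1), (∀ σ ∈ (z + bd y).support, (outs P σ).card < q) ∧
      z + bd y ∈ K.chains i ∧ y.support.card ≤ z.support.card * N ∧
      (z + bd y).support.card ≤ z.support.card + z.support.card * N * (i + 1) := by
  rw [mem_chains] at hz
  set Fs := (z.support.filter fun σ => (outs P σ).card = q).image (outs P) with hFs
  have hF : ∀ F ∈ Fs, ∃ σ ∈ z.support, outs P σ = F ∧ F.card = q ∧ F ⊆ σ := fun F hF => by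
    obtain ⟨σ, hσ, rfl⟩ := mem_image.1 hF
    obtain ⟨h1, h2⟩ := mem_filter.1 hσ
    exact ⟨σ, h1, rfl, h2, filter_subset _ _⟩
  have hw : ∀ F ∈ Fs, ∃ w ∈ ((K.link F).restrict P).chains (i - q + 1),
      bd w = lkPart P F z ∧ w.support.card ≤ N := by
    intro F hFm
    obtain ⟨σ, hσ, he, hc, hsub⟩ := hF F hFm
    have hout : ∀ v ∈ F, ¬ P v := fun v hv => by
      rw [← he] at hv; exact (mem_filter.1 hv).2
    have hqi : q ≤ i := by rw [← hc, ← (hz σ hσ).2]; exact card_le_card hsub
    refine hfill F (K.down (hz σ hσ).1 hsub) hout hc hqi ?_ ?_ ⟨σ, hσ, he⟩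
    · rw [mem_chains]
      intro τ hτ
      obtain ⟨σ', hσ', he', rfl⟩ := lkPart_supp P F z τ hτ
      have hsub' : F ⊆ σ' := he' ▸ filter_subset _ _
      refine ⟨⟨Or.inr ⟨sdiff_disjoint, ?_⟩, fun v hv => ?_⟩, ?_⟩
      · rw [sdiff_union_of_subset hsub']; exact (hz σ' hσ').1
      · by_contra hP
        obtain ⟨h1, h2⟩ := mem_sdiff.1 hv
        exact h2 (he' ▸ mem_filter.2 ⟨h1, hP⟩)
      · rw [card_sdiff_of_subset hsub', (hz σ' hσ').2, hc]
    · rw [← lkPart_bd P F z fun σ hσ => hc ▸ hle σ hσ, ← Finsupp.support_eq_empty]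
      refine eq_empty_of_forall_notMem fun τ hτ => ?_
      obtain ⟨ρ, hρ, he', -⟩ := lkPart_supp P F _ τ hτ
      have := hbd ρ hρ
      rw [he'] at this
      omega
  choose! w hwm hwb hwc using hw
  simp only [mem_chains] at hwm
  have hwd : ∀ F ∈ Fs, ∀ τ ∈ (w F).support,
      Disjoint τ F ∧ K.face (τ ∪ F) ∧ (∀ v ∈ τ, P v) ∧ τ.card = i - q + 1 ∧ q ≤ i := by
    intro F hFm τ hτ
    obtain ⟨⟨h1, h2⟩, h3⟩ := hwm F hFm τ hτ
    obtain ⟨σ, hσ, he, hc, hsub⟩ := hF F hFm
    have hqi : q ≤ i := by rw [← hc, ← (hz σ hσ).2]; exact card_le_card hsub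
    rcases h1 with h1 | ⟨h4, h5⟩
    · subst h1; simp at h3
    · exact ⟨h4, h5, h2, h3, hqi⟩
  set y := ∑ F ∈ Fs, joinF F (w F) with hy
  set R := ∑ F ∈ Fs, ∑ v ∈ F, joinF (F.erase v) (w F) with hR
  have hym : ∀ σ ∈ y.support, K.face σ ∧ σ.card = i + 1 := by
    intro σ hσ
    obtain ⟨F, hFm, hm⟩ := mem_biUnion.1 (Finsupp.support_finsetSum hσ)
    obtain ⟨τ, hτ, rfl⟩ := mem_image.1 (supp_join _ _ hm)
    obtain ⟨h1, h2, -, h4, h5⟩ := hwd F hFm τ hτ
    obtain ⟨-, -, -, hc, -⟩ := hF F hFm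
    exact ⟨h2, by rw [card_union_of_disjoint h1, h4, hc]; omega⟩
  have hjoin : ∀ F ∈ Fs, joinF F (lkPart P F z) = z.filter fun σ => outs P σ = F := by
    intro F hFm
    conv_lhs => rw [chain_sum z]
    rw [Finsupp.filter_eq_sum, sum_filter]
    simp only [map_sum, map_smul, lkPart_single]
    refine sum_congr rfl fun σ _ => ?_
    split_ifs with he
    · rw [joinF_single, sdiff_union_of_subset (he ▸ filter_subset _ _)]
      simp
    · simp
  have hsplit : z = (z.filter fun σ => (outs P σ).card < q) +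
      ∑ F ∈ Fs, z.filter fun σ => outs P σ = F := by
    ext σ
    simp only [Finsupp.add_apply, Finsupp.finsetSum_apply, Finsupp.filter_apply]
    rw [sum_ite_eq]
    by_cases hσ : σ ∈ z.support
    · rcases lt_or_eq_of_le (hle σ hσ) with h | h
      · rw [if_pos h, if_neg, add_zero]
        intro hm
        obtain ⟨-, -, -, hc, -⟩ := hF _ hm
        omega
      · rw [if_neg (by omega), zero_add,
          if_pos (mem_image.2 ⟨σ, mem_filter.2 ⟨hσ, h⟩, rfl⟩)]
    · simp [Finsupp.notMem_support_iff.1 hσ]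
  have hbdy : bd y = (∑ F ∈ Fs, z.filter fun σ => outs P σ = F) + R := by
    rw [hy, map_sum, hR, ← sum_add_distrib]
    refine sum_congr rfl fun F hFm => ?_
    rw [bd_joinF F _ fun τ hτ => (hwd F hFm τ hτ).1, hwb F hFm, hjoin F hFm]
  have hnew : z + bd y = (z.filter fun σ => (outs P σ).card < q) + R := by
    rw [hbdy]
    conv_lhs => arg 1; rw [hsplit]
    rw [add_assoc, ← add_assoc (∑ F ∈ Fs, _), Band.add_self, zero_add]
  have hnewm : ∀ σ ∈ (z + bd y).support, (outs P σ).card < q ∧ K.face σ ∧ σ.card = i := by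
    intro σ hσ
    rw [hnew] at hσ
    rcases mem_union.1 (Finsupp.support_add hσ) with h | h
    · rw [Finsupp.support_filter, mem_filter] at h
      exact ⟨h.2, hz σ h.1⟩
    · obtain ⟨F, hFm, hm⟩ := mem_biUnion.1 (Finsupp.support_finsetSum h)
      obtain ⟨v, hv, hm⟩ := mem_biUnion.1 (Finsupp.support_finsetSum hm)
      obtain ⟨τ, hτ, rfl⟩ := mem_image.1 (supp_join _ _ hm)
      obtain ⟨h1, h2, h3, h4, h5⟩ := hwd F hFm τ hτ
      obtain ⟨-, -, -, hc, -⟩ := hF F hFm
      have hce : (F.erase v).card + 1 = q := by rw [card_erase_add_one hv, hc]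
      refine ⟨?_, K.down h2 (union_subset_union_right (erase_subset _ _)), ?_⟩
      · have : outs P (τ ∪ F.erase v) ⊆ F.erase v := fun x hx => by
          obtain ⟨hx1, hx2⟩ := mem_filter.1 hx
          exact (mem_union.1 hx1).resolve_left fun hx' => hx2 (h3 x hx')
        have := card_le_card this
        omega
      · rw [card_union_of_disjoint (disjoint_of_subset_right (erase_subset _ _) h1), h4]
        omega
  have hyc : y.support.card ≤ z.support.card * N :=
    (card_sum _ _ fun F hFm => ((card_le_card (supp_join _ _)).trans card_image_le).trans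
      (hwc F hFm)).trans (Nat.mul_le_mul_right _ (card_image_le.trans (card_filter_le _ _)))
  refine ⟨y, (mem_chains K).2 hym, fun σ hσ => (hnewm σ hσ).1,
    (mem_chains K).2 fun σ hσ => (hnewm σ hσ).2, hyc, (card_add _ _).trans ?_⟩
  exact Nat.add_le_add_left ((bd_card y fun σ hσ => (hym σ hσ).2).trans
    (Nat.mul_le_mul_right _ hyc)) _

/-- Clearing all the levels from `r + n` down to `r`. -/
theorem clear_ex (K : Cplx V) (P : V → Prop) {i r : ℕ} (_hr : 1 ≤ r)
    (hfill : ∀ F, r ≤ F.card → F.card ≤ i → K.face F → (∀ v ∈ F, ¬ P v) →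
      ∀ c ∈ ((K.link F).restrict P).chains (i - F.card), bd c = 0 →
        ((K.link F).restrict P).Null (i - F.card) c) :
    ∀ n, ∀ z ∈ K.chains i, (∀ σ ∈ z.support, (outs P σ).card < r + n) →
      (∀ σ ∈ (bd z).support, (outs P σ).card < r) →
      ∃ y ∈ K.chains (i + 1), z + bd y ∈ K.chains i ∧
        ∀ σ ∈ (z + bd y).support, (outs P σ).card < r := by
  intro n
  induction n with
  | zero => exact fun z hz hle _ => ⟨0, Submodule.zero_mem _, by simpa using hz, by simpa using hle⟩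
  | succ n ih =>
    intro z hz hle hbd
    let Fs := z.support.image (outs P)
    have hw : ∀ F ∈ Fs, ∃ N, K.face F → (∀ v ∈ F, ¬ P v) → F.card = r + n →
        r + n ≤ i →
        lkPart P F z ∈ ((K.link F).restrict P).chains (i - F.card) → bd (lkPart P F z) = 0 →
        ∃ w ∈ ((K.link F).restrict P).chains (i - F.card + 1), bd w = lkPart P F z ∧
          w.support.card ≤ N := by
      intro F _
      by_cases h : r ≤ F.card ∧ F.card ≤ i ∧ K.face F ∧ (∀ v ∈ F, ¬ P v) ∧
          lkPart P F z ∈ ((K.link F).restrict P).chains (i - F.card) ∧ bd (lkPart P F z) = 0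
      · obtain ⟨h1, h2, h3, h4, h5, h6⟩ := h
        obtain ⟨w, hw, hwb⟩ := hfill F h1 h2 h3 h4 _ h5 h6
        exact ⟨w.support.card, fun _ _ _ _ _ _ => ⟨w, hw, hwb, le_rfl⟩⟩
      · exact ⟨0, fun a b c d e f => absurd ⟨by omega, by omega, a, b, e, f⟩ h⟩
    choose! N hN using hw
    obtain ⟨y₁, hy₁, hlt, hz₁, -, -⟩ := clear_step K P (q := r + n) z hz
      (fun σ hσ => Nat.lt_succ_iff.1 (hle σ hσ)) (fun σ hσ => (hbd σ hσ).trans_le (by omega))
      (Fs.sup N) fun F hK hP hc hi hm hb hex => by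
        obtain ⟨σ, hσ, he⟩ := hex
        have hFm : F ∈ Fs := mem_image.2 ⟨σ, hσ, he⟩
        obtain ⟨w, hw, hwb, hwc⟩ := hN F hFm hK hP hc hi (by rwa [hc]) hb
        exact ⟨w, by rwa [hc] at hw, hwb, hwc.trans (le_sup hFm)⟩
    obtain ⟨y₂, hy₂, hz₂, hlt₂⟩ := ih _ hz₁ hlt fun σ hσ => hbd σ (by
      rwa [map_add, Equi.bd_bd, add_zero] at hσ)
    exact ⟨y₁ + y₂, Submodule.add_mem _ hy₁ hy₂, by rwa [map_add, ← add_assoc],
      by rwa [map_add, ← add_assoc]⟩

/-- Clearing with bounds on the number of faces. -/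
theorem clear_fills (i : ℕ) (φ : ℕ → ℕ) : ∀ n L, ∃ N L₀ : ℕ, ∀ {V : Type} (K : Cplx V)
    (P : V → Prop),
    (∀ F, 1 ≤ F.card → F.card ≤ i → K.face F → (∀ v ∈ F, ¬ P v) →
      ∀ c ∈ ((K.link F).restrict P).chains (i - F.card), bd c = 0 → c.support.card ≤ L₀ →
        ∃ w ∈ ((K.link F).restrict P).chains (i - F.card + 1), bd w = c ∧
          w.support.card ≤ φ c.support.card) →
    ∀ z ∈ K.chains i, bd z = 0 → z.support.card ≤ L → (∀ σ ∈ z.support, (outs P σ).card < 1 + n) →
      ∃ y ∈ K.chains (i + 1), z + bd y ∈ K.chains i ∧ y.support.card ≤ N ∧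
        (z + bd y).support.card ≤ L₀ ∧ ∀ σ ∈ (z + bd y).support, (outs P σ).card < 1 := by
  intro n
  induction n with
  | zero =>
    exact fun L => ⟨0, L, fun K P _ z hz _ hL hle =>
      ⟨0, Submodule.zero_mem _, by simpa using hz, by simp, by simpa using hL, by simpa using hle⟩⟩
  | succ n ih =>
    intro L
    set B := (Finset.range (L + 1)).sup φ
    obtain ⟨N', L', h'⟩ := ih (L + L * B * (i + 1))
    refine ⟨L * B + N', max L L', fun K P hfill z hz hbd hL hle => ?_⟩
    obtain ⟨y₁, hy₁, hlt, hz₁, hc₁, hc₂⟩ := clear_step K P (q := 1 + n) z hz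
      (fun σ hσ => Nat.lt_succ_iff.1 (hle σ hσ)) (fun σ hσ => by simp [hbd] at hσ) B
      fun F hK hP hc hi hm hb _ => by
        have hcard : (lkPart P F z).support.card ≤ L := (lkPart_card P F z).trans hL
        obtain ⟨w, hw, hwb, hwc⟩ := hfill F (by omega) (by omega) hK hP _ (by rwa [hc]) hb
          (hcard.trans (le_max_left _ _))
        exact ⟨w, by rwa [hc] at hw, hwb, hwc.trans (le_sup (mem_range.2 (by omega)))⟩
    have hb1 : z.support.card * B ≤ L * B := Nat.mul_le_mul_right _ hL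
    obtain ⟨y₂, hy₂, hz₂, hc₃, hc₄, hlt₂⟩ := h' K P
      (fun F a b c d w e f g => hfill F a b c d w e f (g.trans (le_max_right _ _)))
      _ hz₁ (by rw [map_add, hbd, Equi.bd_bd, add_zero])
      (hc₂.trans (Nat.add_le_add hL (Nat.mul_le_mul_right _ hb1))) hlt
    refine ⟨y₁ + y₂, Submodule.add_mem _ hy₁ hy₂, by rwa [map_add, ← add_assoc],
      (card_add _ _).trans (Nat.add_le_add (hc₁.trans hb1) hc₃), ?_, by rwa [map_add, ← add_assoc]⟩
    rw [map_add, ← add_assoc]
    exact hc₄.trans (le_max_right _ _)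

theorem chains_restrict (K : Cplx V) (P : V → Prop) {i : ℕ} {z : Chain V} (hz : z ∈ K.chains i)
    (h : ∀ σ ∈ z.support, (outs P σ).card < 1) : z ∈ (K.restrict P).chains i := by
  rw [mem_chains] at hz ⊢
  refine fun σ hσ => ⟨⟨(hz σ hσ).1, fun v hv => ?_⟩, (hz σ hσ).2⟩
  by_contra hP
  have hm : v ∈ outs P σ := mem_filter.2 ⟨hv, hP⟩
  have := h σ hσ
  have := card_pos.2 ⟨v, hm⟩
  omega

theorem outs_card_lt (K : Cplx V) (P : V → Prop) {i : ℕ} (r : ℕ) {z : Chain V}
    (hz : z ∈ K.chains i) (_hr : 1 ≤ r) : ∀ σ ∈ z.support, (outs P σ).card < r + i := fun σ hσ => by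
  have h1 := card_filter_le σ fun v => ¬ P v
  have h2 := ((mem_chains K).1 hz σ hσ).2
  show (σ.filter fun v => ¬ P v).card < r + i
  omega

theorem face_link_empty (K : Cplx V) (σ : Finset V) : (K.link ∅).face σ ↔ K.face σ := by
  constructor
  · rintro (rfl | ⟨-, h⟩)
    · exact K.empty
    · rwa [union_empty] at h
  · exact fun h => Or.inr ⟨disjoint_empty_right _, by rwa [union_empty]⟩

theorem chains_link_empty (K : Cplx V) (P : V → Prop) (j : ℕ) :
    ((K.link ∅).restrict P).chains j = (K.restrict P).chains j := by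
  ext z
  simp only [mem_chains, Cplx.restrict, face_link_empty]

theorem ex_of_part (K : Cplx V) (P : V → Prop) (m : ℕ)
    (h : ∀ F, K.face F → (∀ v ∈ F, ¬ P v) → ((K.link F).restrict P).Ex (m - F.card)) :
    K.Ex m := by
  intro j hj z hz hzc
  obtain ⟨y, hy, hz', hout⟩ := clear_ex K P le_rfl
    (fun F _ h2 h3 h4 c hc hb => h F h3 h4 _ (by omega) c hc hb) j z hz
    (outs_card_lt K P 1 hz le_rfl) (by simp [hzc])
  have h0 := chains_restrict K P hz' hout
  rw [← chains_link_empty] at h0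
  obtain ⟨w, hw, hwb⟩ := h ∅ K.empty (by simp) j (by simpa using hj) _ h0
    (by rw [map_add, hzc, Equi.bd_bd, add_zero])
  rw [chains_link_empty, mem_chains] at hw
  refine ⟨w + y, Submodule.add_mem _ ((mem_chains K).2 fun σ hσ => ⟨(hw σ hσ).1.1, (hw σ hσ).2⟩)
    hy, ?_⟩
  rw [map_add, hwb, add_assoc, Band.add_self, add_zero]

theorem part_of_ex (K : Cplx V) (P : V → Prop) (m : ℕ) (hK : K.Ex m)
    (h : ∀ F, F.Nonempty → K.face F → (∀ v ∈ F, ¬ P v) →
      ((K.link F).restrict P).Ex (m + 1 - F.card)) :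
    (K.restrict P).Ex m := by
  intro j hj z hz hzc
  rw [mem_chains] at hz
  obtain ⟨w, hw, hwb⟩ := hK j hj z ((mem_chains K).2 fun σ hσ => ⟨(hz σ hσ).1.1, (hz σ hσ).2⟩) hzc
  obtain ⟨y, -, hw', hout⟩ := clear_ex K P le_rfl
    (fun F h1 h2 h3 h4 c hc hb => h F (card_pos.1 h1) h3 h4 _ (by omega) c hc hb) (j + 1) w hw
    (outs_card_lt K P 1 hw le_rfl) (fun σ hσ => by
      rw [hwb] at hσ
      rw [outs, filter_false_of_mem fun v hv => not_not.2 ((hz σ hσ).1.2 v hv)]
      simp)
  exact ⟨w + bd y, chains_restrict K P hw' hout, by rw [map_add, Equi.bd_bd, add_zero, hwb]⟩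

theorem span_of_part (K : Cplx V) (P : V → Prop) (m j : ℕ) (hj : j < m) (hK : K.Ex m)
    (h : ∀ F, 2 ≤ F.card → K.face F → (∀ v ∈ F, ¬ P v) →
      ((K.link F).restrict P).Ex (m + 1 - F.card))
    (z : Chain V) (hz : z ∈ (K.restrict P).chains j) (hzc : bd z = 0) :
    ∃ (B : Finset V) (c : V → Chain V),
      (∀ v ∈ B, ¬ P v ∧ K.face {v} ∧ c v ∈ ((K.link {v}).restrict P).chains j ∧ bd (c v) = 0) ∧
      (K.restrict P).Null j (z + ∑ v ∈ B, c v) := by
  rw [mem_chains] at hz
  obtain ⟨w₀, hw₀, hwb⟩ :=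
    hK j hj z ((mem_chains K).2 fun σ hσ => ⟨(hz σ hσ).1.1, (hz σ hσ).2⟩) hzc
  have hz0 : ∀ σ ∈ z.support, (outs P σ).card < 1 := fun σ hσ => by
    rw [outs, filter_false_of_mem fun v hv => not_not.2 ((hz σ hσ).1.2 v hv)]
    simp
  obtain ⟨y, -, hw, hout⟩ := clear_ex K P (r := 2) one_le_two
    (fun F h1 h2 h3 h4 c hc hb => h F h1 h3 h4 _ (by omega) c hc hb) (j + 1) w₀ hw₀
    (outs_card_lt K P 2 hw₀ one_le_two)
    (fun σ hσ => (hz0 σ (hwb ▸ hσ)).trans one_lt_two)
  set w := w₀ + bd y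
  have hwb' : bd w = z := by rw [map_add, Equi.bd_bd, add_zero, hwb]
  rw [mem_chains] at hw
  have hv : ∀ v ∈ (w.support.biUnion id).filter fun v => ¬ P v,
      ∃ σ ∈ w.support, outs P σ = {v} := fun v hv => by
    obtain ⟨h1, h2⟩ := mem_filter.1 hv
    obtain ⟨σ, hσ, hm⟩ := mem_biUnion.1 h1
    refine ⟨σ, hσ, (eq_singleton_iff_unique_mem.2 ⟨mem_filter.2 ⟨hm, h2⟩, fun x hx => ?_⟩)⟩
    exact card_le_one.1 (Nat.lt_succ_iff.1 (hout σ hσ)) x hx v (mem_filter.2 ⟨hm, h2⟩)
  set B := (w.support.biUnion id).filter fun v => ¬ P v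
  have hc : ∀ v ∈ B, bd (lkPart P {v} w) = 0 := fun v _ => by
    rw [← lkPart_bd P {v} w fun σ hσ => Nat.lt_succ_iff.1 (hout σ hσ), hwb',
      ← Finsupp.support_eq_empty]
    refine eq_empty_of_forall_notMem fun τ hτ => ?_
    obtain ⟨ρ, hρ, he, -⟩ := lkPart_supp P _ _ τ hτ
    simpa [he] using hz0 ρ hρ
  refine ⟨B, fun v => lkPart P {v} w, fun v hvB => ⟨(mem_filter.1 hvB).2, ?_, ?_, hc v hvB⟩, ?_⟩
  · obtain ⟨σ, hσ, he⟩ := hv v hvB
    exact K.down (hw σ hσ).1 (he ▸ filter_subset _ _)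
  · rw [mem_chains]
    intro τ hτ
    obtain ⟨σ, hσ, he, rfl⟩ := lkPart_supp P {v} w τ hτ
    have hsub : {v} ⊆ σ := he ▸ filter_subset _ _
    refine ⟨⟨Or.inr ⟨sdiff_disjoint, ?_⟩, fun x hx => ?_⟩, ?_⟩
    · rw [sdiff_union_of_subset hsub]; exact (hw σ hσ).1
    · by_contra hP
      obtain ⟨h1, h2⟩ := mem_sdiff.1 hx
      exact h2 (he ▸ mem_filter.2 ⟨h1, hP⟩)
    · rw [card_sdiff_of_subset hsub, (hw σ hσ).2, card_singleton]
      rfl
  · set free := w.filter fun σ => (outs P σ).card < 1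
    refine ⟨free, chains_restrict K P ((mem_chains K).2 fun σ hσ => ?_) fun σ hσ => ?_, ?_⟩
    · rw [Finsupp.support_filter, mem_filter] at hσ
      exact hw σ hσ.1
    · rw [Finsupp.support_filter, mem_filter] at hσ
      exact hσ.2
    · have e : ∀ v ∈ B, joinF {v} (lkPart P {v} w) = w.filter fun σ => outs P σ = {v} := by
        intro v _
        conv_lhs => rw [chain_sum w]
        rw [Finsupp.filter_eq_sum, sum_filter]
        simp only [map_sum, map_smul, lkPart_single]
        refine sum_congr rfl fun σ _ => ?_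
        split_ifs with he
        · rw [joinF_single, sdiff_union_of_subset (he ▸ filter_subset _ _)]
          simp
        · simp
      have hsplit : w = free + ∑ v ∈ B, joinF {v} (lkPart P {v} w) := by
        rw [sum_congr rfl e]
        ext σ
        simp only [free, Finsupp.add_apply, Finsupp.finsetSum_apply, Finsupp.filter_apply]
        by_cases hσ : σ ∈ w.support
        · rcases Nat.lt_or_ge (outs P σ).card 1 with h1 | h1
          · rw [if_pos h1, sum_eq_zero fun v _ => if_neg fun e => by simp [e] at h1, add_zero]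
          · have hσ2 := hout σ hσ
            obtain ⟨v, hv'⟩ := card_eq_one.1 (le_antisymm (Nat.lt_succ_iff.1 hσ2) h1)
            obtain ⟨h3, h4⟩ := mem_filter.1
              (hv' ▸ mem_singleton_self v : v ∈ outs P σ)
            rw [if_neg (by omega), zero_add, sum_eq_single_of_mem v
              (mem_filter.2 ⟨mem_biUnion.2 ⟨σ, hσ, h3⟩, h4⟩)
              (fun u _ hu => if_neg fun e => hu (singleton_injective (e.symm.trans hv'))),
              if_pos hv']
        · simp [Finsupp.notMem_support_iff.1 hσ]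
      have hb : ∀ v ∈ B, bd (joinF {v} (lkPart P {v} w)) = lkPart P {v} w := fun v hvB => by
        rw [Band.bd_join, hc v hvB, map_zero, add_zero]
        intro τ hτ
        obtain ⟨σ, -, -, rfl⟩ := lkPart_supp P {v} w τ hτ
        exact notMem_sdiff_of_mem_right (mem_singleton_self v)
      have h1 : z = bd free + ∑ v ∈ B, lkPart P {v} w :=
        calc z = bd w := hwb'.symm
          _ = bd (free + ∑ v ∈ B, joinF {v} (lkPart P {v} w)) := congrArg bd hsplit
          _ = _ := by rw [map_add, map_sum, sum_congr rfl hb]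
      rw [h1, add_assoc, Band.add_self, add_zero]

theorem ex_of_cone (K : Cplx V) (m N : ℕ) (h : K.Cone m N) : K.Ex m :=
  Band.ex_of_cone K h

theorem cone_of_fills (m : ℕ) (φ : ℕ → ℕ) : ∃ N L : ℕ, ∀ {V : Type} (K : Cplx V),
    (∀ L' ≤ L, K.Fills m L' (φ L')) → K.Cone m N := by
  obtain ⟨M, L₀, h⟩ := Band.cone_of_fills m φ
  exact ⟨M, L₀, fun K hK => h _ K hK⟩

theorem fills_of_part (m L : ℕ) (φ : ℕ → ℕ) : ∃ N L₀ : ℕ, ∀ {V : Type} (K : Cplx V) (P : V → Prop),
    (∀ F, K.face F → (∀ v ∈ F, ¬ P v) → ∀ L' ≤ L₀,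
      ((K.link F).restrict P).Fills (m - F.card) L' (φ L')) →
    K.Fills m L N := by
  choose N L₁ h using fun j => clear_fills j φ j L
  set L₀ := (range m).sup L₁
  refine ⟨(range m).sup N + (range (L₀ + 1)).sup φ, L₀, fun K P hK j hj z hz hzc hL => ?_⟩
  have hjL : L₁ j ≤ L₀ := le_sup (f := L₁) (mem_range.2 hj)
  obtain ⟨y, hy, hz', hyc, hzc', hout⟩ := h j K P (fun F _ h2 h3 h4 c hc hb hcc =>
      hK F h3 h4 c.support.card (hcc.trans hjL) _ (by omega) c hc hb le_rfl)
    z hz hzc hL (outs_card_lt K P 1 hz le_rfl)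
  have h0 := chains_restrict K P hz' hout
  rw [← chains_link_empty] at h0
  obtain ⟨w, hw, hwb, hwc⟩ := hK ∅ K.empty (by simp) _ (hzc'.trans hjL) j (by simpa using hj) _ h0
    (by rw [map_add, hzc, Equi.bd_bd, add_zero]) le_rfl
  rw [chains_link_empty, mem_chains] at hw
  refine ⟨w + y, Submodule.add_mem _ ((mem_chains K).2 fun σ hσ => ⟨(hw σ hσ).1.1, (hw σ hσ).2⟩)
    hy, ?_, ?_⟩
  · rw [map_add, hwb, add_assoc, Band.add_self, add_zero]
  · refine (card_add _ _).trans ?_
    rw [add_comm]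
    exact Nat.add_le_add (hyc.trans (le_sup (f := N) (mem_range.2 hj)))
      (hwc.trans (le_sup (mem_range.2 (Nat.lt_succ_of_le (hzc'.trans hjL)))))

section Iso

variable {K : Cplx V} {K' : Cplx W} {f : V → W}
  (hinj : ∀ v w, K.face {v} → K.face {w} → f v = f w → v = w)
  (hface : ∀ τ, K'.face τ ↔ ∃ σ, K.face σ ∧ σ.image f = τ)

include hinj in
theorem injOn_face {σ : Finset V} (hσ : K.face σ) : Set.InjOn f σ := fun v hv w hw e =>
  hinj v w (K.down hσ (singleton_subset_iff.2 hv)) (K.down hσ (singleton_subset_iff.2 hw)) e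

include hinj in
theorem image_injOn_faces : Set.InjOn (fun σ : Finset V => σ.image f) {σ | K.face σ} := by
  intro σ hσ τ hτ e
  have key : ∀ {σ τ : Finset V}, K.face σ → K.face τ → σ.image f = τ.image f → σ ⊆ τ := by
    intro σ τ hσ hτ e v hv
    obtain ⟨w, hw, hwv⟩ := mem_image.1 (e ▸ mem_image_of_mem f hv)
    exact hinj w v (K.down hτ (singleton_subset_iff.2 hw)) (K.down hσ (singleton_subset_iff.2 hv))
      hwv ▸ hw
  exact (key hσ hτ e).antisymm (key hτ hσ e.symm)

include hinj hface in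
theorem push_chains {j : ℕ} {c : Chain V} (hc : c ∈ K.chains j) : vpush f c ∈ K'.chains j := by
  rw [mem_chains] at hc ⊢
  intro τ hτ
  obtain ⟨σ, hσ, rfl⟩ := mem_image.1 (supp_vpush f c hτ)
  exact ⟨(hface _).2 ⟨σ, (hc σ hσ).1, rfl⟩,
    by rw [card_image_of_injOn (injOn_face hinj (hc σ hσ).1)]; exact (hc σ hσ).2⟩

include hinj in
theorem bd_push {j : ℕ} {c : Chain V} (hc : c ∈ K.chains j) :
    bd (vpush f c) = vpush f (bd c) :=
  bd_vpush f c fun σ hσ => injOn_face hinj ((mem_chains K).1 hc σ hσ).1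

include hinj hface in
theorem pull_chains {j : ℕ} {z : Chain W} (hz : z ∈ K'.chains j) :
    ∃ c ∈ K.chains j, vpush f c = z ∧ c.support.card ≤ z.support.card := by
  rw [mem_chains] at hz
  choose! s hs hse using fun τ (hτ : τ ∈ z.support) => (hface τ).1 (hz τ hτ).1
  refine ⟨Finsupp.mapDomain s z, (mem_chains K).2 fun σ hσ => ?_, ?_,
    (card_le_card Finsupp.mapDomain_support).trans card_image_le⟩
  · obtain ⟨τ, hτ, rfl⟩ := mem_image.1 (Finsupp.mapDomain_support hσ)
    refine ⟨hs τ hτ, ?_⟩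
    rw [← card_image_of_injOn (injOn_face hinj (hs τ hτ)), hse τ hτ, (hz τ hτ).2]
  · show Finsupp.mapDomain (fun σ : Finset V => σ.image f) (Finsupp.mapDomain s z) = z
    rw [← Finsupp.mapDomain_comp]
    exact (Finsupp.mapDomain_congr fun τ hτ => hse τ hτ).trans Finsupp.mapDomain_id

theorem bd_faces {j : ℕ} {c : Chain V} (hc : c ∈ K.chains j) :
    ∀ σ ∈ (bd c).support, K.face σ := fun σ hσ => by
  obtain ⟨τ, hτ, hm⟩ := mem_biUnion.1 (supp_linComb _ c hσ)
  obtain ⟨v, -, hv⟩ := mem_biUnion.1 (Finsupp.support_finsetSum hm)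
  rw [mem_singleton.1 (Finsupp.support_single_subset hv)]
  exact K.down ((mem_chains K).1 hc τ hτ).1 (erase_subset _ _)

include hinj in
theorem push_inj {a b : Chain V} (ha : ∀ σ ∈ a.support, K.face σ)
    (hb : ∀ σ ∈ b.support, K.face σ) (e : vpush f a = vpush f b) : a = b :=
  Finsupp.mapDomain_injOn {σ | K.face σ} (image_injOn_faces hinj) (fun σ hσ => ha σ hσ)
    (fun σ hσ => hb σ hσ) e

end Iso

theorem fills_of_iso (K : Cplx V) (K' : Cplx W) (f : V → W)
    (hinj : ∀ v w, K.face {v} → K.face {w} → f v = f w → v = w)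
    (hface : ∀ τ, K'.face τ ↔ ∃ σ, K.face σ ∧ σ.image f = τ) (m L N : ℕ) :
    K.Fills m L N ↔ K'.Fills m L N := by
  constructor
  · intro h j hj z hz hzc hL
    obtain ⟨c, hc, rfl, hcc⟩ := pull_chains hinj hface hz
    obtain ⟨w, hw, hwb, hwc⟩ := h j hj c hc
      (push_inj hinj (bd_faces hc) (by simp) (by rw [← bd_push hinj hc, hzc, map_zero]))
      (hcc.trans hL)
    exact ⟨vpush f w, push_chains hinj hface hw, by rw [bd_push hinj hw, hwb],
      ((card_le_card (supp_vpush f w)).trans card_image_le).trans hwc⟩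
  · intro h j hj z hz hzc hL
    obtain ⟨w', hw', hwb', hwc'⟩ := h j hj (vpush f z) (push_chains hinj hface hz)
      (by rw [bd_push hinj hz, hzc, map_zero])
      (((card_le_card (supp_vpush f z)).trans card_image_le).trans hL)
    obtain ⟨w, hw, rfl, hwc⟩ := pull_chains hinj hface hw'
    refine ⟨w, hw, push_inj hinj (bd_faces hw) (fun σ hσ => ((mem_chains K).1 hz σ hσ).1) ?_,
      hwc.trans hwc'⟩
    rw [← bd_push hinj hw, hwb']

theorem ex_of_iso (K : Cplx V) (K' : Cplx W) (f : V → W)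
    (hinj : ∀ v w, K.face {v} → K.face {w} → f v = f w → v = w)
    (hface : ∀ τ, K'.face τ ↔ ∃ σ, K.face σ ∧ σ.image f = τ) (m : ℕ) :
    K.Ex m ↔ K'.Ex m := by
  constructor
  · intro h j hj z hz hzc
    obtain ⟨c, hc, rfl, -⟩ := pull_chains hinj hface hz
    obtain ⟨w, hw, hwb⟩ := h j hj c hc
      (push_inj hinj (bd_faces hc) (by simp) (by rw [← bd_push hinj hc, hzc, map_zero]))
    exact ⟨vpush f w, push_chains hinj hface hw, by rw [bd_push hinj hw, hwb]⟩
  · intro h j hj z hz hzc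
    obtain ⟨w', hw', hwb'⟩ := h j hj (vpush f z) (push_chains hinj hface hz)
      (by rw [bd_push hinj hz, hzc, map_zero])
    obtain ⟨w, hw, rfl, -⟩ := pull_chains hinj hface hw'
    refine ⟨w, hw, push_inj hinj (bd_faces hw) (fun σ hσ => ((mem_chains K).1 hz σ hσ).1) ?_⟩
    rw [← bd_push hinj hw, hwb']

end Vale.Agent.P067.Cob.Cplx
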