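import Mathlib

/-!
Simplicial complexes with empty face, augmented mod-two chains, exactness in small sizes and
quantitative versions of it.
-/

namespace Vale.Agent.P067.Cob

open Finset

open scoped Classical

/-- A simplicial complex, the empty face included. -/
structure Cplx (V : Type*) where
  face : Finset V → Prop
  empty : face ∅
  down : ∀ {σ τ : Finset V}, face τ → σ ⊆ τ → face σ

variable {V : Type*}

/-- Mod-two chains: finitely supported functions on finite vertex sets. -/
abbrev Chain (V : Type*) := Finset V →₀ ZMod 2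

/-- The mod-two boundary, augmented: a vertex goes to the empty face. -/
noncomputable def bd : Chain V →ₗ[ZMod 2] Chain V :=
  Finsupp.linearCombination (ZMod 2)
    fun σ : Finset V => ∑ v ∈ σ, Finsupp.single (σ.erase v) (1 : ZMod 2)

/-- The map on chains induced by a map of vertices. -/
noncomputable def vpush {W : Type*} (f : V → W) : Chain V →ₗ[ZMod 2] Chain W :=
  Finsupp.lmapDomain (ZMod 2) (ZMod 2) fun σ : Finset V => σ.image f

namespace Cplx

variable (K : Cplx V)

/-- Chains on the faces with `j` vertices. -/
noncomputable def chains (j : ℕ) : Submodule (ZMod 2) (Chain V) :=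
  Finsupp.supported (ZMod 2) (ZMod 2) {σ | K.face σ ∧ σ.card = j}

/-- The full subcomplex on the vertices satisfying `P`. -/
def restrict (P : V → Prop) : Cplx V where
  face σ := K.face σ ∧ ∀ v ∈ σ, P v
  empty := ⟨K.empty, by simp⟩
  down h hs := ⟨K.down h.1 hs, fun v hv => h.2 v (hs hv)⟩

/-- The link of a face. -/
noncomputable def link (F : Finset V) : Cplx V where
  face τ := τ = ∅ ∨ (Disjoint τ F ∧ K.face (τ ∪ F))
  empty := Or.inl rfl
  down {σ τ} h hs := by
    rcases h with h | ⟨h1, h2⟩
    · subst h
      exact Or.inl (Finset.subset_empty.1 hs)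
    · exact Or.inr ⟨Disjoint.mono_left hs h1,
        K.down h2 (Finset.union_subset_union hs (Finset.Subset.refl F))⟩

/-- A chain of faces with `j` vertices that is a boundary. -/
def Null (j : ℕ) (z : Chain V) : Prop := ∃ w ∈ K.chains (j + 1), bd w = z

/-- Exactness of the augmented chain complex at all sizes below `m`. -/
def Ex (m : ℕ) : Prop := ∀ j < m, ∀ z ∈ K.chains j, bd z = 0 → K.Null j z

/-- Cycles of size below `m` with at most `L` faces bound chains with at most `N` faces. -/
def Fills (m L N : ℕ) : Prop :=
  ∀ j < m, ∀ z ∈ K.chains j, bd z = 0 → z.support.card ≤ L →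
    ∃ w ∈ K.chains (j + 1), bd w = z ∧ w.support.card ≤ N

/-- A contracting homotopy in sizes below `m` with at most `N` faces on each face. -/
def Cone (m N : ℕ) : Prop :=
  ∃ H : Finset V → Chain V, ∀ σ, K.face σ → σ.card < m →
    H σ ∈ K.chains (σ.card + 1) ∧ (H σ).support.card ≤ N ∧
      bd (H σ) + ∑ v ∈ σ, H (σ.erase v) = Finsupp.single σ 1

end Cplx

/-- Adding a vertex set to every face of a chain (faces meeting it are not meant to occur). -/
noncomputable def joinF (F : Finset V) : Chain V →ₗ[ZMod 2] Chain V :=
  Finsupp.lmapDomain (ZMod 2) (ZMod 2) fun σ : Finset V => σ ∪ F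

section Coset

variable {G : Type*} [Group G] {ι : Type*}

/-- The coset complex of a family of subgroups, on the types in `R`. -/
def coset (K : ι → Subgroup G) (R : Finset ι) : Cplx ((i : ι) × (G ⧸ K i)) where
  face σ := ∃ g : G, ∀ v ∈ σ, v.1 ∈ R ∧ v.2 = ((g : G) : G ⧸ K v.1)
  empty := ⟨1, by simp⟩
  down h hs := let ⟨g, hg⟩ := h; ⟨g, fun v hv => hg v (hs hv)⟩

/-- Left translation on the vertices of a coset complex. -/
def trans (K : ι → Subgroup G) (g : G) (v : (i : ι) × (G ⧸ K i)) : (i : ι) × (G ⧸ K i) :=
  ⟨v.1, g • v.2⟩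

/-- Left translation on chains of a coset complex. -/
noncomputable def act (K : ι → Subgroup G) (g : G) :
    Chain ((i : ι) × (G ⧸ K i)) →ₗ[ZMod 2] Chain ((i : ι) × (G ⧸ K i)) :=
  vpush (trans K g)

/-- The standard face of a set of types translated by `g`. -/
noncomputable def cell (K : ι → Subgroup G) (g : G) (T : Finset ι) :
    Finset ((i : ι) × (G ⧸ K i)) :=
  T.image fun i => ⟨i, ((g : G) : G ⧸ K i)⟩

end Coset

end Vale.Agent.P067.Cob
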