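import Vale.Agent.P067.Cob.Coset

/-!
Corners: block embeddings along increasing index maps (owner helper4).
-/

namespace Vale.Agent.P067.Cob

open Finset

open scoped Classical

variable (p k : ℕ) [NeZero k] [Fact p.Prime]

/-- The subgroup fixing the column and the row of index `n`. -/
noncomputable def PG (s : ℕ) (n : Fin k) : Subgroup (GG p k s) where
  carrier := {g | ∀ m, (g.1 : Matrix (Fin k) (Fin k) (AR p s)) m n = (if m = n then 1 else 0) ∧
    (g.1 : Matrix (Fin k) (Fin k) (AR p s)) n m = if n = m then 1 else 0}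
  one_mem' m := by
    simp [Matrix.one_apply]
  mul_mem' {g h} hg hh m := by
    constructor
    · rw [Subgroup.coe_mul, Matrix.SpecialLinearGroup.coe_mul, Matrix.mul_apply,
        Finset.sum_eq_single n (fun q _ hq => by rw [(hh q).1, if_neg hq, mul_zero]) (by simp),
        (hh n).1, if_pos rfl, mul_one, (hg m).1]
    · rw [Subgroup.coe_mul, Matrix.SpecialLinearGroup.coe_mul, Matrix.mul_apply,
        Finset.sum_eq_single n (fun q _ hq => by rw [(hg q).2, if_neg (Ne.symm hq), zero_mul])
          (by simp), (hg n).2, if_pos rfl, one_mul, (hh m).2]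
  inv_mem' {g} hg m := by
    have h1 : (g⁻¹).1.1 * g.1.1 = 1 := by
      rw [← Matrix.SpecialLinearGroup.coe_mul, ← Subgroup.coe_mul, inv_mul_cancel]; simp
    have h2 : g.1.1 * (g⁻¹).1.1 = 1 := by
      rw [← Matrix.SpecialLinearGroup.coe_mul, ← Subgroup.coe_mul, mul_inv_cancel]; simp
    constructor
    · have := congrFun (congrFun h1 m) n
      rwa [Matrix.mul_apply,
        Finset.sum_eq_single n (fun q _ hq => by rw [(hg q).1, if_neg hq, mul_zero]) (by simp),
        (hg n).1, if_pos rfl, mul_one, Matrix.one_apply] at this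
    · have := congrFun (congrFun h2 n) m
      rwa [Matrix.mul_apply,
        Finset.sum_eq_single n (fun q _ hq => by rw [(hg q).2, if_neg (Ne.symm hq), zero_mul])
          (by simp), (hg n).2, if_pos rfl, one_mul, Matrix.one_apply] at this

/-- The inclusion matrix of an index map. -/
def incl (A : Type*) [CommRing A] {k' : ℕ} (e : Fin k' ↪o Fin k) :
    Matrix (Fin k) (Fin k') A :=
  fun a b => if a = e b then 1 else 0

/-- Block matrix: `M` on the image of `e`, identity elsewhere. -/
def blockExt {A : Type*} [CommRing A] {k' : ℕ} (e : Fin k' ↪o Fin k)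
    (M : Matrix (Fin k') (Fin k') A) : Matrix (Fin k) (Fin k) A :=
  1 + incl k A e * (M - 1) * (incl k A e).transpose

theorem incl_transpose_mul {A : Type*} [CommRing A] {k' : ℕ} (e : Fin k' ↪o Fin k) :
    (incl k A e).transpose * incl k A e = 1 := by
  ext a b
  simp [Matrix.mul_apply, incl, Matrix.one_apply, eq_comm]

theorem blockExt_one {A : Type*} [CommRing A] {k' : ℕ} (e : Fin k' ↪o Fin k) :
    blockExt k e (1 : Matrix (Fin k') (Fin k') A) = 1 := by
  simp [blockExt]

theorem blockExt_mul {A : Type*} [CommRing A] {k' : ℕ} (e : Fin k' ↪o Fin k)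
    (M N : Matrix (Fin k') (Fin k') A) :
    blockExt k e (M * N) = blockExt k e M * blockExt k e N := by
  unfold blockExt
  set P := incl k A e
  have h : P.transpose * P = 1 := incl_transpose_mul k e
  have h2 : P * (M - 1) * P.transpose * (P * (N - 1) * P.transpose)
      = P * ((M - 1) * (N - 1)) * P.transpose := by
    calc _ = P * (M - 1) * (P.transpose * P) * (N - 1) * P.transpose := by
          simp only [Matrix.mul_assoc]
      _ = _ := by rw [h, Matrix.mul_one, Matrix.mul_assoc P]
  rw [Matrix.add_mul, Matrix.one_mul, Matrix.mul_add, Matrix.mul_one, h2]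
  have h3 : M * N - 1 = (M - 1) + (N - 1) + (M - 1) * (N - 1) := by
    rw [Matrix.sub_mul, Matrix.mul_sub, Matrix.mul_sub, Matrix.mul_one, Matrix.one_mul,
      Matrix.one_mul]
    abel
  rw [h3, Matrix.mul_add, Matrix.mul_add, Matrix.add_mul, Matrix.add_mul]
  abel

theorem det_blockExt {A : Type*} [CommRing A] {k' : ℕ} (e : Fin k' ↪o Fin k)
    (M : Matrix (Fin k') (Fin k') A) : (blockExt k e M).det = M.det := by
  unfold blockExt
  rw [Matrix.mul_assoc, Matrix.det_one_add_mul_comm, Matrix.mul_assoc, incl_transpose_mul,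
    Matrix.mul_one, add_sub_cancel]

theorem blockExt_apply {A : Type*} [CommRing A] {k' : ℕ} (e : Fin k' ↪o Fin k)
    (M : Matrix (Fin k') (Fin k') A) (a b : Fin k') : blockExt k e M (e a) (e b) = M a b := by
  simp [blockExt, incl, Matrix.mul_apply, Matrix.one_apply]

theorem blockExt_apply_off {A : Type*} [CommRing A] {k' : ℕ} (e : Fin k' ↪o Fin k)
    (M : Matrix (Fin k') (Fin k') A) (a b : Fin k) (h : (∀ x, e x ≠ a) ∨ ∀ x, e x ≠ b) :
    blockExt k e M a b = if a = b then 1 else 0 := by
  rcases h with h | h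
  · simp [blockExt, incl, Matrix.mul_apply, Matrix.one_apply, Ne.symm (h _)]
  · simp [blockExt, incl, Matrix.mul_apply, Matrix.one_apply, Ne.symm (h _)]

/-- The block embedding of special linear groups. -/
def cornerSL {A : Type*} [CommRing A] {k' : ℕ} (e : Fin k' ↪o Fin k) :
    Matrix.SpecialLinearGroup (Fin k') A →* Matrix.SpecialLinearGroup (Fin k) A where
  toFun g := ⟨blockExt k e g.1, by rw [det_blockExt]; exact g.2⟩
  map_one' := Subtype.ext (blockExt_one k e)
  map_mul' g h := Subtype.ext (blockExt_mul k e g.1 h.1)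

theorem cornerSL_mem_Pat {A : Type*} [CommRing A] (J : Ideal A) {k' : ℕ} (e : Fin k' ↪o Fin k)
    (g : Matrix.SpecialLinearGroup (Fin k') A)
    (hg : g ∈ Pat J (fun m l : Fin k' => m < l) (fun _ _ _ => lt_trans) (fun _ _ => lt_asymm)) :
    cornerSL k e g ∈ Pat J (fun m l : Fin k => m < l) (fun _ _ _ => lt_trans)
      (fun _ _ => lt_asymm) := by
  refine ⟨fun a b hne hab => ?_, fun a => ?_⟩
  · show blockExt k e g.1 a b ∈ J
    by_cases ha : ∃ x, e x = a
    · by_cases hb : ∃ x, e x = b
      · obtain ⟨x, rfl⟩ := ha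
        obtain ⟨y, rfl⟩ := hb
        rw [blockExt_apply]
        exact hg.1 x y (fun h => hne (by rw [h])) (fun h => hab (e.lt_iff_lt.2 h))
      · rw [blockExt_apply_off k e g.1 a b (Or.inr fun x hx => hb ⟨x, hx⟩), if_neg hne]
        exact J.zero_mem
    · rw [blockExt_apply_off k e g.1 a b (Or.inl fun x hx => ha ⟨x, hx⟩), if_neg hne]
      exact J.zero_mem
  · show blockExt k e g.1 a a - 1 ∈ J
    by_cases ha : ∃ x, e x = a
    · obtain ⟨x, rfl⟩ := ha
      rw [blockExt_apply]
      exact hg.2 x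
    · rw [blockExt_apply_off k e g.1 a a (Or.inl fun x hx => ha ⟨x, hx⟩), if_pos rfl, sub_self]
      exact J.zero_mem

variable {k' : ℕ} [NeZero k'] (e : Fin k' ↪o Fin k)

omit [Fact p.Prime] in
/-- The corner embedding of polynomial groups. -/
noncomputable def cornerGam : Gam p k' →* Gam p k :=
  MonoidHom.codRestrict ((cornerSL k e).comp (Gam p k').subtype) _
    fun g => cornerSL_mem_Pat k _ e g.1 g.2

/-- The corner embedding of the finite groups. -/
noncomputable def cornerG (s : ℕ) : GG p k' s →* GG p k s :=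
  MonoidHom.codRestrict ((cornerSL k e).comp (GG p k' s).subtype) _
    fun g => cornerSL_mem_Pat k _ e g.1 g.2

/-- The corner map on vertices. -/
noncomputable def cornerV (s : ℕ) (v : (i : Fin k') × (GG p k' s ⧸ KG p k' s i)) :
    (i : Fin k) × (GG p k s ⧸ KG p k s i) :=
  ⟨e v.1, ((cornerG p k e s v.2.out : GG p k s) : GG p k s ⧸ KG p k s (e v.1))⟩

theorem blockExt_map {A B : Type*} [CommRing A] [CommRing B] (f : A →+* B)
    (M : Matrix (Fin k') (Fin k') A) : (blockExt k e M).map f = blockExt k e (M.map f) := by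
  ext a b
  by_cases ha : ∃ x, e x = a
  · by_cases hb : ∃ x, e x = b
    · obtain ⟨x, rfl⟩ := ha
      obtain ⟨y, rfl⟩ := hb
      simp [blockExt_apply]
    · rw [Matrix.map_apply, blockExt_apply_off k e M a b (Or.inr fun x hx => hb ⟨x, hx⟩),
        blockExt_apply_off k e (M.map f) a b (Or.inr fun x hx => hb ⟨x, hx⟩)]
      split_ifs <;> simp
  · rw [Matrix.map_apply, blockExt_apply_off k e M a b (Or.inl fun x hx => ha ⟨x, hx⟩),
      blockExt_apply_off k e (M.map f) a b (Or.inl fun x hx => ha ⟨x, hx⟩)]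
    split_ifs <;> simp

theorem eq_blockExt {A : Type*} [CommRing A] (M : Matrix (Fin k) (Fin k) A)
    (h : ∀ a b, ((∀ x, e x ≠ a) ∨ ∀ x, e x ≠ b) → M a b = if a = b then 1 else 0) :
    blockExt k e (M.submatrix e e) = M := by
  ext a b
  by_cases ha : ∃ x, e x = a
  · by_cases hb : ∃ x, e x = b
    · obtain ⟨x, rfl⟩ := ha
      obtain ⟨y, rfl⟩ := hb
      rw [blockExt_apply]
      rfl
    · rw [blockExt_apply_off k e _ a b (Or.inr fun x hx => hb ⟨x, hx⟩),
        h a b (Or.inr fun x hx => hb ⟨x, hx⟩)]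
  · rw [blockExt_apply_off k e _ a b (Or.inl fun x hx => ha ⟨x, hx⟩),
      h a b (Or.inl fun x hx => ha ⟨x, hx⟩)]

/-- The submatrix of an element of a pattern group with trivial outside rows and columns. -/
theorem exists_sub {A : Type*} [CommRing A] (J : Ideal A)
    (g : Matrix.SpecialLinearGroup (Fin k) A)
    (hg : g ∈ Pat J (fun m l : Fin k => m < l) (fun _ _ _ => lt_trans) (fun _ _ => lt_asymm))
    (h : ∀ a b, ((∀ x, e x ≠ a) ∨ ∀ x, e x ≠ b) →
      (g : Matrix (Fin k) (Fin k) A) a b = if a = b then 1 else 0) :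
    ∃ g' : Matrix.SpecialLinearGroup (Fin k') A,
      g' ∈ Pat J (fun m l : Fin k' => m < l) (fun _ _ _ => lt_trans) (fun _ _ => lt_asymm) ∧
        cornerSL k e g' = g := by
  have he := eq_blockExt k e g.1 h
  have hdet : (Matrix.submatrix g.1 e e).det = 1 := by
    rw [← det_blockExt k e, he]
    exact g.2
  refine ⟨⟨_, hdet⟩, ⟨fun m l hne hml => ?_, fun m => hg.2 (e m)⟩, Subtype.ext he⟩
  exact hg.1 (e m) (e l) (fun h => hne (e.injective h)) (fun h => hml (e.lt_iff_lt.1 h))

theorem ltc_map (i m l : Fin k') : ltc (e i) (e m) (e l) ↔ ltc i m l := by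
  have h1 := e.lt_iff_lt (a := m) (b := i)
  have h2 := e.lt_iff_lt (a := l) (b := i)
  have h3 := e.lt_iff_lt (a := m) (b := l)
  have hm := (e m).isLt; have hl := (e l).isLt; have hi := (e i).isLt
  have hm' := m.isLt; have hl' := l.isLt; have hi' := i.isLt
  simp only [ltc, val_sub_eq, Fin.lt_def] at *
  split_ifs <;> omega

theorem dlt_map (m l : Fin k') : dlt (e m) (e l) = dlt m l := by
  simp [dlt, e.lt_iff_lt]

theorem cornerGam_mem_KGam (i : Fin k') (h : Gam p k') (hh : h ∈ KGam p k' i) :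
    cornerGam p k e h ∈ KGam p k (e i) := by
  intro a b
  have hh' : ∀ m l, ∃ c : ZMod p, (h.1 : Matrix (Fin k') (Fin k') (Polynomial (ZMod p))) m l =
      if m = l then 1 else if ltc i m l then Polynomial.C c * Polynomial.X ^ dlt m l else 0 := hh
  show ∃ c : ZMod p, blockExt k e h.1.1 a b = _
  by_cases hab : (∀ x, e x ≠ a) ∨ ∀ x, e x ≠ b
  · refine ⟨0, ?_⟩
    rw [blockExt_apply_off k e _ a b hab]
    split_ifs <;> simp
  · push Not at hab
    obtain ⟨⟨x, rfl⟩, ⟨y, rfl⟩⟩ := hab
    obtain ⟨c, hc⟩ := hh' x y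
    refine ⟨c, ?_⟩
    rw [blockExt_apply, hc]
    simp only [e.injective.eq_iff, ltc_map, dlt_map]

theorem red_cornerGam (s : ℕ) (g : Gam p k') :
    red p k s (cornerGam p k e g) = cornerG p k e s (red p k' s g) :=
  Subtype.ext (Subtype.ext (blockExt_map k e _ g.1.1))

theorem cornerG_mem_KG (s : ℕ) (i : Fin k') (g : GG p k' s) (hg : g ∈ KG p k' s i) :
    cornerG p k e s g ∈ KG p k s (e i) := by
  obtain ⟨h, hh, rfl⟩ := Subgroup.mem_map.1 hg
  exact Subgroup.mem_map.2 ⟨_, cornerGam_mem_KGam p k e i h hh, red_cornerGam p k e s h⟩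

theorem cornerV_mk (s : ℕ) (i : Fin k') (g : GG p k' s) :
    cornerV p k e s ⟨i, (g : GG p k' s ⧸ KG p k' s i)⟩ =
      ⟨e i, ((cornerG p k e s g : GG p k s) : GG p k s ⧸ KG p k s (e i))⟩ := by
  obtain ⟨h, hh⟩ := QuotientGroup.mk_out_eq_mul (KG p k' s i) g
  show Sigma.mk _ _ = Sigma.mk _ _
  congr 1
  rw [hh, map_mul, QuotientGroup.mk_mul_of_mem _ (cornerG_mem_KG p k e s i h h.2)]

theorem range_cornerG (s : ℕ) :
    (cornerG p k e s).range = ⨅ n ∈ (Finset.univ.filter fun n => ∀ x, e x ≠ n), PG p k s n := by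
  ext g
  simp only [MonoidHom.mem_range, Subgroup.mem_iInf, Finset.mem_filter, Finset.mem_univ, true_and]
  constructor
  · rintro ⟨g', rfl⟩ n hn m
    exact ⟨blockExt_apply_off k e g'.1.1 m n (Or.inr hn),
      blockExt_apply_off k e g'.1.1 n m (Or.inl hn)⟩
  · intro h
    obtain ⟨g', hg', he⟩ := exists_sub k e _ g.1 g.2 fun a b hab => by
      rcases hab with ha | hb
      · exact (h a ha b).2
      · exact (h b hb a).1
    exact ⟨⟨g', hg'⟩, Subtype.ext he⟩

theorem cornerG_injective (s : ℕ) : Function.Injective (cornerG p k e s) := by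
  intro g h hgh
  apply Subtype.ext
  apply Subtype.ext
  funext a b
  have h1 : blockExt k e g.1.1 (e a) (e b) = blockExt k e h.1.1 (e a) (e b) := by
    have := congrArg (fun x : GG p k s => x.1.1 (e a) (e b)) hgh
    exact this
  rwa [blockExt_apply, blockExt_apply] at h1

theorem mk_monomial_eq_zero (s : ℕ) (c : ZMod p) (d : ℕ) (hd : d < s)
    (h : Ideal.Quotient.mk (Ideal.span {(Polynomial.X : Polynomial (ZMod p)) ^ s})
      (Polynomial.C c * Polynomial.X ^ d) = 0) : c = 0 := by
  rw [Ideal.Quotient.eq_zero_iff_mem, Ideal.mem_span_singleton, Polynomial.X_pow_dvd_iff] at h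
  have := h d hd
  simpa [Polynomial.coeff_C_mul, Polynomial.coeff_X_pow] using this

theorem comap_cornerG_KG (s : ℕ) (hs : 2 ≤ s) (i : Fin k') :
    (KG p k s (e i)).comap (cornerG p k e s) = KG p k' s i := by
  refine le_antisymm (fun g hg => ?_) (fun g hg => cornerG_mem_KG p k e s i g hg)
  obtain ⟨h, hh, he⟩ := Subgroup.mem_map.1 (Subgroup.mem_comap.1 hg)
  have hh' : ∀ m l, ∃ c : ZMod p, (h.1 : Matrix (Fin k) (Fin k) (Polynomial (ZMod p))) m l =
      if m = l then 1 else if ltc (e i) m l then Polynomial.C c * Polynomial.X ^ dlt m l else 0 :=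
    hh
  obtain ⟨g', hg', hge⟩ := exists_sub k e _ h.1 h.2 fun a b hab => by
    obtain ⟨c, hc⟩ := hh' a b
    by_cases hab' : a = b
    · rw [hc, if_pos hab', if_pos hab']
    rw [hc, if_neg hab', if_neg hab']
    split_ifs with hlt
    · have h1 : Ideal.Quotient.mk (Ideal.span {(Polynomial.X : Polynomial (ZMod p)) ^ s})
          (h.1.1 a b) = (cornerG p k e s g).1.1 a b := congrArg (fun x : GG p k s => x.1.1 a b) he
      have h2 : (cornerG p k e s g).1.1 a b = 0 := by
        show blockExt k e g.1.1 a b = 0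
        rw [blockExt_apply_off k e _ a b hab, if_neg hab']
      rw [h2, hc, if_neg hab', if_pos hlt] at h1
      have hc0 : c = 0 := mk_monomial_eq_zero p s c _ (by unfold dlt; split_ifs <;> omega) h1
      simp [hc0]
    · rfl
  refine Subgroup.mem_map.2 ⟨⟨g', hg'⟩, ?_, ?_⟩
  · intro m l
    obtain ⟨c, hc⟩ := hh' (e m) (e l)
    refine ⟨c, ?_⟩
    have h3 : h.1.1 (e m) (e l) = g'.1 m l := by
      rw [← hge]
      exact blockExt_apply k e _ m l
    rw [← h3, hc]
    simp only [e.injective.eq_iff, ltc_map, dlt_map]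
  · apply cornerG_injective p k e s
    rw [← red_cornerGam, ← he]
    exact congrArg (red p k s) (Subtype.ext hge)

end Vale.Agent.P067.Cob
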