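import Vale.Agent.P067.Cob.Groups
import Vale.Agent.P067.Slices

/-!
The congruence subgroups of `GG` by height: root elements generate, reduction is onto, `GG` is a
finite group of odd order.
-/

namespace Vale.Agent.P067.Cob

open Finset Polynomial Vale.Agent.P067

variable (p k : ℕ) [Fact p.Prime] (s : ℕ)

theorem trunc_AR : Slices.Trunc (ZMod p) (AR p s) (tt p s) s where
  nil := by
    rw [tt, ← map_pow, Ideal.Quotient.eq_zero_iff_mem]
    exact Ideal.mem_span_singleton_self _
  dec a := by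
    obtain ⟨f, rfl⟩ := Ideal.Quotient.mk_surjective a
    refine ⟨f.coeff 0, Ideal.Quotient.mk _ f.divX, ?_⟩
    rw [tt, ← map_mul, IsScalarTower.algebraMap_apply (ZMod p) (ZMod p)[X] (AR p s),
      Ideal.Quotient.algebraMap_eq, Polynomial.algebraMap_eq, ← map_add, add_comm,
      Polynomial.X_mul_divX_add]
  free c q hq h := by
    obtain ⟨b, hb⟩ := h
    obtain ⟨f, rfl⟩ := Ideal.Quotient.mk_surjective b
    rw [tt, ← map_pow, ← map_pow, IsScalarTower.algebraMap_apply (ZMod p) (ZMod p)[X] (AR p s),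
      Ideal.Quotient.algebraMap_eq, Polynomial.algebraMap_eq, ← map_mul, ← map_mul,
      Ideal.Quotient.eq, Ideal.mem_span_singleton] at hb
    have h1 := (Polynomial.X_pow_dvd_iff.1 hb) q hq
    rw [Polynomial.coeff_sub, Polynomial.coeff_C_mul_X_pow, Polynomial.coeff_X_pow_mul'] at h1
    simpa using h1

theorem mem_GG_iff [NeZero k] {g : Matrix.SpecialLinearGroup (Fin k) (AR p s)} :
    g ∈ GG p k s ↔ g ∈ Slices.N (k := k) (trunc_AR p s) 1 := by
  rw [Slices.mem_N le_rfl]
  constructor
  · intro h m l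
    rcases lt_or_ge m l with hml | hml
    · rw [show Slices.ord 1 m l = 0 from Nat.le_zero.1 (Slices.ord_le_iff.2 (by
        have : m.1 < l.1 := hml
        omega)), pow_zero]
      exact one_dvd _
    · refine (pow_dvd_pow _ (Slices.ord_le_iff.2 (show 1 + m.1 ≤ 1 * k + l.1 by omega))).trans ?_
      rw [pow_one, Matrix.sub_apply]
      by_cases he : m = l
      · subst he
        rw [Matrix.one_apply_eq]
        exact Ideal.mem_span_singleton.1 (h.2 m)
      · rw [Matrix.one_apply_ne he, sub_zero]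
        exact Ideal.mem_span_singleton.1 (h.1 m l he (not_lt.2 hml))
  · intro h
    have hdvd : ∀ m l : Fin k, ¬ m < l → tt p s ∣
        ((g : Matrix (Fin k) (Fin k) (AR p s)) - 1) m l := fun m l hml => by
      refine (dvd_pow_self _ ?_).trans (h m l)
      intro h0
      have h1 := Slices.ord_le_iff.1 (le_of_eq h0)
      have : l.1 ≤ m.1 := not_lt.1 hml
      omega
    refine ⟨fun m l he hml => ?_, fun m => ?_⟩
    · have h2 := hdvd m l hml
      rw [Matrix.sub_apply, Matrix.one_apply_ne he, sub_zero] at h2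
      exact Ideal.mem_span_singleton.2 h2
    · have h2 := hdvd m m (lt_irrefl m)
      rw [Matrix.sub_apply, Matrix.one_apply_eq] at h2
      exact Ideal.mem_span_singleton.2 h2

/-- The congruence subgroup of height `h` in `GG`. -/
noncomputable def NG [NeZero k] (h : ℕ) : Subgroup (GG p k s) :=
  (Slices.N (k := k) (trunc_AR p s) h).subgroupOf (GG p k s)

theorem NG_one [NeZero k] : NG p k s 1 = ⊤ :=
  (Subgroup.eq_top_iff' _).2 fun g =>
    Subgroup.mem_subgroupOf.2 ((mem_GG_iff p k s).1 g.2)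

theorem NG_bot [NeZero k] {h : ℕ} (hh : s * k ≤ h) : NG p k s h = ⊥ := by
  rw [NG, Slices.N_top hh]
  exact Subgroup.bot_subgroupOf _

theorem NG_anti [NeZero k] {h h' : ℕ} (hh : h ≤ h') : NG p k s h' ≤ NG p k s h :=
  fun _ hg => Subgroup.mem_subgroupOf.2 (Slices.N_anti (hT := trunc_AR p s) hh (Subgroup.mem_subgroupOf.1 hg))

open scoped commutatorElement in
theorem NG_commutator [NeZero k] {a b : ℕ} (ha : 1 ≤ a) (hb : 1 ≤ b) {g g' : GG p k s}
    (hg : g ∈ NG p k s a) (hg' : g' ∈ NG p k s b) : ⁅g, g'⁆ ∈ NG p k s (a + b) := by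
  rw [NG, Subgroup.mem_subgroupOf] at *
  exact (Slices.commutator_mem ha hb hg hg').1

instance NG_normal [NeZero k] (h : ℕ) : (NG p k s h).Normal := by
  refine ⟨fun n hn g => ?_⟩
  rcases Nat.eq_zero_or_pos h with rfl | hh
  · exact ((mem_GG_iff p k s).1 (g * n * g⁻¹).2)
  have hg : g ∈ NG p k s 1 := by rw [NG_one]; trivial
  have hc := NG_anti p k s (show h ≤ 1 + h by omega) (NG_commutator p k s le_rfl hh hg hn)
  have e : g * n * g⁻¹ = (g * n * g⁻¹ * n⁻¹) * n := by group
  rw [e]
  refine mul_mem ?_ hn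
  rwa [commutatorElement_def] at hc

/-- A root element of `GG`. -/
noncomputable def rootG [NeZero k] (m l : Fin k) (hml : m ≠ l) (j : ℕ) (c : ZMod p)
    (hj : m.1 + 1 ≤ j * k + l.1) : GG p k s :=
  ⟨Slices.root m l hml (algebraMap (ZMod p) (AR p s) c * tt p s ^ j),
    (mem_GG_iff p k s).2 (Slices.root_mem le_rfl
      ((pow_dvd_pow _ (Slices.ord_le_iff.2 (by omega))).trans (Dvd.intro_left _ rfl)))⟩

/-- All root elements generate. -/
theorem eq_top_of_roots [NeZero k] (hk : 2 ≤ k) (H : Subgroup (GG p k s))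
    (hH : ∀ m l hml j c hj, rootG p k s m l hml j c hj ∈ H) : H = ⊤ := by
  refine (Subgroup.eq_top_iff' _).2 fun g => ?_
  have h := Slices.le_of_roots (hT := trunc_AR p s) (H.map (GG p k s).subtype) hk
    (fun m l hml j c hj => ⟨rootG p k s m l hml j c hj, hH m l hml j c hj, rfl⟩)
    ((mem_GG_iff p k s).1 g.2)
  obtain ⟨x, hx, hxe⟩ := h
  rwa [← show x = g from Subtype.ext hxe]

/-- The roots through the indices in `D` generate the congruence subgroup of height `k-|D|+1`. -/
theorem NG_le_of_roots_through [NeZero k] (hk : 2 ≤ k) (H : Subgroup (GG p k s))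
    (D : Finset (Fin k)) (hD : D.Nonempty)
    (hH : ∀ m l hml j c hj, m ∈ D ∨ l ∈ D → rootG p k s m l hml j c hj ∈ H) :
    NG p k s (k - D.card + 1) ≤ H := by
  intro g hg
  have h := Slices.le_of_roots_through (hT := trunc_AR p s) (H.map (GG p k s).subtype) D hD hk
    (fun m l hml hd j c hj => ⟨rootG p k s m l hml j c hj, hH m l hml j c hj hd, rfl⟩)
    (Subgroup.mem_subgroupOf.1 hg)
  obtain ⟨x, hx, hxe⟩ := h
  rwa [← show x = g from Subtype.ext hxe]

theorem red_surjective_of_two_le [NeZero k] (hk : 2 ≤ k) : Function.Surjective (red p k s) := by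
  rw [← MonoidHom.range_eq_top]
  refine eq_top_of_roots p k s hk _ fun m l hml j c hj => ?_
  have hpow : ∀ (m' l' : Fin k), ¬ m' < l' → m' = m → l' = l →
      (C c * X ^ j : (ZMod p)[X]) ∈ Ideal.span {(X : (ZMod p)[X])} := by
    intro m' l' hlt e1 e2
    subst e1 e2
    have hle : l'.1 ≤ m'.1 := not_lt.1 hlt
    have hj1 : j ≠ 0 := by rintro rfl; omega
    exact Ideal.mem_span_singleton.2 ((dvd_pow_self _ hj1).trans (Dvd.intro_left _ rfl))
  refine ⟨⟨⟨Matrix.transvection m l (C c * X ^ j),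
    Matrix.det_transvection_of_ne m l hml _⟩, ⟨fun m' l' hne hlt => ?_, fun m' => ?_⟩⟩, ?_⟩
  · show (Matrix.transvection m l (C c * X ^ j)) m' l' ∈ _
    simp only [Matrix.transvection, Matrix.add_apply, Matrix.one_apply_ne hne, zero_add]
    by_cases he : m = m' ∧ l = l'
    · obtain ⟨e1, e2⟩ := he
      subst e1 e2
      rw [Matrix.single_apply_same]
      exact hpow m l hlt rfl rfl
    · rw [Matrix.single_apply_of_ne _ _ _ _ _ he]; exact zero_mem _
  · show (Matrix.transvection m l (C c * X ^ j)) m' m' - 1 ∈ _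
    simp only [Matrix.transvection, Matrix.add_apply, Matrix.one_apply_eq, add_sub_cancel_left]
    rw [Matrix.single_apply_of_ne _ _ _ _ _ (fun he => hml (he.1.trans he.2.symm))]
    exact zero_mem _
  · apply Subtype.ext
    apply Subtype.ext
    show (Matrix.transvection m l (C c * X ^ j)).map (Ideal.Quotient.mk _) = Matrix.transvection m l _
    ext a b
    simp only [Matrix.map_apply, Matrix.transvection, Matrix.add_apply, map_add]
    congr 1
    · by_cases hab : a = b
      · subst hab; rw [Matrix.one_apply_eq, Matrix.one_apply_eq, map_one]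
      · rw [Matrix.one_apply_ne hab, Matrix.one_apply_ne hab, map_zero]
    · by_cases he : m = a ∧ l = b
      · obtain ⟨rfl, rfl⟩ := he
        rw [Matrix.single_apply_same, Matrix.single_apply_same, map_mul, map_pow, tt,
          IsScalarTower.algebraMap_apply (ZMod p) (ZMod p)[X] (AR p s),
          Ideal.Quotient.algebraMap_eq, Polynomial.algebraMap_eq]
      · rw [Matrix.single_apply_of_ne _ _ _ _ _ he, Matrix.single_apply_of_ne _ _ _ _ _ he,
          map_zero]

theorem finite_AR : Finite (AR p s) := by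
  refine Finite.of_surjective (fun c : Fin s → ZMod p =>
    Ideal.Quotient.mk (Ideal.span {(X : (ZMod p)[X]) ^ s}) (∑ i, C (c i) * X ^ (i : ℕ))) ?_
  intro a
  obtain ⟨f, rfl⟩ := Ideal.Quotient.mk_surjective a
  refine ⟨fun i => f.coeff i, ?_⟩
  rw [Ideal.Quotient.eq, Ideal.mem_span_singleton, Polynomial.X_pow_dvd_iff]
  intro d hd
  rw [Polynomial.coeff_sub, Polynomial.finset_sum_coeff]
  simp only [Polynomial.coeff_C_mul_X_pow]
  rw [Finset.sum_eq_single (⟨d, hd⟩ : Fin s)]
  · simp
  · intro b _ hb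
    rw [if_neg]
    exact fun h => hb (Fin.ext h.symm)
  · simp

theorem charP_AR (hs : 1 ≤ s) : CharP (AR p s) p := by
  refine (charP_iff _ p).2 fun n => ?_
  rw [show ((n : ℕ) : AR p s) = Ideal.Quotient.mk _ ((n : ℕ) : (ZMod p)[X]) from
    (map_natCast _ n).symm, Ideal.Quotient.eq_zero_iff_mem, Ideal.mem_span_singleton,
    ← CharP.cast_eq_zero_iff (ZMod p) p n]
  constructor
  · intro h
    have h0 := (Polynomial.X_pow_dvd_iff.1 h) 0 (by omega)
    simpa using h0
  · intro h
    rw [← Polynomial.C_eq_natCast, h, map_zero]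
    exact dvd_zero _

theorem finite_GG [NeZero k] : Finite (GG p k s) := by
  have := finite_AR p s
  exact Subtype.finite

theorem isPGroup_GG [NeZero k] (hs : 1 ≤ s) : IsPGroup p (GG p k s) := by
  have := charP_AR p s hs
  have h := Slices.isPGroup_N (hT := trunc_AR p s) (k := k) p (NeZero.one_le)
  intro g
  obtain ⟨n, hn⟩ := h ⟨g.1, (mem_GG_iff p k s).1 g.2⟩
  exact ⟨n, Subtype.ext (congrArg Subtype.val hn :)⟩

theorem odd_card_GG [NeZero k] (hs : 1 ≤ s) (hp : p ≠ 2) : Odd (Nat.card (GG p k s)) := by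
  have := finite_GG p k s
  obtain ⟨n, hn⟩ := (IsPGroup.iff_card).1 (isPGroup_GG p k s hs)
  rw [hn]
  exact ((Nat.Prime.odd_of_ne_two Fact.out hp)).pow

/-- The group grows with `s`. -/
theorem le_card_GG [NeZero k] (hk : 2 ≤ k) : s ≤ Nat.card (GG p k s) := by
  have := finite_GG p k s
  have h01 : (⟨0, by omega⟩ : Fin k) ≠ ⟨1, by omega⟩ := by simp [Fin.ext_iff]
  refine le_trans (le_of_eq (Nat.card_fin s).symm) (Nat.card_le_card_of_injective
    (fun i : Fin s => rootG p k s ⟨0, by omega⟩ ⟨1, by omega⟩ h01 i.1 1 (by simp)) ?_)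
  intro i i' he
  by_contra hne
  wlog hlt : i.1 < i'.1 generalizing i i'
  · exact this he.symm (Ne.symm hne) (by
      have : i.1 ≠ i'.1 := fun e => hne (Fin.ext e)
      omega)
  have h := congrArg (fun g : GG p k s =>
    (g.1 : Matrix (Fin k) (Fin k) (AR p s)) ⟨0, by omega⟩ ⟨1, by omega⟩) he
  simp only [rootG, Slices.root, Matrix.transvection, Matrix.add_apply, Matrix.one_apply_ne h01,
    Matrix.single_apply_same, zero_add, map_one, one_mul] at h
  refine one_ne_zero ((trunc_AR p s).free 1 i.1 i.2 ?_)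
  rw [map_one, one_mul, h]
  exact pow_dvd_pow _ hlt

theorem eq_one_of_mem_KGam [NeZero k] (hs : 2 ≤ s) {i : Fin k} {g : Gam p k}
    (hg : g ∈ KGam p k i) (h : red p k s g = 1) : g = 1 := by
  apply Subtype.ext
  apply Subtype.ext
  ext1 m l
  obtain ⟨c, hc⟩ := hg m l
  have h1 : Ideal.Quotient.mk (Ideal.span {(X : (ZMod p)[X]) ^ s})
      ((g.1 : Matrix (Fin k) (Fin k) (ZMod p)[X]) m l)
        = (1 : Matrix (Fin k) (Fin k) (AR p s)) m l := by
    have := congrArg (fun x : GG p k s => (x.1 : Matrix (Fin k) (Fin k) (AR p s)) m l) h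
    exact this
  show (g.1 : Matrix (Fin k) (Fin k) (ZMod p)[X]) m l = (1 : Matrix (Fin k) (Fin k) (ZMod p)[X]) m l
  rw [hc] at h1 ⊢
  by_cases hml : m = l
  · subst hml; simp
  rw [if_neg hml, Matrix.one_apply_ne hml] at h1 ⊢
  split_ifs at h1 ⊢ with hlt
  · rw [Ideal.Quotient.eq_zero_iff_mem, Ideal.mem_span_singleton, Polynomial.X_pow_dvd_iff] at h1
    have hd : dlt m l < s := lt_of_le_of_lt (show dlt m l ≤ 1 by unfold dlt; split_ifs <;> omega) hs
    have := h1 (dlt m l) hd
    rw [Polynomial.coeff_C_mul_X_pow, if_pos rfl] at this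
    rw [this, map_zero, zero_mul]
  · rfl

end Vale.Agent.P067.Cob
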