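import Vale.Agent.P067.Cob.Part
import Vale.Agent.P067.Cob.Slice

/-!
Basics of coset complexes, the intersections of the vertex groups, degree bound and the quotient
map from the infinite complex to the finite one.
-/

namespace Vale.Agent.P067.Cob

open Finset Polynomial

open scoped Classical

section Generic

variable {G : Type*} [Group G] {ι : Type*} (K : ι → Subgroup G)

theorem mem_cell {g : G} {T : Finset ι} {v : (i : ι) × (G ⧸ K i)} :
    v ∈ cell K g T ↔ v.1 ∈ T ∧ v.2 = ((g : G) : G ⧸ K v.1) := by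
  simp only [cell, Finset.mem_image]
  constructor
  · rintro ⟨i, hi, rfl⟩; exact ⟨hi, rfl⟩
  · rintro ⟨h1, h2⟩
    refine ⟨v.1, h1, ?_⟩
    obtain ⟨i, x⟩ := v
    simp only at h2
    subst h2
    rfl

theorem cell_card (g : G) (T : Finset ι) : (cell K g T).card = T.card :=
  Finset.card_image_of_injective _ fun _ _ h => congrArg Sigma.fst h

theorem cell_mono (g : G) {T T' : Finset ι} (h : T ⊆ T') : cell K g T ⊆ cell K g T' :=
  Finset.image_subset_image h

theorem face_cell {R T : Finset ι} (g : G) (h : T ⊆ R) : (coset K R).face (cell K g T) :=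
  ⟨g, fun _ hv => ⟨h ((mem_cell K).1 hv).1, ((mem_cell K).1 hv).2⟩⟩

theorem face_iff_subset_cell {R : Finset ι} {σ : Finset ((i : ι) × (G ⧸ K i))} :
    (coset K R).face σ ↔ ∃ g : G, σ ⊆ cell K g R := by
  constructor
  · rintro ⟨g, hg⟩
    exact ⟨g, fun v hv => (mem_cell K).2 (hg v hv)⟩
  · rintro ⟨g, hg⟩
    exact ⟨g, fun v hv => (mem_cell K).1 (hg hv)⟩

/-- Every face is a cell. -/
theorem face_eq_cell {R : Finset ι} {σ : Finset ((i : ι) × (G ⧸ K i))}
    (h : (coset K R).face σ) :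
    ∃ g : G, σ.image Sigma.fst ⊆ R ∧ σ = cell K g (σ.image Sigma.fst) := by
  obtain ⟨g, hg⟩ := h
  refine ⟨g, ?_, ?_⟩
  · intro i hi
    obtain ⟨v, hv, rfl⟩ := Finset.mem_image.1 hi
    exact (hg v hv).1
  · ext v
    rw [mem_cell]
    refine ⟨fun hv => ⟨Finset.mem_image_of_mem _ hv, (hg v hv).2⟩, ?_⟩
    rintro ⟨h1, h2⟩
    obtain ⟨w, hw, hwv⟩ := Finset.mem_image.1 h1
    have h3 := (hg w hw).2
    obtain ⟨i, x⟩ := v
    obtain ⟨j, y⟩ := w
    simp only at hwv h2 h3
    subst hwv
    subst h2 h3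
    exact hw

/-- A face has at most one vertex of each type. -/
theorem injOn_fst_of_face {R : Finset ι} {σ : Finset ((i : ι) × (G ⧸ K i))}
    (h : (coset K R).face σ) : Set.InjOn Sigma.fst (σ : Set ((i : ι) × (G ⧸ K i))) := by
  obtain ⟨g, hg⟩ := h
  rintro ⟨i, x⟩ hx ⟨j, y⟩ hy hij
  simp only at hij
  subst hij
  have hx' := (hg _ (Finset.mem_coe.1 hx)).2
  have hy' := (hg _ (Finset.mem_coe.1 hy)).2
  simp only at hx' hy'
  rw [hx', hy']

theorem card_le_of_face {R : Finset ι} {σ : Finset ((i : ι) × (G ⧸ K i))}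
    (h : (coset K R).face σ) : σ.card ≤ R.card := by
  obtain ⟨g, hg⟩ := (face_iff_subset_cell K).1 h
  exact (Finset.card_le_card hg).trans (cell_card K g R).le

/-- Purity: every face extends to one with any larger number of vertices up to the rank. -/
theorem face_extend {R : Finset ι} {σ : Finset ((i : ι) × (G ⧸ K i))} (h : (coset K R).face σ)
    {n : ℕ} (h1 : σ.card ≤ n) (h2 : n ≤ R.card) :
    ∃ τ, σ ⊆ τ ∧ (coset K R).face τ ∧ τ.card = n := by
  obtain ⟨g, hg⟩ := (face_iff_subset_cell K).1 h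
  obtain ⟨τ, hτ1, hτ2, hτ3⟩ :=
    Finset.exists_subsuperset_card_eq hg h1 (by rw [cell_card]; exact h2)
  exact ⟨τ, hτ1, (coset K R).down (face_cell K g (Finset.Subset.refl R)) hτ2, hτ3⟩

/-- Two cells agree exactly on the common stabiliser. -/
theorem cell_eq_iff {g h : G} {T : Finset ι} :
    cell K g T = cell K h T ↔ g⁻¹ * h ∈ ⨅ i ∈ T, K i := by
  simp only [Subgroup.mem_iInf]
  constructor
  · intro he i hi
    have : (⟨i, ((g : G) : G ⧸ K i)⟩ : (i : ι) × (G ⧸ K i)) ∈ cell K h T :=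
      he ▸ (mem_cell K).2 ⟨hi, rfl⟩
    exact QuotientGroup.eq.1 ((mem_cell K).1 this).2
  · intro hm
    ext v
    rw [mem_cell, mem_cell]
    constructor
    · rintro ⟨h1, h2⟩; exact ⟨h1, h2.trans (QuotientGroup.eq.2 (hm _ h1))⟩
    · rintro ⟨h1, h2⟩; exact ⟨h1, h2.trans (QuotientGroup.eq.2 (hm _ h1)).symm⟩

theorem cell_injective {T : Finset ι} (h : ⨅ i ∈ T, K i = ⊥) :
    Function.Injective fun g => cell K g T := by
  intro g g' he
  have := (cell_eq_iff K).1 he
  rw [h, Subgroup.mem_bot] at this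
  exact inv_mul_eq_one.1 this

theorem trans_cell (a g : G) (T : Finset ι) :
    (cell K g T).image (trans K a) = cell K (a * g) T := by
  rw [cell, cell, Finset.image_image]
  rfl

theorem face_trans {R : Finset ι} (a : G) {σ : Finset ((i : ι) × (G ⧸ K i))}
    (h : (coset K R).face σ) : (coset K R).face (σ.image (trans K a)) := by
  obtain ⟨g, hg⟩ := (face_iff_subset_cell K).1 h
  exact (face_iff_subset_cell K).2 ⟨a * g, trans_cell K a g R ▸ Finset.image_subset_image hg⟩

/-- The faces at a vertex lie in boundedly many chambers. -/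
theorem face_subset_chamber_at {R : Finset ι} {i : ι} {g : G}
    {σ : Finset ((i : ι) × (G ⧸ K i))} (h : (coset K R).face σ)
    (hv : (⟨i, ((g : G) : G ⧸ K i)⟩ : (i : ι) × (G ⧸ K i)) ∈ σ) :
    ∃ x : K i, σ ⊆ cell K (g * x) R := by
  obtain ⟨a, ha⟩ := (face_iff_subset_cell K).1 h
  have h1 : g⁻¹ * a ∈ K i := QuotientGroup.eq.1 ((mem_cell K).1 (ha hv)).2
  exact ⟨⟨g⁻¹ * a, h1⟩, by simpa using ha⟩

/-- Degree bound: the faces containing a vertex. -/
theorem card_faces_at_le {R : Finset ι} (v : (i : ι) × (G ⧸ K i)) [Finite (K v.1)]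
    (S : Finset (Finset ((i : ι) × (G ⧸ K i))))
    (hS : ∀ σ ∈ S, (coset K R).face σ ∧ v ∈ σ) :
    S.card ≤ Nat.card (K v.1) * 2 ^ R.card := by
  obtain ⟨i, q⟩ := v
  obtain ⟨g, rfl⟩ := QuotientGroup.mk_surjective q
  have : Fintype (K i) := Fintype.ofFinite _
  have hsub : S ⊆ (Finset.univ : Finset (K i)).biUnion fun x => (cell K (g * x) R).powerset := by
    intro σ hσ
    obtain ⟨x, hx⟩ := face_subset_chamber_at K (hS σ hσ).1 (hS σ hσ).2
    exact Finset.mem_biUnion.2 ⟨x, Finset.mem_univ _, Finset.mem_powerset.2 hx⟩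
  refine (Finset.card_le_card hsub).trans ((Finset.card_biUnion_le).trans ?_)
  simp [cell_card, Finset.card_powerset]

/-- There are many vertices. -/
theorem card_le_mul_card_vertices [Finite G] (i : ι) :
    Nat.card G = Nat.card (G ⧸ K i) * Nat.card (K i) :=
  Subgroup.card_eq_card_quotient_mul_card_subgroup (K i)

theorem coset_face_iff (R : Finset ι) (σ : Finset ((i : ι) × (G ⧸ K i))) :
    (coset K R).face σ ↔ ∃ g : G, ∃ T : Finset ι, T ⊆ R ∧ σ = cell K g T := by
  constructor
  · intro h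
    obtain ⟨g, hR, he⟩ := face_eq_cell K h
    exact ⟨g, _, hR, he⟩
  · rintro ⟨g, T, hT, rfl⟩
    exact face_cell K g hT

theorem coset_restrict (R P : Finset ι) :
    (coset K R).restrict (fun v => v.1 ∈ P) = coset K (R ∩ P) := by
  have h : ∀ σ, ((coset K R).restrict (fun v => v.1 ∈ P)).face σ ↔ (coset K (R ∩ P)).face σ := by
    intro σ
    constructor
    · rintro ⟨⟨g, hg⟩, hP⟩
      exact ⟨g, fun v hv => ⟨Finset.mem_inter.2 ⟨(hg v hv).1, hP v hv⟩, (hg v hv).2⟩⟩
    · rintro ⟨g, hg⟩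
      exact ⟨⟨g, fun v hv => ⟨(Finset.mem_inter.1 (hg v hv).1).1, (hg v hv).2⟩⟩,
        fun v hv => (Finset.mem_inter.1 (hg v hv).1).2⟩
  have h' : ((coset K R).restrict (fun v => v.1 ∈ P)).face = (coset K (R ∩ P)).face :=
    funext fun σ => propext (h σ)
  revert h'
  generalize (coset K R).restrict (fun v => v.1 ∈ P) = A
  generalize coset K (R ∩ P) = B
  cases A; cases B
  intro h'
  simp only at h'
  subst h'
  rfl

theorem trans_injective (g : G) : Function.Injective (trans K g) := by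
  rintro ⟨i, x⟩ ⟨j, y⟩ h
  simp only [trans, Sigma.mk.injEq] at h
  obtain ⟨rfl, h⟩ := h
  rw [heq_eq_eq, smul_left_cancel_iff] at h
  rw [h]

theorem act_single (g : G) (σ : Finset ((i : ι) × (G ⧸ K i))) (c : ZMod 2) :
    act K g (Finsupp.single σ c) = Finsupp.single (σ.image (trans K g)) c := by
  simp [act, vpush]
  congr 1
  ext v
  simp

theorem bd_act (g : G) (z : Chain ((i : ι) × (G ⧸ K i))) :
    bd (act K g z) = act K g (bd z) := by
  induction z using Finsupp.induction_linear with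
  | zero => simp
  | add a b ha hb => simp only [map_add, ha, hb]
  | single σ c =>
    rw [act_single, bd, Finsupp.linearCombination_single, Finsupp.linearCombination_single,
      map_smul, map_sum, Finset.sum_image (fun a _ b _ h => trans_injective K g h)]
    congr 1
    refine Finset.sum_congr rfl fun v _ => ?_
    rw [act_single]
    congr 1
    ext w
    simp only [Finset.mem_erase, Finset.mem_image]
    constructor
    · rintro ⟨hne, u, hu, rfl⟩
      exact ⟨u, ⟨fun e => hne (e ▸ rfl), hu⟩, rfl⟩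
    · rintro ⟨u, ⟨hne, hu⟩, rfl⟩
      exact ⟨fun e => hne (trans_injective K g e), u, hu, rfl⟩

theorem act_mul (g h : G) (z : Chain ((i : ι) × (G ⧸ K i))) :
    act K (g * h) z = act K g (act K h z) := by
  induction z using Finsupp.induction_linear with
  | zero => simp
  | add a b ha hb => simp only [map_add, ha, hb]
  | single σ c =>
    rw [act_single, act_single, act_single, Finset.image_image]
    congr 1
    refine Finset.image_congr fun v _ => ?_
    simp only [Function.comp, trans, mul_smul]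
    rfl

theorem act_one (z : Chain ((i : ι) × (G ⧸ K i))) : act K 1 z = z := by
  induction z using Finsupp.induction_linear with
  | zero => simp
  | add a b ha hb => simp only [map_add, ha, hb]
  | single σ c =>
    rw [act_single]
    congr 1
    refine (Finset.image_congr fun v _ => ?_).trans Finset.image_id
    simp [trans]

theorem act_mem_chains (R : Finset ι) (g : G) (j : ℕ) (z : Chain ((i : ι) × (G ⧸ K i)))
    (hz : z ∈ (coset K R).chains j) : act K g z ∈ (coset K R).chains j := by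
  rw [Cplx.chains, Finsupp.mem_supported] at *
  intro τ hτ
  have h1 : τ ∈ z.support.image fun σ => σ.image (trans K g) := by
    have := Finsupp.mapDomain_support (f := fun σ => σ.image (trans K g)) (s := z)
    apply this
    have h0 := Finset.mem_coe.1 hτ
    simp only [act, vpush, Finsupp.lmapDomain_apply] at h0
    convert h0 using 3
    funext σ
    ext v
    simp
  obtain ⟨σ, hσ, rfl⟩ := Finset.mem_image.1 h1
  obtain ⟨h2, h3⟩ := hz (Finset.mem_coe.2 hσ)
  exact ⟨face_trans K g h2, by rw [Finset.card_image_of_injective _ (trans_injective K g)]; exact h3⟩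

theorem act_null (R : Finset ι) (g : G) (j : ℕ) (z : Chain ((i : ι) × (G ⧸ K i)))
    (hz : (coset K R).Null j z) : (coset K R).Null j (act K g z) := by
  obtain ⟨w, hw, hwz⟩ := hz
  exact ⟨act K g w, act_mem_chains K R g _ w hw, by rw [bd_act, hwz]⟩

end Generic

section Iso

variable {G H : Type} [Group G] [Group H] {ι : Type}

/-- The map from the complex of a stabiliser to the link of its face. -/
def linkV (K : ι → Subgroup G) (g : G) (L : Subgroup G)
    (v : (i : ι) × (L ⧸ (K i).subgroupOf L)) : (i : ι) × (G ⧸ K i) :=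
  ⟨v.1, Quotient.map' (fun h : L => g * (h : G)) (fun a b h => by
    rw [QuotientGroup.leftRel_apply] at h ⊢
    simpa [Subgroup.mem_subgroupOf, mul_assoc] using h) v.2⟩

theorem linkV_cell (K : ι → Subgroup G) (g : G) (L : Subgroup G) (h : L) (T : Finset ι) :
    (cell (fun i => (K i).subgroupOf L) h T).image (linkV K g L) = cell K (g * h) T := by
  rw [cell, cell, Finset.image_image]
  rfl

theorem linkV_injective (K : ι → Subgroup G) (g : G) (L : Subgroup G) :
    Function.Injective (linkV K g L) := by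
  rintro ⟨i, x⟩ ⟨j, y⟩ h
  obtain ⟨a, rfl⟩ := QuotientGroup.mk_surjective x
  obtain ⟨b, rfl⟩ := QuotientGroup.mk_surjective y
  have hij : i = j := congrArg Sigma.fst h
  subst hij
  simp only [linkV, Sigma.mk.injEq, heq_eq_eq, true_and] at h
  have h1 : (g * a)⁻¹ * (g * b) ∈ K i := QuotientGroup.eq.1 h
  rw [mul_inv_rev, mul_assoc, inv_mul_cancel_left] at h1
  exact congrArg (Sigma.mk i) (QuotientGroup.eq.2 (by simpa [Subgroup.mem_subgroupOf] using h1))

theorem link_face_iff (K : ι → Subgroup G) (R T P : Finset ι) (g : G) (hT : T ⊆ R) (hP : P ⊆ R)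
    (hd : Disjoint T P) (τ : Finset ((i : ι) × (G ⧸ K i))) :
    (((coset K R).link (cell K g T)).restrict fun v => v.1 ∈ P).face τ ↔
      ∃ σ, (coset (fun i => (K i).subgroupOf (⨅ i ∈ T, K i)) P).face σ ∧
        σ.image (linkV K g (⨅ i ∈ T, K i)) = τ := by
  constructor
  · rintro ⟨h1, h2⟩
    rcases h1 with rfl | ⟨hdis, hface⟩
    · exact ⟨∅, Cplx.empty _, Finset.image_empty _⟩
    obtain ⟨a, ha⟩ := hface
    have hL : g⁻¹ * a ∈ ⨅ i ∈ T, K i := by
      simp only [Subgroup.mem_iInf]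
      intro i hi
      exact QuotientGroup.eq.1
        (ha ⟨i, ((g : G) : G ⧸ K i)⟩ (by simp only [Finset.mem_union]; exact Or.inr ((mem_cell K).2 ⟨hi, rfl⟩))).2
    have hτ : (coset K P).face τ := ⟨a, fun v hv => ⟨h2 v hv, (ha v (by simp only [Finset.mem_union]; exact Or.inl hv)).2⟩⟩
    obtain ⟨b, hb⟩ := hτ
    refine ⟨cell (fun i => (K i).subgroupOf (⨅ i ∈ T, K i)) ⟨g⁻¹ * a, hL⟩ (τ.image Sigma.fst),
      face_cell _ _ (fun i hi => ?_), ?_⟩
    · obtain ⟨v, hv, rfl⟩ := Finset.mem_image.1 hi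
      exact h2 v hv
    · rw [linkV_cell]
      show cell K (g * (g⁻¹ * a)) _ = τ
      rw [mul_inv_cancel_left]
      ext v
      rw [mem_cell]
      constructor
      · rintro ⟨h3, h4⟩
        obtain ⟨w, hw, hwv⟩ := Finset.mem_image.1 h3
        have h5 := (ha w (by simp only [Finset.mem_union]; exact Or.inl hw)).2
        obtain ⟨i, x⟩ := v
        obtain ⟨j, y⟩ := w
        simp only at hwv h4 h5
        subst hwv
        subst h4 h5
        exact hw
      · exact fun hv => ⟨Finset.mem_image_of_mem _ hv, (ha v (by simp only [Finset.mem_union]; exact Or.inl hv)).2⟩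
  · rintro ⟨σ, ⟨h, hh⟩, rfl⟩
    have hP' : ∀ v ∈ σ.image (linkV K g (⨅ i ∈ T, K i)),
        v.1 ∈ P ∧ v.2 = ((g * h : G) : G ⧸ K v.1) := by
      intro v hv
      obtain ⟨w, hw, rfl⟩ := Finset.mem_image.1 hv
      obtain ⟨h1, h2⟩ := hh w hw
      obtain ⟨i, x⟩ := w
      simp only at h1 h2
      subst h2
      exact ⟨h1, rfl⟩
    refine ⟨Or.inr ⟨Finset.disjoint_left.2 fun v hv hv' => ?_, g * h, fun v hv => ?_⟩,
      fun v hv => (hP' v hv).1⟩
    · exact Finset.disjoint_left.1 hd ((mem_cell K).1 hv').1 (hP' v hv).1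
    · simp only [Finset.mem_union] at hv
      rcases hv with hv | hv
      · exact ⟨hP (hP' v hv).1, (hP' v hv).2⟩
      · obtain ⟨h1, h2⟩ := (mem_cell K).1 hv
        refine ⟨hT h1, h2.trans (QuotientGroup.eq.2 ?_)⟩
        have := h.2
        simp only [Subgroup.mem_iInf] at this
        simpa using this _ h1

theorem ex_link_coset (K : ι → Subgroup G) (R T P : Finset ι) (g : G) (hT : T ⊆ R) (hP : P ⊆ R)
    (hd : Disjoint T P) (m : ℕ) :
    (((coset K R).link (cell K g T)).restrict fun v => v.1 ∈ P).Ex m ↔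
      (coset (fun i => (K i).subgroupOf (⨅ i ∈ T, K i)) P).Ex m :=
  (Cplx.ex_of_iso _ _ (linkV K g _) (fun _ _ _ _ h => linkV_injective K g _ h)
    (fun τ => by simpa only [Finset.ext_iff, Finset.mem_image] using
      link_face_iff K R T P g hT hP hd τ) m).symm

theorem fills_link_coset (K : ι → Subgroup G) (R T P : Finset ι) (g : G) (hT : T ⊆ R) (hP : P ⊆ R)
    (hd : Disjoint T P) (m L N : ℕ) :
    (((coset K R).link (cell K g T)).restrict fun v => v.1 ∈ P).Fills m L N ↔
      (coset (fun i => (K i).subgroupOf (⨅ i ∈ T, K i)) P).Fills m L N :=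
  (Cplx.fills_of_iso _ _ (linkV K g _) (fun _ _ _ _ h => linkV_injective K g _ h)
    (fun τ => by simpa only [Finset.ext_iff, Finset.mem_image] using
      link_face_iff K R T P g hT hP hd τ) m L N).symm

/-- The map of coset complexes along a homomorphism. -/
def comapV (f : G →* H) (K : ι → Subgroup H) (v : (i : ι) × (G ⧸ (K i).comap f)) :
    (i : ι) × (H ⧸ K i) :=
  ⟨v.1, Quotient.map' f (fun a b h => by
    rw [QuotientGroup.leftRel_apply] at h ⊢
    simpa using h) v.2⟩

theorem comapV_cell (f : G →* H) (K : ι → Subgroup H) (g : G) (T : Finset ι) :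
    (cell (fun i => (K i).comap f) g T).image (comapV f K) = cell K (f g) T := by
  rw [cell, cell, Finset.image_image]
  rfl

theorem comapV_injective (f : G →* H) (K : ι → Subgroup H) : Function.Injective (comapV f K) := by
  rintro ⟨i, x⟩ ⟨j, y⟩ h
  obtain ⟨a, rfl⟩ := QuotientGroup.mk_surjective x
  obtain ⟨b, rfl⟩ := QuotientGroup.mk_surjective y
  have hij : i = j := congrArg Sigma.fst h
  subst hij
  simp only [comapV, Sigma.mk.injEq, heq_eq_eq, true_and] at h
  have h1 : (f a)⁻¹ * f b ∈ K i := QuotientGroup.eq.1 h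
  exact congrArg (Sigma.mk i) (QuotientGroup.eq.2 (by simpa [Subgroup.mem_comap] using h1))

theorem comap_face_iff (f : G →* H) (hf : Function.Surjective f) (K : ι → Subgroup H)
    (R : Finset ι) (τ : Finset ((i : ι) × (H ⧸ K i))) :
    (coset K R).face τ ↔
      ∃ σ, (coset (fun i => (K i).comap f) R).face σ ∧ σ.image (comapV f K) = τ := by
  constructor
  · intro h
    obtain ⟨a, T, hT, rfl⟩ := (coset_face_iff K R τ).1 h
    obtain ⟨g, rfl⟩ := hf a
    exact ⟨_, face_cell _ g hT, comapV_cell f K g T⟩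
  · rintro ⟨σ, h, rfl⟩
    obtain ⟨g, hg⟩ := (face_iff_subset_cell _).1 h
    exact (face_iff_subset_cell K).2 ⟨f g, comapV_cell f K g R ▸ Finset.image_subset_image hg⟩

theorem ex_coset_comap (f : G →* H) (hf : Function.Surjective f) (K : ι → Subgroup H)
    (R : Finset ι) (m : ℕ) : (coset (fun i => (K i).comap f) R).Ex m ↔ (coset K R).Ex m :=
  Cplx.ex_of_iso _ _ (comapV f K) (fun _ _ _ _ h => comapV_injective f K h)
    (fun τ => by simpa only [Finset.ext_iff, Finset.mem_image] using comap_face_iff f hf K R τ) m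

theorem fills_coset_comap (f : G →* H) (hf : Function.Surjective f) (K : ι → Subgroup H)
    (R : Finset ι) (m L N : ℕ) :
    (coset (fun i => (K i).comap f) R).Fills m L N ↔ (coset K R).Fills m L N :=
  Cplx.fills_of_iso _ _ (comapV f K) (fun _ _ _ _ h => comapV_injective f K h)
    (fun τ => by simpa only [Finset.ext_iff, Finset.mem_image] using comap_face_iff f hf K R τ) m L N

end Iso

variable (p k : ℕ) [NeZero k] [Fact p.Prime]

theorem mem_KGam_iff {i : Fin k} {g : Gam p k} :
    g ∈ KGam p k i ↔ ∀ m l, ∃ c : ZMod p, (g.1 : Matrix (Fin k) (Fin k) (ZMod p)[X]) m l =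
      if m = l then 1 else if ltc i m l then C c * X ^ dlt m l else 0 :=
  Iff.rfl

theorem natCard_KGam_le (i : Fin k) : Nat.card (KGam p k i) ≤ p ^ (k * k) := by
  have hch : ∀ g : KGam p k i, ∀ m l, ∃ c : ZMod p,
      (g.1.1 : Matrix (Fin k) (Fin k) (ZMod p)[X]) m l =
        if m = l then 1 else if ltc i m l then C c * X ^ dlt m l else 0 := fun g => g.2
  choose c hc using hch
  have hinj : Function.Injective c := fun g h hgh => by
    apply Subtype.ext; apply Subtype.ext; apply Subtype.ext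
    funext m l
    rw [hc g m l, hc h m l, hgh]
  refine (Nat.card_le_card_of_injective c hinj).trans (le_of_eq ?_)
  simp [Nat.card_eq_fintype_card, ← pow_mul, ZMod.card]

instance finite_KGam (i : Fin k) : Finite (KGam p k i) := finite_KMon p k i

instance finite_KG (s : ℕ) (i : Fin k) : Finite (KG p k s i) := by
  refine Finite.of_surjective (fun x : KGam p k i =>
    (⟨red p k s x.1, Subgroup.mem_map_of_mem _ x.2⟩ : KG p k s i)) ?_
  rintro ⟨_, x, hx, rfl⟩
  exact ⟨⟨x, hx⟩, rfl⟩

theorem card_KG_le (s : ℕ) (i : Fin k) : Nat.card (KG p k s i) ≤ p ^ (k * k) := by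
  refine le_trans (Nat.card_le_card_of_surjective (fun x : KGam p k i =>
    (⟨red p k s x.1, Subgroup.mem_map_of_mem _ x.2⟩ : KG p k s i)) ?_) (natCard_KGam_le p k i)
  rintro ⟨_, x, hx, rfl⟩
  exact ⟨⟨x, hx⟩, rfl⟩

theorem eq_of_red_eq {s : ℕ} (hs : 2 ≤ s) {i j : Fin k} {g h : Gam p k} (hg : g ∈ KGam p k i)
    (hh : h ∈ KGam p k j) (he : red p k s g = red p k s h) : g = h := by
  apply Subtype.ext
  apply Subtype.ext
  ext1 m l
  obtain ⟨c, hc⟩ := hg m l
  obtain ⟨c', hc'⟩ := hh m l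
  have h1 : Ideal.Quotient.mk (Ideal.span {(X : (ZMod p)[X]) ^ s})
      ((g.1 : Matrix (Fin k) (Fin k) (ZMod p)[X]) m l)
        = Ideal.Quotient.mk (Ideal.span {(X : (ZMod p)[X]) ^ s})
          ((h.1 : Matrix (Fin k) (Fin k) (ZMod p)[X]) m l) :=
    congrArg (fun x : GG p k s => (x.1 : Matrix (Fin k) (Fin k) (AR p s)) m l) he
  show (g.1 : Matrix (Fin k) (Fin k) (ZMod p)[X]) m l = (h.1 : Matrix (Fin k) (Fin k) (ZMod p)[X]) m l
  rw [Ideal.Quotient.eq, Ideal.mem_span_singleton, Polynomial.X_pow_dvd_iff] at h1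
  rw [hc, hc'] at h1 ⊢
  by_cases hml : m = l
  · simp only [if_pos hml]
  simp only [if_neg hml] at h1 ⊢
  have hd : dlt m l < s := lt_of_le_of_lt (show dlt m l ≤ 1 by unfold dlt; split_ifs <;> omega) hs
  have := h1 (dlt m l) hd
  split_ifs at this ⊢ with a b b <;>
    simp [Polynomial.coeff_sub, Polynomial.coeff_C_mul_X_pow, sub_eq_zero] at this ⊢ <;>
    simp [this]

/-- The common vertex group of the types in `T`, upstairs. -/
theorem iInf_KGam_mem {T : Finset (Fin k)} (hT : T.Nonempty) (g : Gam p k) :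
    g ∈ ⨅ i ∈ T, KGam p k i ↔ ∀ m l, ∃ c : ZMod p,
      (g.1 : Matrix (Fin k) (Fin k) (ZMod p)[X]) m l =
        if m = l then 1 else if ∀ i ∈ T, ltc i m l then C c * X ^ dlt m l else 0 := by
  simp only [Subgroup.mem_iInf]
  constructor
  · intro h m l
    obtain ⟨i₀, hi₀⟩ := hT
    by_cases hml : m = l
    · obtain ⟨c, hc⟩ := h i₀ hi₀ m l
      exact ⟨c, by rw [hc, if_pos hml, if_pos hml]⟩
    by_cases hall : ∀ i ∈ T, ltc i m l
    · obtain ⟨c, hc⟩ := h i₀ hi₀ m l
      exact ⟨c, by rw [hc, if_neg hml, if_neg hml, if_pos hall, if_pos (hall i₀ hi₀)]⟩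
    · push Not at hall
      obtain ⟨i, hi, hni⟩ := hall
      obtain ⟨c, hc⟩ := h i hi m l
      exact ⟨0, by rw [hc, if_neg hml, if_neg hml, if_neg hni, if_neg fun h' => hni (h' i hi)]⟩
  · intro h i hi m l
    obtain ⟨c, hc⟩ := h m l
    rw [hc]
    by_cases hml : m = l
    · exact ⟨0, by rw [if_pos hml, if_pos hml]⟩
    by_cases hall : ∀ i ∈ T, ltc i m l
    · exact ⟨c, by rw [if_neg hml, if_neg hml, if_pos hall, if_pos (hall i hi)]⟩
    · refine ⟨0, ?_⟩
      rw [if_neg hml, if_neg hml, if_neg hall]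
      split_ifs <;> simp

theorem iInf_KGam_univ : ⨅ i ∈ (Finset.univ : Finset (Fin k)), KGam p k i = ⊥ := by
  refine (Subgroup.eq_bot_iff_forall _).2 fun g hg => ?_
  apply Subtype.ext
  apply Subtype.ext
  ext1 m l
  obtain ⟨c, hc⟩ := (iInf_KGam_mem p k Finset.univ_nonempty g).1 hg m l
  show (g.1 : Matrix (Fin k) (Fin k) (ZMod p)[X]) m l = (1 : Matrix (Fin k) (Fin k) (ZMod p)[X]) m l
  rw [hc]
  by_cases hml : m = l
  · subst hml; simp
  · rw [if_neg hml, Matrix.one_apply_ne hml, if_neg]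
    intro h
    have := h l (Finset.mem_univ l)
    simp [ltc] at this

/-- The vertex groups downstairs intersect as upstairs. -/
theorem iInf_KG (s : ℕ) (hs : 2 ≤ s) {T : Finset (Fin k)} (hT : T.Nonempty) :
    ⨅ i ∈ T, KG p k s i = (⨅ i ∈ T, KGam p k i).map (red p k s) := by
  refine le_antisymm (fun x hx => ?_) (fun x hx => ?_)
  · simp only [Subgroup.mem_iInf] at hx
    obtain ⟨i₀, hi₀⟩ := hT
    obtain ⟨g, hg, rfl⟩ := hx i₀ hi₀
    refine ⟨g, ?_, rfl⟩
    simp only [SetLike.mem_coe, Subgroup.mem_iInf]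
    intro i hi
    obtain ⟨h, hh, he⟩ := hx i hi
    rwa [← eq_of_red_eq p k hs hh hg he]
  · obtain ⟨g, hg, rfl⟩ := hx
    simp only [SetLike.mem_coe, Subgroup.mem_iInf] at hg ⊢
    exact fun i hi => Subgroup.mem_map_of_mem _ (hg i hi)

theorem iInf_KG_univ (_hk : 2 ≤ k) (s : ℕ) (hs : 2 ≤ s) :
    ⨅ i ∈ (Finset.univ : Finset (Fin k)), KG p k s i = ⊥ := by
  rw [iInf_KG p k s hs Finset.univ_nonempty, iInf_KGam_univ, Subgroup.map_bot]

/-- Chambers are the group elements. -/
theorem chamber_injective {s : ℕ} (hk : 2 ≤ k) (hs : 2 ≤ s) :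
    Function.Injective fun g : GG p k s => cell (KG p k s) g Finset.univ :=
  cell_injective _ (iInf_KG_univ p k hk s hs)

/-- The projection of vertices from the infinite complex. -/
noncomputable def projV (s : ℕ) (v : (i : Fin k) × (Gam p k ⧸ KGam p k i)) :
    (i : Fin k) × (GG p k s ⧸ KG p k s i) :=
  ⟨v.1, Quotient.map' (red p k s) (fun a b h => by
    rw [QuotientGroup.leftRel_apply] at h ⊢
    exact ⟨a⁻¹ * b, h, by simp⟩) v.2⟩

theorem projV_cell (s : ℕ) (g : Gam p k) (T : Finset (Fin k)) :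
    (cell (KGam p k) g T).image (projV p k s) = cell (KG p k s) (red p k s g) T := by
  ext v
  simp [cell, Finset.mem_image]
  constructor <;> rintro ⟨i, hi, rfl⟩ <;> exact ⟨i, hi, rfl⟩

theorem projV_trans (s : ℕ) (a : Gam p k) (v : (i : Fin k) × (Gam p k ⧸ KGam p k i)) :
    projV p k s (trans (KGam p k) a v) = trans (KG p k s) (red p k s a) (projV p k s v) := by
  obtain ⟨i, q⟩ := v
  obtain ⟨g, rfl⟩ := QuotientGroup.mk_surjective q
  show (⟨i, ((red p k s (a * g) : GG p k s) : GG p k s ⧸ KG p k s i)⟩ :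
    (i : Fin k) × (GG p k s ⧸ KG p k s i)) = _
  rw [map_mul]
  rfl

theorem face_projV {s : ℕ} {R : Finset (Fin k)}
    {σ : Finset ((i : Fin k) × (Gam p k ⧸ KGam p k i))} (h : (Uc p k R).face σ) :
    (Wc p k s R).face (σ.image (projV p k s)) := by
  obtain ⟨g, hg⟩ := (face_iff_subset_cell _).1 h
  exact (face_iff_subset_cell _).2
    ⟨red p k s g, projV_cell p k s g R ▸ Finset.image_subset_image hg⟩

/-- Every face downstairs lifts. -/
theorem exists_face_lift {s : ℕ} (hk : 2 ≤ k) {R : Finset (Fin k)}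
    {σ : Finset ((i : Fin k) × (GG p k s ⧸ KG p k s i))} (h : (Wc p k s R).face σ) :
    ∃ τ, (Uc p k R).face τ ∧ τ.image (projV p k s) = σ ∧ τ.card = σ.card := by
  obtain ⟨g, T, hR, rfl⟩ := (coset_face_iff _ R σ).1 h
  obtain ⟨a, rfl⟩ := red_surjective_of_two_le p k s hk g
  exact ⟨cell (KGam p k) a T, face_cell _ a hR, projV_cell p k s a T, by rw [cell_card, cell_card]⟩

/-- The kernel of the reduction acts freely on vertices. -/
theorem eq_one_of_trans_fixed {s : ℕ} (hs : 2 ≤ s) {n : Gam p k} (hn : red p k s n = 1)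
    {v : (i : Fin k) × (Gam p k ⧸ KGam p k i)} (h : trans (KGam p k) n v = v) : n = 1 := by
  obtain ⟨i, q⟩ := v
  obtain ⟨g, rfl⟩ := QuotientGroup.mk_surjective q
  simp only [trans, Sigma.mk.injEq, heq_eq_eq, true_and] at h
  have h1 : (n * g)⁻¹ * g ∈ KGam p k i := QuotientGroup.eq.1 h
  have h2 := eq_one_of_mem_KGam p k s hs h1 (by simp [map_mul, map_inv, hn])
  rw [inv_mul_eq_one] at h2
  exact mul_eq_right.1 h2

/-- The fibres of the projection are the orbits of the kernel. -/
theorem exists_trans_of_projV_eq {s : ℕ} {v w : (i : Fin k) × (Gam p k ⧸ KGam p k i)}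
    (h : projV p k s v = projV p k s w) :
    ∃ n : Gam p k, red p k s n = 1 ∧ trans (KGam p k) n v = w := by
  obtain ⟨i, q⟩ := v
  obtain ⟨j, r⟩ := w
  obtain ⟨a, rfl⟩ := QuotientGroup.mk_surjective q
  obtain ⟨b, rfl⟩ := QuotientGroup.mk_surjective r
  have hij : i = j := congrArg Sigma.fst h
  subst hij
  simp only [projV, Sigma.mk.injEq, heq_eq_eq, true_and] at h
  have h1 : (red p k s a)⁻¹ * red p k s b ∈ KG p k s i := QuotientGroup.eq.1 h
  obtain ⟨x, hx, hxe⟩ := h1
  refine ⟨b * x⁻¹ * a⁻¹, ?_, ?_⟩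
  · rw [map_mul, map_mul, map_inv, map_inv, hxe]; group
  · simp only [trans, Sigma.mk.injEq, heq_eq_eq, true_and]
    show ((b * x⁻¹ * a⁻¹ * a : Gam p k) : Gam p k ⧸ KGam p k i) = _
    rw [inv_mul_cancel_right]
    exact QuotientGroup.eq.2 (by simpa using hx)

/-- Degree bound for the finite complex, independent of `s`. -/
theorem card_faces_Wc_at_le {s : ℕ} {R : Finset (Fin k)}
    (v : (i : Fin k) × (GG p k s ⧸ KG p k s i))
    (S : Finset (Finset ((i : Fin k) × (GG p k s ⧸ KG p k s i))))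
    (hS : ∀ σ ∈ S, (Wc p k s R).face σ ∧ v ∈ σ) : S.card ≤ p ^ (k * k) * 2 ^ k := by
  refine (card_faces_at_le _ v S hS).trans (Nat.mul_le_mul (card_KG_le p k s v.1) ?_)
  exact Nat.pow_le_pow_right (by norm_num) (by simpa using Finset.card_le_univ R)

/-- The vertex sets grow with `s`. -/
theorem card_vertices_ge {s : ℕ} (hk : 2 ≤ k) (i : Fin k) :
    s ≤ Nat.card (GG p k s ⧸ KG p k s i) * p ^ (k * k) := by
  have := finite_GG p k s
  refine (le_card_GG p k s hk).trans ?_
  rw [card_le_mul_card_vertices (KG p k s) i]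
  exact Nat.mul_le_mul_left _ (card_KG_le p k s i)

theorem finite_vertices (s : ℕ) : Finite ((i : Fin k) × (GG p k s ⧸ KG p k s i)) := by
  have := finite_GG p k s
  infer_instance

theorem red_injOn_KGam (s : ℕ) (hs : 2 ≤ s) (i : Fin k) :
    Function.Injective fun g : KGam p k i => red p k s g.1 :=
  fun g h e => Subtype.ext (eq_of_red_eq p k hs g.2 h.2 e)

theorem ker_red_free (s : ℕ) (hs : 2 ≤ s) (g h : Gam p k) (i : Fin k) (hg : red p k s g = 1)
    (hK : h⁻¹ * g * h ∈ KGam p k i) : g = 1 := by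
  have h2 := eq_one_of_mem_KGam p k s hs hK (by simp [map_mul, map_inv, hg])
  calc g = h * (h⁻¹ * g * h) * h⁻¹ := by group
    _ = 1 := by rw [h2]; group

theorem card_GG (s : ℕ) : ∃ e : ℕ, Nat.card (GG p k s) = p ^ e := by
  have := finite_GG p k s
  rcases Nat.eq_zero_or_pos s with rfl | hs
  · refine ⟨0, ?_⟩
    have : Subsingleton (AR p 0) := by
      rw [Ideal.Quotient.subsingleton_iff, pow_zero, Ideal.span_singleton_one]
    refine (Nat.card_eq_one_iff_unique.2 ?_).trans (pow_zero p).symm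
    exact ⟨⟨fun a b => Subtype.ext (Subtype.ext (Subsingleton.elim _ _))⟩, ⟨1⟩⟩
  · exact (IsPGroup.iff_card).1 (isPGroup_GG p k s hs)

theorem card_GG_ge (hk : 2 ≤ k) (s : ℕ) (hs : 2 ≤ s) : p ^ (s - 1) ≤ Nat.card (GG p k s) := by
  have := finite_GG p k s
  have h01 : (⟨0, by omega⟩ : Fin k) ≠ ⟨1, by omega⟩ := by simp [Fin.ext_iff]
  set a : (Fin (s - 1) → ZMod p) → AR p s := fun c =>
    Ideal.Quotient.mk _ (∑ i : Fin (s - 1), C (c i) * X ^ (i : ℕ)) with ha
  have hinj : Function.Injective a := by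
    intro c c' h
    simp only [ha, Ideal.Quotient.eq, Ideal.mem_span_singleton, Polynomial.X_pow_dvd_iff] at h
    funext i
    have := h i.1 (by omega)
    simp only [Polynomial.coeff_sub, Polynomial.finset_sum_coeff, Polynomial.coeff_C_mul_X_pow,
      Fin.val_inj, Finset.sum_ite_eq, Finset.mem_univ, if_true] at this
    exact sub_eq_zero.1 this
  have hG : ∀ x : AR p s,
      Slices.root (⟨0, by omega⟩ : Fin k) ⟨1, by omega⟩ h01 x ∈ GG p k s := fun x =>
    (mem_GG_iff p k s).2 (Slices.root_mem le_rfl (by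
      rw [show Slices.ord 1 (⟨0, by omega⟩ : Fin k) ⟨1, by omega⟩ = 0 from
        Nat.le_zero.1 (Slices.ord_le_iff.2 (by simp)), pow_zero]
      exact one_dvd _))
  refine le_trans (le_of_eq ?_) (Nat.card_le_card_of_injective
    (fun c => (⟨_, hG (a c)⟩ : GG p k s)) ?_)
  · simp [Nat.card_eq_fintype_card, ZMod.card]
  · intro c c' h
    apply hinj
    have := congrArg (fun g : GG p k s =>
      (g.1 : Matrix (Fin k) (Fin k) (AR p s)) ⟨0, by omega⟩ ⟨1, by omega⟩) h
    simpa [Slices.root, Matrix.transvection, Matrix.one_apply_ne h01] using this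

end Vale.Agent.P067.Cob
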