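import Vale.Agent.P067.Cob.Equi

/-!
E2 of the notes for coset complexes: a cycle carried by the cells of a subgroup `B`, seen in the
quotient complex, is homologous to its translate by `x` when the commutators of `x` with the
kernel inside `B` lie in an abelian group of odd exponent inside the kernel.
-/

namespace Vale.Agent.P067.Cob

open Finset

open scoped Classical

attribute [local instance 2000] Classical.propDecidable

namespace Equi

variable {Γ G : Type*} [Group Γ] [Group G] {ι : Type*} (π : Γ →* G) (K : ι → Subgroup Γ)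

theorem cell_eq {G' : Type*} [Group G'] (L : ι → Subgroup G') (g : G') (T : Finset ι) :
    cell L g T = T.image fun i => (⟨i, ((g : G') : G' ⧸ L i)⟩ : (i : ι) × (G' ⧸ L i)) := by
  ext v
  simp only [cell, Finset.mem_image]

/-- The action on the vertices of a coset complex. -/
@[reducible] def cosetAction : MulAction Γ ((i : ι) × (Γ ⧸ K i)) where
  smul g v := trans K g v
  one_smul v := by
    show trans K 1 v = v
    simp [trans]
  mul_smul g h v := by
    show trans K (g * h) v = trans K g (trans K h v)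
    exact congrArg (Sigma.mk v.1) (mul_smul g h v.2)

/-- The vertex map to the quotient coset complex. -/
noncomputable def cmap (v : (i : ι) × (Γ ⧸ K i)) : (i : ι) × (G ⧸ (K i).map π) :=
  ⟨v.1, ((π v.2.out : G) : G ⧸ (K v.1).map π)⟩

theorem cmap_mk (i : ι) (g : Γ) :
    cmap π K ⟨i, ((g : Γ) : Γ ⧸ K i)⟩ = ⟨i, ((π g : G) : G ⧸ (K i).map π)⟩ := by
  obtain ⟨k, hk⟩ := QuotientGroup.mk_out_eq_mul (K i) g
  unfold cmap
  simp only [hk, map_mul]
  congr 1
  exact QuotientGroup.mk_mul_of_mem _ (Subgroup.mem_map_of_mem π k.2)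

theorem cmap_cell (g : Γ) (T : Finset ι) :
    (cell K g T).image (cmap π K) = cell (fun i => (K i).map π) (π g) T := by
  rw [cell_eq, cell_eq, Finset.image_image]
  exact Finset.image_congr fun i _ => cmap_mk π K i g

theorem cmap_trans (g : Γ) (v : (i : ι) × (Γ ⧸ K i)) :
    cmap π K (trans K g v) = trans (fun i => (K i).map π) (π g) (cmap π K v) := by
  obtain ⟨i, q⟩ := v
  induction q using QuotientGroup.induction_on with
  | H a =>
    rw [show trans K g ⟨i, ((a : Γ) : Γ ⧸ K i)⟩ = ⟨i, ((g * a : Γ) : Γ ⧸ K i)⟩ from rfl,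
      cmap_mk, cmap_mk, map_mul]
    rfl

theorem trans_cell (g h : Γ) (T : Finset ι) :
    (cell K h T).image (trans K g) = cell K (g * h) T := by
  rw [cell_eq, cell_eq, Finset.image_image]
  rfl

theorem cell_congr {g h : Γ} {T : Finset ι} (e : ∀ i ∈ T, g⁻¹ * h ∈ K i) :
    cell K g T = cell K h T := by
  rw [cell_eq, cell_eq]
  refine Finset.image_congr fun i hi => ?_
  rw [QuotientGroup.eq.2 (e i hi)]

theorem cell_fst (g : Γ) (T : Finset ι) : (cell K g T).image Sigma.fst = T := by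
  rw [cell_eq, Finset.image_image]
  simp [Function.comp_def]

theorem cell_card (g : Γ) (T : Finset ι) : (cell K g T).card = T.card :=
  (cell_eq K g T).symm ▸ Finset.card_image_of_injective _ fun _ _ h => congrArg Sigma.fst h

theorem sub_cell {g : Γ} {T : Finset ι} {τ : Finset ((i : ι) × (Γ ⧸ K i))}
    (h : τ ⊆ cell K g T) : τ = cell K g (τ.image Sigma.fst) := by
  ext v
  rw [cell_eq] at h ⊢
  simp only [Finset.mem_image]
  constructor
  · intro hv
    obtain ⟨i, -, rfl⟩ := Finset.mem_image.1 (h hv)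
    exact ⟨i, ⟨_, hv, rfl⟩, rfl⟩
  · rintro ⟨i, ⟨w, hw, rfl⟩, rfl⟩
    obtain ⟨i, -, rfl⟩ := Finset.mem_image.1 (h hw)
    exact hw

/-- The cells of `B` with types in `R`. -/
def cells (B : Subgroup Γ) (R : Finset ι) : Set (Finset ((i : ι) × (Γ ⧸ K i))) :=
  {σ | ∃ b ∈ B, ∃ T ⊆ R, σ = cell K b T}

/-- E2 for coset complexes. -/
theorem coset_translate_null {p : ℕ} (hp : Odd p) (R U₀ : Finset ι) (hR : R ⊆ U₀)
    (B I : Subgroup Γ) (x : Γ)
    (hcomm : ∀ a ∈ I, ∀ b ∈ I, a * b = b * a) (hexp : ∀ a ∈ I, a ^ p = 1)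
    (hIker : ∀ a ∈ I, π a = 1)
    (hnorm : ∀ g ∈ B, π g = 1 → ∀ a ∈ I, g * a * g⁻¹ ∈ I)
    (hx : ∀ g ∈ B, π g = 1 → x * g * x⁻¹ * g⁻¹ ∈ I)
    (hinj : ∀ i ∈ R, ∀ a ∈ K i, π a = 1 → a = 1)
    (hmeet : ∀ T ⊆ R, T.Nonempty → ∀ b ∈ B, (∀ i ∈ T, π b ∈ (K i).map π) →
      ∃ a ∈ B, π a = π b ∧ ∀ i ∈ T, a ∈ K i)
    {m : ℕ} (hEx : (coset K U₀).Ex m) {j : ℕ} (hj : j < m)
    {y : Chain ((i : ι) × (G ⧸ (K i).map π))}
    (hy : y ∈ Finsupp.supported (ZMod 2) (ZMod 2)
      {σ | ∃ b ∈ B, ∃ T ⊆ R, T.card = j ∧ σ = cell (fun i => (K i).map π) (π b) T})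
    (hc : bd y = 0) :
    (coset (fun i => (K i).map π) U₀).Null j (act (fun i => (K i).map π) (π x) y + y) := by
  let _ := cosetAction K
  have hS : Setup (coset K U₀) (cmap π K) I (B ⊓ π.ker) (cells K B R) x := by
    constructor
    · rintro g σ ⟨h, hh⟩
      refine ⟨g * h, fun v hv => ?_⟩
      rw [Finset.mem_image] at hv
      obtain ⟨w, hw, rfl⟩ := hv
      refine ⟨(hh w hw).1, ?_⟩
      show g • w.2 = _
      rw [(hh w hw).2]
      rfl
    · rintro σ ⟨b, -, T, hT, rfl⟩
      refine ⟨b, fun v hv => ?_⟩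
      rw [cell_eq] at hv
      obtain ⟨i, hi, rfl⟩ := Finset.mem_image.1 hv
      exact ⟨hR (hT hi), rfl⟩
    · rintro σ ⟨b, hb, T, hT, rfl⟩ τ hτ
      refine ⟨b, hb, _, ?_, sub_cell K hτ⟩
      exact (Finset.image_subset_image hτ).trans (le_of_eq_of_le (cell_fst K b T) hT)
    · rintro g hg σ ⟨b, hb, T, hT, rfl⟩
      exact ⟨g * b, B.mul_mem hg.1 hb, T, hT, trans_cell K g b T⟩
    · rintro g hg σ ⟨b, hb, T, hT, rfl⟩ hne e
      replace e : cell K (g * b) T = cell K b T := (trans_cell K g b T).symm.trans e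
      obtain ⟨v, hv⟩ := hne
      rw [cell_eq] at hv
      obtain ⟨i, hi, rfl⟩ := Finset.mem_image.1 hv
      have hv' : (⟨i, ((g * b : Γ) : Γ ⧸ K i)⟩ : (i : ι) × (Γ ⧸ K i)) ∈ cell K b T := by
        rw [← e, cell_eq]
        exact Finset.mem_image_of_mem _ hi
      rw [cell_eq] at hv'
      obtain ⟨i', -, he⟩ := Finset.mem_image.1 hv'
      obtain ⟨rfl, he⟩ := Sigma.mk.inj_iff.1 he
      have hk := QuotientGroup.eq.1 (eq_of_heq he)
      rw [← mul_assoc] at hk
      have h1 := hinj i' (hT hi) _ hk (by simp [(MonoidHom.mem_ker).1 hg.2])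
      calc g = b * (b⁻¹ * g * b) * b⁻¹ := by group
        _ = 1 := by rw [h1]; group
    · rintro σ ⟨b, hb, T, hT, rfl⟩ τ ⟨b', hb', T', hT', rfl⟩ e
      rw [cmap_cell, cmap_cell] at e
      have hTT : T = T' := by
        have := congrArg (Finset.image Sigma.fst) e
        rwa [cell_fst, cell_fst] at this
      subst hTT
      rcases T.eq_empty_or_nonempty with rfl | hne
      · exact ⟨1, one_mem _, by simp [cell_eq]⟩
      have hb0 : ∀ i ∈ T, π (b⁻¹ * b') ∈ (K i).map π := by
        intro i hi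
        have hm : (⟨i, ((π b' : G) : G ⧸ (K i).map π)⟩ : (i : ι) × (G ⧸ (K i).map π))
            ∈ cell (fun i => (K i).map π) (π b) T := by
          rw [e, cell_eq]
          exact Finset.mem_image_of_mem _ hi
        rw [cell_eq] at hm
        obtain ⟨i', -, he⟩ := Finset.mem_image.1 hm
        obtain ⟨rfl, he⟩ := Sigma.mk.inj_iff.1 he
        simpa using QuotientGroup.eq.1 (eq_of_heq he)
      obtain ⟨a, haB, haπ, haK⟩ := hmeet T hT hne _ (B.mul_mem (B.inv_mem hb) hb') hb0
      refine ⟨b' * a⁻¹ * b⁻¹, ⟨B.mul_mem (B.mul_mem hb' (B.inv_mem haB)) (B.inv_mem hb), ?_⟩, ?_⟩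
      · simp [map_mul, map_inv, haπ, mul_assoc]
      · refine (trans_cell K _ b T).trans ?_
        refine cell_congr K fun i hi => ?_
        have : (b' * a⁻¹ * b⁻¹ * b)⁻¹ * b' = a := by group
        rw [this]
        exact haK i hi
    · intro a ha v
      show cmap π K (trans K a v) = _
      rw [cmap_trans, hIker a ha]
      simp [trans]
    · intro g hg v
      show cmap π K (trans K g v) = _
      rw [cmap_trans, (MonoidHom.mem_ker).1 hg.2]
      simp [trans]
    · exact fun g hg => hnorm g hg.1 hg.2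
    · exact fun g hg => hx g hg.1 hg.2
    · rintro σ ⟨g, hg⟩ v hv w hw e
      have e1 : v.1 = w.1 := congrArg (fun z : (i : ι) × (G ⧸ (K i).map π) => z.1) e
      obtain ⟨i, q⟩ := v
      obtain ⟨i', q'⟩ := w
      change i = i' at e1
      subst e1
      exact Sigma.ext rfl (heq_of_eq ((hg _ hv).2.trans (hg _ hw).2.symm))
  have hlift : y ∈ (pchains (cells K B R) j).map (vpush (cmap π K)) := by
    refine lin_mem LinearMap.id _ (fun σ hσ => ?_) hy
    obtain ⟨b, hb, T, hT, hTj, rfl⟩ := hσ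
    refine ⟨Finsupp.single (cell K b T) 1, single_mem ⟨⟨b, hb, T, hT, rfl⟩,
      (cell_card K b T).trans hTj⟩, ?_⟩
    rw [vpush_single, cmap_cell]
    rfl
  obtain ⟨z, hz, rfl⟩ := hlift
  have hK' : ∀ σ, (coset K U₀).face σ →
      (coset (fun i => (K i).map π) U₀).face (σ.image (cmap π K)) := by
    rintro σ ⟨g, hg⟩
    refine ⟨π g, fun v hv => ?_⟩
    obtain ⟨⟨i, q⟩, hw, rfl⟩ := Finset.mem_image.1 hv
    refine ⟨(hg _ hw).1, ?_⟩
    rw [show q = ((g : Γ) : Γ ⧸ K i) from (hg _ hw).2, cmap_mk]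
  have h := hS.translate_null hp hcomm hexp hEx hj hK' hz hc
  have e : act (fun i => (K i).map π) (π x) (vpush (cmap π K) z)
      = vpush (cmap π K) (tr x z) := by
    refine lin_eq rfl (act (fun i => (K i).map π) (π x) ∘ₗ vpush (cmap π K))
      (vpush (cmap π K) ∘ₗ tr x) (fun σ _ => ?_) (mem_univ_supported z)
    simp only [LinearMap.comp_apply, act, tr, vpush_single, Finset.image_image]
    congr 1
    exact Finset.image_congr fun v _ => (cmap_trans π K x v).symm
  rwa [e]

end Equi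

end Vale.Agent.P067.Cob
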