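import Vale.Agent.P067.Defs
import Vale.Agent.P067.Local
import Vale.Agent.P067.Cob.Complex

/-! # P067 (A) — expansion of the skeleton from cones in links, mixing and exactness -/

noncomputable section

open Finset
open scoped Classical

namespace Vale.Agent.P067.Cob

open Vale.Agent.P067.Local

variable {V : Type*} [Fintype V]

/-- Evaluation of a cochain on a chain, after adding `σ` to every face. -/
def evalJoin (σ : Finset V) (g : Finset V → ZMod 2) : Chain V →ₗ[ZMod 2] ZMod 2 :=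
  Finsupp.linearCombination (ZMod 2) fun ψ : Finset V => g (ψ ∪ σ)

omit [Fintype V] in
theorem evalJoin_apply (σ : Finset V) (g : Finset V → ZMod 2) (c : Chain V) :
    evalJoin σ g c = ∑ ψ ∈ c.support, g (ψ ∪ σ) := by
  rw [evalJoin, Finsupp.linearCombination_apply, Finsupp.sum]
  refine Finset.sum_congr rfl fun ψ hψ => ?_
  have h1 : ∀ x : ZMod 2, x ≠ 0 → x = 1 := by decide
  rw [h1 _ (Finsupp.mem_support_iff.1 hψ), one_smul]

omit [Fintype V] in
theorem evalJoin_bd (σ : Finset V) (g : Finset V → ZMod 2) (hg : SuppGe σ g) (c : Chain V)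
    (hc : ∀ ψ ∈ c.support, Disjoint ψ σ) :
    evalJoin σ g (bd c) = ∑ ψ ∈ c.support, dl g (ψ ∪ σ) := by
  have h1 : ∀ x : ZMod 2, x ≠ 0 → x = 1 := by decide
  rw [bd, Finsupp.linearCombination_apply, Finsupp.sum, map_sum]
  refine Finset.sum_congr rfl fun ψ hψ => ?_
  rw [h1 _ (Finsupp.mem_support_iff.1 hψ), one_smul, map_sum, dl,
    Finset.sum_union (hc ψ hψ)]
  have hz : ∑ x ∈ σ, g ((ψ ∪ σ).erase x) = 0 := Finset.sum_eq_zero fun x hx =>
    by_contra fun h => Finset.notMem_erase x _ (hg _ h hx)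
  rw [hz, add_zero]
  refine Finset.sum_congr rfl fun v hv => ?_
  rw [evalJoin, Finsupp.linearCombination_single, one_smul, Finset.erase_union_distrib,
    Finset.erase_eq_of_notMem (Finset.disjoint_left.1 (hc ψ hψ) hv)]

variable {T : Finset (Finset V)}

/-- A bounded cone in the link of `σ` gives expansion of that link. -/
theorem linkBound_of_cone {ι : Type*} (K : Cplx V) (hface : ∀ φ, K.face φ ↔ IsFace T φ) {k : ℕ}
    (hT : ∀ τ ∈ T, τ.card = k) (ty : V → ι) (hty : ∀ τ ∈ T, Set.InjOn ty τ)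
    (Γ : Subgroup (Equiv.Perm V)) (hΓty : ∀ γ ∈ Γ, ∀ v, ty (γ v) = ty v)
    (hΓT : ∀ γ ∈ Γ, ∀ τ ∈ T, τ.image γ ∈ T)
    (htrans : ∀ τ ∈ T, ∀ τ' ∈ T, ∃ γ ∈ Γ, τ.image γ = τ')
    {σ : Finset V} (hσ : IsFace T σ) {m M N : ℕ} (hM : m < M + σ.card)
    (hcone : (K.link σ).Cone M N) (g : Finset V → ZMod 2) (hg : SuppGe σ g) :
    ∃ h, SuppGe σ h ∧
      wt T (supp T m (g + dl h)) ≤ 2 ^ k * N * wt T (supp T (m + 1) (dl g)) := by
  obtain ⟨H, hH⟩ := hcone
  let Γσ : Subgroup (Equiv.Perm V) :=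
    { carrier := {γ | γ ∈ Γ ∧ σ.image γ = σ}
      one_mem' := ⟨Γ.one_mem, by simp⟩
      mul_mem' := fun {a b} ha hb => ⟨Γ.mul_mem ha.1 hb.1, by
        rw [Equiv.Perm.coe_mul, ← Finset.image_image, hb.2, ha.2]⟩
      inv_mem' := fun {a} ha => ⟨Γ.inv_mem ha.1, by
        conv_lhs => rw [← ha.2]
        simp [Finset.image_image]⟩ }
  have hlink : ∀ φ ∈ mFaces T m, σ ⊆ φ → (K.link σ).face (φ \ σ) ∧ (φ \ σ).card < M := by
    intro φ hφ hsub
    obtain ⟨hc, hf⟩ := mem_mFaces.1 hφ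
    refine ⟨Or.inr ⟨Finset.sdiff_disjoint, ?_⟩, ?_⟩
    · rw [Finset.sdiff_union_of_subset hsub, hface]
      exact hf
    · rw [Finset.card_sdiff_of_subset hsub, hc]
      have := Finset.card_le_card hsub
      omega
  set Hc : Finset V → Finset (Finset V) := fun φ =>
    if (K.link σ).face (φ \ σ) ∧ (φ \ σ).card < M then
      (H (φ \ σ)).support.image (fun ψ => ψ ∪ σ) else ∅ with hHc
  have hdisj : ∀ ρ, (K.link σ).face ρ → ρ.card < M → ∀ ψ ∈ (H ρ).support,
      Disjoint ψ σ ∧ ψ.card = ρ.card + 1 ∧ K.face (ψ ∪ σ) := by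
    intro ρ h1 h2 ψ hψ
    have hmem : (K.link σ).face ψ ∧ ψ.card = ρ.card + 1 :=
      (Finsupp.mem_supported _ _).1 (hH ρ h1 h2).1 hψ
    rcases hmem.1 with h | ⟨h3, h4⟩
    · have := hmem.2
      simp [h] at this
    · exact ⟨h3, hmem.2, h4⟩
  have hsum : ∀ (f : Finset V → ZMod 2) (ρ : Finset V), (K.link σ).face ρ → ρ.card < M →
      ∑ ψ ∈ (H ρ).support.image (fun ψ => ψ ∪ σ), f ψ = ∑ ψ ∈ (H ρ).support, f (ψ ∪ σ) := by
    intro f ρ h1 h2
    refine Finset.sum_image fun a ha b hb h => ?_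
    have hab := congrArg (fun x => x \ σ) h
    simpa [Finset.union_sdiff_right, Finset.sdiff_eq_self_of_disjoint (hdisj ρ h1 h2 a ha).1,
      Finset.sdiff_eq_self_of_disjoint (hdisj ρ h1 h2 b hb).1] using hab
  refine exists_cone_bound hT σ Γσ (fun γ hγ => hΓT γ hγ.1) (fun γ hγ => hγ.2) ?_ Hc ?_ ?_ ?_
    hσ g hg
  · intro τ hτ τ' hτ' hs hs'
    obtain ⟨γ, hγ, he⟩ := htrans τ hτ τ' hτ'
    refine ⟨γ, ⟨hγ, ?_⟩, he⟩
    refine Finset.eq_of_subset_of_card_le (fun x hx => ?_)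
      (Finset.card_image_of_injective _ γ.injective).ge
    obtain ⟨v, hv, rfl⟩ := Finset.mem_image.1 hx
    have h1 : γ v ∈ τ' := he ▸ Finset.mem_image_of_mem γ (hs hv)
    rwa [hty τ' hτ' h1 (hs' hv) (hΓty γ hγ v)]
  · intro φ
    simp only [hHc]
    split
    · next h => exact Finset.card_image_le.trans (hH _ h.1 h.2).2.1
    · simp
  · intro φ hφ hsub ψ hψ
    simp only [hHc, if_pos (hlink φ hφ hsub)] at hψ
    obtain ⟨ψ', hψ', rfl⟩ := Finset.mem_image.1 hψ
    obtain ⟨h1, h2, h3⟩ := hdisj _ (hlink φ hφ hsub).1 (hlink φ hφ hsub).2 ψ' hψ'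
    refine ⟨mem_mFaces.2 ⟨?_, (hface _).1 h3⟩, Finset.subset_union_right⟩
    rw [Finset.card_union_of_disjoint h1, h2, Finset.card_sdiff_of_subset hsub,
      (mem_mFaces.1 hφ).1]
    have := Finset.card_le_card hsub
    rw [(mem_mFaces.1 hφ).1] at this
    omega
  · intro g hg φ hφ hsub
    obtain ⟨h1, h2⟩ := hlink φ hφ hsub
    have hid := congrArg (evalJoin σ g) (hH _ h1 h2).2.2
    rw [map_add, map_sum, evalJoin_bd σ g hg _ (fun ψ hψ => (hdisj _ h1 h2 ψ hψ).1)] at hid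
    have hsingle : evalJoin σ g (Finsupp.single (φ \ σ) 1) = g φ := by
      rw [evalJoin, Finsupp.linearCombination_single, one_smul,
        Finset.sdiff_union_of_subset hsub]
    rw [hsingle] at hid
    have hrhs : ∑ ψ ∈ Hc φ, dl g ψ = ∑ ψ ∈ (H (φ \ σ)).support, dl g (ψ ∪ σ) := by
      simp only [hHc, if_pos (hlink φ hφ hsub)]
      exact hsum _ _ h1 h2
    have hdl : dl (coneMap σ Hc g) φ = ∑ v ∈ φ \ σ, evalJoin σ g (H ((φ \ σ).erase v)) := by
      rw [dl]
      symm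
      refine Finset.sum_subset_zero_on_sdiff Finset.sdiff_subset (fun x hx => ?_) (fun v hv => ?_)
      · have hxσ : x ∈ σ := by
          obtain ⟨hxφ, hn⟩ := Finset.mem_sdiff.1 hx
          exact by_contra fun h => hn (Finset.mem_sdiff.2 ⟨hxφ, h⟩)
        rw [coneMap, if_neg]
        exact fun h => Finset.notMem_erase x φ (h hxσ)
      · obtain ⟨hvφ, hvσ⟩ := Finset.mem_sdiff.1 hv
        have hs : σ ⊆ φ.erase v := Finset.subset_erase.2 ⟨hsub, hvσ⟩
        have he : φ.erase v \ σ = (φ \ σ).erase v := Finset.erase_sdiff_comm φ σ v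
        have hf : (K.link σ).face ((φ \ σ).erase v) :=
          (K.link σ).down h1 (Finset.erase_subset _ _)
        have hc : ((φ \ σ).erase v).card < M := lt_of_le_of_lt Finset.card_erase_le h2
        rw [coneMap, if_pos hs, hHc]
        simp only [he, hf, hc, and_self, if_true]
        rw [hsum g _ hf hc, evalJoin_apply]
    rw [hrhs, hdl, ← hid]
    rw [add_assoc, CharTwo.add_self_eq_zero, add_zero]

/-- Exactness of chains, transposed. -/
theorem exact_of_Ex (K : Cplx V) (hface : ∀ φ, K.face φ ↔ IsFace T φ) {j M : ℕ} (hj : j < M)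
    (hEx : K.Ex M) (f : Finset V → ZMod 2) (hf : ∀ τ ∈ mFaces T (j + 1), dl f τ = 0) :
    ∃ h, ∀ φ ∈ mFaces T j, f φ = dl h φ := by
  let P : K.chains j →ₗ[ZMod 2] Chain V := bd.comp (K.chains j).subtype
  let φf : K.chains j →ₗ[ZMod 2] ZMod 2 := (evalJoin ∅ f).comp (K.chains j).subtype
  have hker : LinearMap.ker P ≤ LinearMap.ker φf := by
    intro z hz
    obtain ⟨w, hw, hwz⟩ := hEx j hj z z.2 hz
    show evalJoin ∅ f (z : Chain V) = 0
    rw [← hwz, evalJoin_bd ∅ f (fun _ _ => Finset.empty_subset _) w (fun _ _ => by simp)]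
    refine Finset.sum_eq_zero fun ψ hψ => ?_
    have hmem : K.face ψ ∧ ψ.card = j + 1 := (Finsupp.mem_supported _ _).1 hw hψ
    rw [Finset.union_empty]
    exact hf ψ (mem_mFaces.2 ⟨hmem.2, (hface ψ).1 hmem.1⟩)
  let φ' : LinearMap.range P →ₗ[ZMod 2] ZMod 2 :=
    ((LinearMap.ker P).liftQ φf hker).comp P.quotKerEquivRange.symm.toLinearMap
  obtain ⟨L, hL⟩ := LinearMap.exists_extend φ'
  refine ⟨fun χ => L (Finsupp.single χ 1), fun φ hφ => ?_⟩
  obtain ⟨hc, hfa⟩ := mem_mFaces.1 hφ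
  have hmem : Finsupp.single φ (1 : ZMod 2) ∈ K.chains j :=
    Finsupp.single_mem_supported _ _ ⟨(hface φ).2 hfa, hc⟩
  have h2 : φ' ⟨P ⟨_, hmem⟩, LinearMap.mem_range_self _ _⟩ = φf ⟨_, hmem⟩ := by
    simp [φ', LinearMap.quotKerEquivRange_symm_apply_image]
  have h3 : L (P ⟨_, hmem⟩) = φ' ⟨P ⟨_, hmem⟩, LinearMap.mem_range_self _ _⟩ :=
    LinearMap.congr_fun hL ⟨P ⟨_, hmem⟩, LinearMap.mem_range_self _ _⟩
  have h4 : φf ⟨_, hmem⟩ = f φ := by simp [φf, evalJoin]
  rw [← h4, ← h2, ← h3]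
  simp [P, bd, dl, Finsupp.linearCombination_single]

/-- The `d`-faces of a complex, on `Fin n`. -/
def skelTops (T : Finset (Finset V)) (d : ℕ) : Finset (Finset (Fin (Fintype.card V))) :=
  (mFaces T (d + 1)).image fun σ => σ.image (Fintype.equivFin V)

theorem faces_skelTops {k d i : ℕ} (hT : ∀ τ ∈ T, τ.card = k) (hd : d + 1 ≤ k) (hi : i ≤ d) :
    faces (skelTops T d) i = (mFaces T (i + 1)).image fun σ => σ.image (Fintype.equivFin V) := by
  set e := Fintype.equivFin V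
  ext σ
  simp only [faces, skelTops, Finset.mem_filter, Finset.mem_univ, true_and, Finset.mem_image]
  constructor
  · rintro ⟨hc, _, ⟨π, hπ, rfl⟩, hsub⟩
    refine ⟨σ.image e.symm, mem_mFaces.2 ⟨?_, ?_⟩, by simp [Finset.image_image]⟩
    · rw [Finset.card_image_of_injective _ e.symm.injective, hc]
    · obtain ⟨τ, hτ, hs⟩ := (mem_mFaces.1 hπ).2
      refine ⟨τ, hτ, (Finset.image_subset_image hsub).trans ?_⟩
      simp only [Finset.image_image, e, Equiv.symm_comp_self, Finset.image_id]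
      exact hs
  · rintro ⟨φ, hφ, rfl⟩
    obtain ⟨hc, τ, hτ, hs⟩ := mem_mFaces.1 hφ
    refine ⟨by rw [Finset.card_image_of_injective _ e.injective, hc], ?_⟩
    obtain ⟨π, h1, h2, h3⟩ := Finset.exists_subsuperset_card_eq (n := d + 1) hs (by omega)
      (by rw [hT τ hτ]; omega)
    exact ⟨_, ⟨π, mem_mFaces.2 ⟨h3, τ, hτ, h2⟩, rfl⟩, Finset.image_subset_image h1⟩

/-- The degree in the skeleton. -/
theorem deg_skelTops (d : ℕ) (φ : Finset V) :
    ((skelTops T d).filter fun π => φ.image (Fintype.equivFin V) ⊆ π).card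
      = ((mFaces T (d + 1)).filter fun π => φ ⊆ π).card := by
  rw [skelTops, Finset.filter_image,
    Finset.card_image_of_injective _ (Finset.image_injective (Fintype.equivFin V).injective)]
  congr 1
  exact Finset.filter_congr fun π _ =>
    Finset.image_subset_image_iff (Fintype.equivFin V).injective

/-- The coboundary of the skeleton is `dl`. -/
theorem cob_skelTops {k d i : ℕ} (hT : ∀ τ ∈ T, τ.card = k) (hd : d + 1 ≤ k) (hi : i + 1 ≤ d)
    (f : Cochain (Fintype.card V)) {φ : Finset V} (hφ : φ ∈ mFaces T (i + 2)) :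
    cob (skelTops T d) i f (φ.image (Fintype.equivFin V))
      = dl (fun σ => f (σ.image (Fintype.equivFin V))) φ := by
  set e := Fintype.equivFin V
  have hmem : φ.image e ∈ faces (skelTops T d) (i + 1) := by
    rw [faces_skelTops hT hd hi]
    exact Finset.mem_image_of_mem _ hφ
  show (if φ.image e ∈ faces (skelTops T d) (i + 1) then
    ∑ σ ∈ (φ.image e).powersetCard (i + 1), f σ else 0) = _
  rw [if_pos hmem, dl]
  have hc := (mem_mFaces.1 hφ).1
  have hset : (φ.image e).powersetCard (i + 1) = φ.image (fun x => (φ.erase x).image e) := by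
    ext σ
    simp only [Finset.mem_powersetCard, Finset.mem_image]
    constructor
    · rintro ⟨hsub, hcard⟩
      have hlt : (σ.image e.symm).card + 1 = φ.card := by
        rw [Finset.card_image_of_injective _ e.symm.injective, hcard, hc]
      have hsub' : σ.image e.symm ⊆ φ := by
        refine (Finset.image_subset_image hsub).trans ?_
        simp [Finset.image_image]
      have h1 : (φ \ σ.image e.symm).card = 1 := by
        rw [Finset.card_sdiff_of_subset hsub']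
        omega
      obtain ⟨x, hx⟩ := Finset.card_eq_one.1 h1
      refine ⟨x, (Finset.mem_sdiff.1 (hx ▸ Finset.mem_singleton_self x)).1, ?_⟩
      rw [Finset.erase_eq, ← hx, Finset.sdiff_sdiff_self_left,
        Finset.inter_eq_right.2 hsub']
      simp [Finset.image_image]
    · rintro ⟨x, hx, rfl⟩
      refine ⟨Finset.image_subset_image (Finset.erase_subset _ _), ?_⟩
      rw [Finset.card_image_of_injective _ e.injective, Finset.card_erase_of_mem hx, hc]
      omega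
  rw [hset, Finset.sum_image]
  intro a ha b _ h
  have h' := Finset.image_injective e.injective h
  by_contra hne
  have : a ∈ φ.erase b := Finset.mem_erase.2 ⟨hne, ha⟩
  rw [← h'] at this
  exact Finset.notMem_erase a φ this

/-- A coboundary of the skeleton realising `dl h` on faces of size `i + 1`. -/
theorem exists_bdry {k d i : ℕ} (hT : ∀ τ ∈ T, τ.card = k) (hd : d + 1 ≤ k) (hi : i < d)
    (h : Finset V → ZMod 2) :
    ∃ a ∈ bdry (skelTops T d) i,
      ∀ φ ∈ mFaces T (i + 1), a (φ.image (Fintype.equivFin V)) = dl h φ := by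
  set e := Fintype.equivFin V
  cases i with
  | zero =>
    refine ⟨h ∅ • (fun _ => 1), Submodule.smul_mem _ _ (Submodule.subset_span rfl), ?_⟩
    intro φ hφ
    obtain ⟨x, rfl⟩ := Finset.card_eq_one.1 (mem_mFaces.1 hφ).1
    simp [dl]
  | succ i =>
    refine ⟨cob (skelTops T d) i (fun σ => h (σ.image e.symm)), LinearMap.mem_range_self _ _, ?_⟩
    intro φ hφ
    rw [cob_skelTops hT hd (by omega) _ hφ]
    simp [dl, e, Finset.image_image]

/-- The norm of the skeleton. -/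
theorem cNorm_skelTops {k d j : ℕ} (hT : ∀ τ ∈ T, τ.card = k) (hd : d + 1 ≤ k) (hj : j ≤ d)
    (g : Cochain (Fintype.card V)) :
    cNorm (skelTops T d) d j g
      = (∑ φ ∈ supp T (j + 1) (fun σ => g (σ.image (Fintype.equivFin V))),
          (((mFaces T (d + 1)).filter fun π => φ ⊆ π).card : ℝ))
        / (((d + 1).choose (j + 1) : ℝ) * ((skelTops T d).card : ℝ)) := by
  rw [cNorm, faces_skelTops hT hd hj, Finset.filter_image, Finset.sum_image
    (fun a _ b _ h => Finset.image_injective (Fintype.equivFin V).injective h), Finset.sum_div]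
  refine Finset.sum_congr rfl fun φ _ => ?_
  rw [weight, deg_skelTops]

/-- Passing from raw sums to normalised ones. -/
theorem compare_norms {k d i : ℕ} (hd : d + 1 ≤ k) (hi : i < d) {x z C D : ℝ} (S : ℕ)
    (hx : 0 ≤ x) (hz : 0 ≤ z) (hC : 0 < C) (hD : 0 ≤ D)
    (hxz : x ≤ (2 : ℝ) ^ k * C * (D + 1) * z) :
    (((2 : ℝ) ^ k * 2 ^ k) * (D + 1) * C)⁻¹ * (x / (((d + 1).choose (i + 1) : ℝ) * (S : ℝ)))
      ≤ z / (((d + 1).choose (i + 1 + 1) : ℝ) * (S : ℝ)) := by
  rcases Nat.eq_zero_or_pos S with h0 | h0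
  · rw [h0, Nat.cast_zero, mul_zero, mul_zero, div_zero, div_zero, mul_zero]
  have hS : (0 : ℝ) < (S : ℝ) := by exact_mod_cast h0
  have hb : ((d + 1).choose (i + 1 + 1) : ℝ) ≤ (2 : ℝ) ^ k := by
    exact_mod_cast ((Nat.choose_le_two_pow (d + 1) (i + 1 + 1)).trans
      (Nat.pow_le_pow_right (by norm_num) hd))
  have hc1 : (1 : ℝ) ≤ ((d + 1).choose (i + 1) : ℝ) := by
    exact_mod_cast Nat.choose_pos (show i + 1 ≤ d + 1 by omega)
  have hc2 : (0 : ℝ) < ((d + 1).choose (i + 1 + 1) : ℝ) := by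
    exact_mod_cast Nat.choose_pos (show i + 1 + 1 ≤ d + 1 by omega)
  set Q : ℝ := (2 : ℝ) ^ k * 2 ^ k * (D + 1) * C with hQ
  have hQpos : 0 < Q := by positivity
  calc Q⁻¹ * (x / (((d + 1).choose (i + 1) : ℝ) * (S : ℝ)))
      ≤ Q⁻¹ * (x / (S : ℝ)) := by
        refine mul_le_mul_of_nonneg_left (div_le_div_of_nonneg_left hx hS ?_) (by positivity)
        exact le_mul_of_one_le_left hS.le hc1
    _ ≤ z / ((2 : ℝ) ^ k * (S : ℝ)) := by
        rw [← mul_div_assoc, div_le_div_iff₀ hS (by positivity), inv_mul_eq_div,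
          div_mul_eq_mul_div, div_le_iff₀ hQpos, hQ]
        calc x * (2 ^ k * (S : ℝ))
            ≤ (2 : ℝ) ^ k * C * (D + 1) * z * (2 ^ k * (S : ℝ)) :=
              mul_le_mul_of_nonneg_right hxz (by positivity)
          _ = _ := by ring
    _ ≤ z / (((d + 1).choose (i + 1 + 1) : ℝ) * (S : ℝ)) := by
        refine div_le_div_of_nonneg_left hz (mul_pos hc2 hS) ?_
        exact mul_le_mul_of_nonneg_right hb hS.le

/-- Raw degrees: the skeleton against the complex. -/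
theorem raw_le {k d i Deg : ℕ} (hT : ∀ τ ∈ T, τ.card = k) (hd : d + 1 ≤ k) (hi : i < d)
    (hDeg : ∀ σ : Finset V, σ.Nonempty → deg T σ ≤ Deg) {C : ℝ} (hC : 0 ≤ C)
    {A B : Finset (Finset V)} (hB : B ⊆ mFaces T (i + 1 + 1))
    (hh : (wt T A : ℝ) ≤ C * wt T B) :
    (∑ φ ∈ A, (((mFaces T (d + 1)).filter fun π => φ ⊆ π).card : ℝ))
      ≤ (2 : ℝ) ^ k * C * ((Deg : ℝ) + 1)
        * ∑ φ ∈ B, (((mFaces T (d + 1)).filter fun π => φ ⊆ π).card : ℝ) := by
  have h1 : ∀ φ : Finset V, ((mFaces T (d + 1)).filter fun π => φ ⊆ π).card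
      ≤ 2 ^ k * deg T φ := by
    intro φ
    refine le_trans ?_ (sum_deg_le (T := T) (m := d) hT φ)
    rw [Finset.card_eq_sum_ones]
    refine Finset.sum_le_sum fun π hπ => ?_
    obtain ⟨τ, h1, h2⟩ := (mem_mFaces.1 (Finset.mem_filter.1 hπ).1).2
    exact Finset.card_pos.2 ⟨τ, Finset.mem_filter.2 ⟨h1, h2⟩⟩
  have h2 : ∀ φ ∈ B, deg T φ ≤ Deg * ((mFaces T (d + 1)).filter fun π => φ ⊆ π).card := by
    intro φ hφ
    obtain ⟨hc, τ, hτ, hs⟩ := mem_mFaces.1 (hB hφ)
    refine (hDeg φ (Finset.card_pos.1 (by omega))).trans (Nat.le_mul_of_pos_right _ ?_)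
    obtain ⟨π, h1, h2, h3⟩ := Finset.exists_subsuperset_card_eq (n := d + 1) hs (by omega)
      (by rw [hT τ hτ]; omega)
    exact Finset.card_pos.2 ⟨π, Finset.mem_filter.2 ⟨mem_mFaces.2 ⟨h3, τ, hτ, h2⟩, h1⟩⟩
  set x : ℝ := ∑ φ ∈ A, (((mFaces T (d + 1)).filter fun π => φ ⊆ π).card : ℝ) with hx
  set z : ℝ := ∑ φ ∈ B, (((mFaces T (d + 1)).filter fun π => φ ⊆ π).card : ℝ) with hz
  have hxA : x ≤ (2 : ℝ) ^ k * wt T A := by
    rw [hx, wt, Nat.cast_sum, Finset.mul_sum]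
    refine Finset.sum_le_sum fun φ _ => ?_
    exact ((Nat.cast_le (α := ℝ)).2 (h1 φ)).trans_eq (by rw [Nat.cast_mul, Nat.cast_pow,
      Nat.cast_ofNat])
  have hBz : (wt T B : ℝ) ≤ (Deg : ℝ) * z := by
    rw [hz, wt, Nat.cast_sum, Finset.mul_sum]
    refine Finset.sum_le_sum fun φ hφ => ?_
    exact ((Nat.cast_le (α := ℝ)).2 (h2 φ hφ)).trans_eq (Nat.cast_mul _ _)
  have hz0 : 0 ≤ z := Finset.sum_nonneg fun _ _ => Nat.cast_nonneg _
  clear_value x z
  calc x ≤ (2 : ℝ) ^ k * (C * ((Deg : ℝ) * z)) :=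
        hxA.trans (mul_le_mul_of_nonneg_left
          (hh.trans (mul_le_mul_of_nonneg_left hBz hC)) (by positivity))
    _ ≤ (2 : ℝ) ^ k * (C * (((Deg : ℝ) + 1) * z)) := by gcongr; linarith
    _ = _ := by ring

/-- Expansion of the skeleton (module A): the pair-graph threshold depends only on `k, d, N, κ`;
the expansion constant also on the degree. -/
theorem isExpander_skeleton (k d N : ℕ) (hdk : d + 2 ≤ k) {κ : ℝ} (hκ : 0 ≤ κ) :
    ∃ lam0 : ℝ, 0 < lam0 ∧ ∀ Deg : ℕ, ∃ ε : ℝ, 0 < ε ∧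
      ∀ (V : Type*) [Fintype V] (ι : Type*) (K : Cplx V) (T : Finset (Finset V))
        (ty : V → ι) (Γ : Subgroup (Equiv.Perm V)),
        (∀ φ, K.face φ ↔ IsFace T φ) →
        (∀ τ ∈ T, τ.card = k) → (∀ τ ∈ T, Set.InjOn ty τ) →
        (∀ γ ∈ Γ, ∀ v, ty (γ v) = ty v) → (∀ γ ∈ Γ, ∀ τ ∈ T, τ.image γ ∈ T) →
        (∀ τ ∈ T, ∀ τ' ∈ T, ∃ γ ∈ Γ, τ.image γ = τ') →
        (∀ σ : Finset V, σ.Nonempty → deg T σ ≤ Deg) →
        (∀ σ : Finset V, σ.Nonempty → σ.card ≤ d + 1 → IsFace T σ → (K.link σ).Cone (d + 2) N) →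
        (∀ m ≤ d + 1, Mixing T m κ lam0) →
        K.Ex (d + 1) →
        IsExpander (skelTops T d) d ε := by
  set M : ℝ := ((d + 1 : ℕ) : ℝ) with hM
  set C0 : ℝ := (M + 1) * (2 ^ k * κ * M * M * M ^ (d + 1)) with hC0
  set εl : ℝ := ((2 : ℝ) ^ k * ((N : ℝ) + 1))⁻¹ with hεl
  have hεlpos : 0 < εl := by positivity
  have hC0pos : 0 ≤ C0 := by positivity
  set η : ℝ := min 1 (εl / (2 * (C0 + 1))) with hη_def
  have hη : 0 < η := lt_min one_pos (by positivity)
  have hη1 : η ≤ 1 := min_le_left _ _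
  set E : ℕ := 2 ^ (d + 2) with hE
  set lam0 : ℝ := εl / (2 * (C0 + 1)) * η ^ E with hlam0
  refine ⟨lam0, by positivity, fun Deg => ?_⟩
  set C : ℝ := (2 : ℝ) ^ k * Deg + (2 : ℝ) ^ k * M ^ (d + 1) / η ^ E with hC
  have hM1 : 1 ≤ M := by rw [hM]; exact_mod_cast Nat.le_add_left 1 d
  have hCpos : 0 < C := add_pos_of_nonneg_of_pos (by positivity) (by positivity)
  set Q : ℝ := ((2 : ℝ) ^ k * 2 ^ k) * ((Deg : ℝ) + 1) * C with hQ
  refine ⟨Q⁻¹, by positivity, ?_⟩
  intro V _ ι K T ty Γ hface hT hty hΓty hΓT htrans hDeg hcone hmix hEx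
  have hd : d + 1 ≤ k := by omega
  set e := Fintype.equivFin V
  intro i hi f
  set f' : Finset V → ZMod 2 := fun σ => f (σ.image e) with hf'
  -- hypotheses of the global step
  have hmm : (i + 1 + 1 : ℕ) ≤ d + 1 := by omega
  have hexp : LinkExp T (i + 1 + 1) εl := by
    refine linkExp_of_bound (C := (2 : ℝ) ^ k * ((N : ℝ) + 1)) (by positivity) ?_
    intro σ hσ hc hf g hg
    obtain ⟨h, h1, h2⟩ := linkBound_of_cone K hface hT ty hty Γ hΓty hΓT htrans hf
      (m := i + 1 + 1) (by omega) (hcone σ hσ (by omega) hf) g hg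
    refine ⟨h, h1, ?_⟩
    calc (wt T (supp T (i + 1 + 1) (g + dl h)) : ℝ)
        ≤ ((2 ^ k * N * wt T (supp T (i + 1 + 1 + 1) (dl g)) : ℕ) : ℝ) := by exact_mod_cast h2
      _ ≤ (2 : ℝ) ^ k * ((N : ℝ) + 1) * wt T (supp T (i + 1 + 1 + 1) (dl g)) := by
          push_cast
          exact mul_le_mul_of_nonneg_right
            (mul_le_mul_of_nonneg_left (by linarith) (by positivity)) (Nat.cast_nonneg _)
  have hpow : 2 ^ (i + 1 + 1 + 1) ≤ E := Nat.pow_le_pow_right (by norm_num) (by omega)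
  have hm1 : ((i + 1 + 1 : ℕ) : ℝ) ≤ M := by rw [hM]; exact_mod_cast hmm
  have hmpow : ((i + 1 + 1 : ℕ) : ℝ) ^ (i + 1 + 1) ≤ M ^ (d + 1) :=
    (pow_le_pow_left₀ (Nat.cast_nonneg _) hm1 _).trans (pow_le_pow_right₀ hM1 hmm)
  have hsmallη : (((i + 1 + 1 : ℕ) : ℝ) + 1) * (2 ^ k * κ * (i + 1 + 1 : ℕ) * (i + 1 + 1 : ℕ)
      * ((i + 1 + 1 : ℕ) : ℝ) ^ (i + 1 + 1) * (η ^ 2 + lam0 / η ^ 2 ^ (i + 1 + 1 + 1))) < εl := by
    have h1 : η ^ 2 + lam0 / η ^ 2 ^ (i + 1 + 1 + 1) ≤ εl / (C0 + 1) := by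
      have ha : η ^ 2 ≤ εl / (2 * (C0 + 1)) := by
        refine le_trans ?_ (min_le_right 1 _)
        calc η ^ 2 ≤ η ^ 1 := pow_le_pow_of_le_one hη.le hη1 (by norm_num)
          _ = η := pow_one _
      have hb : lam0 / η ^ 2 ^ (i + 1 + 1 + 1) ≤ εl / (2 * (C0 + 1)) := by
        rw [div_le_iff₀ (by positivity), hlam0]
        exact mul_le_mul_of_nonneg_left (pow_le_pow_of_le_one hη.le hη1 hpow) (by positivity)
      calc _ ≤ εl / (2 * (C0 + 1)) + εl / (2 * (C0 + 1)) := add_le_add ha hb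
        _ = εl / (C0 + 1) := by field_simp; ring
    calc _ ≤ (M + 1) * (2 ^ k * κ * M * M * M ^ (d + 1) * (εl / (C0 + 1))) := by gcongr
      _ = C0 / (C0 + 1) * εl := by rw [hC0]; ring
      _ < εl := by
          refine mul_lt_of_lt_one_left hεlpos ?_
          rw [div_lt_one (by positivity)]
          linarith
  obtain ⟨h, hh⟩ := exists_coboundary_bound (T := T) (j := i + 1) hT (by omega) hκ
    (show 0 ≤ lam0 by positivity) hexp (hmix _ hmm) hη hη1 hsmallη hDeg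
    (fun g hg => exact_of_Ex K hface (by omega) hEx g hg) (C := C)
    (le_add_of_nonneg_right (by positivity))
    (by
      refine le_trans ?_ (le_add_of_nonneg_left (by positivity))
      refine (div_le_div_of_nonneg_right (mul_le_mul_of_nonneg_left hmpow (by positivity))
        (by positivity)).trans ?_
      exact div_le_div_of_nonneg_left (by positivity) (by positivity)
        (pow_le_pow_of_le_one hη.le hη1 hpow)) f'
  obtain ⟨a, ha, hav⟩ := exists_bdry (T := T) hT hd hi h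
  refine ⟨a, ha, ?_⟩
  -- comparing the two weights
  have hsupp1 : supp T (i + 1) (fun σ => (f - a) (σ.image e)) = supp T (i + 1) (f' + dl h) := by
    refine Finset.filter_congr fun φ hφ => ?_
    simp only [Pi.sub_apply, Pi.add_apply, hf']
    rw [hav φ hφ, CharTwo.sub_eq_add]
  have hsupp2 : supp T (i + 1 + 1) (fun σ => cob (skelTops T d) i f (σ.image e))
      = supp T (i + 1 + 1) (dl f') := by
    refine Finset.filter_congr fun φ hφ => ?_
    show cob (skelTops T d) i f (φ.image (Fintype.equivFin V)) ≠ 0 ↔ _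
    rw [cob_skelTops hT hd hi f hφ]
  rw [cNorm_skelTops hT hd hi.le, cNorm_skelTops hT hd hi, hsupp1, hsupp2, hQ]
  exact compare_norms hd hi _ (Finset.sum_nonneg fun _ _ => Nat.cast_nonneg _)
    (Finset.sum_nonneg fun _ _ => Nat.cast_nonneg _) hCpos (Nat.cast_nonneg _)
    (raw_le hT hd hi hDeg hCpos.le (supp_subset _) hh)

end Vale.Agent.P067.Cob
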