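import Vale.Agent.P067.Cob.FramesBase
import Vale.Agent.P067.Cob.Corner

/-!
The frame complexes of the finite group `GG` and of the intersections of its vertex groups.
-/

namespace Vale.Agent.P067.Cob.Frames

open Finset Polynomial Matrix

open scoped Classical

attribute [-instance] Sigma.instDecidableEqSigma instDecidableEqSigma

section Ring

variable (p s : ℕ)

theorem one_notMem_tt [Fact p.Prime] (hs : 1 ≤ s) : (1 : AR p s) ∉ Ideal.span {tt p s} := by
  intro h
  obtain ⟨a, ha⟩ := Ideal.mem_span_singleton'.1 h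
  obtain ⟨f, rfl⟩ := Ideal.Quotient.mk_surjective a
  rw [tt, ← map_mul, ← map_one (Ideal.Quotient.mk (Ideal.span {(X : (ZMod p)[X]) ^ s})),
    Ideal.Quotient.eq, Ideal.mem_span_singleton] at ha
  have h1 : (X : (ZMod p)[X]) ∣ f * X - 1 := (dvd_pow_self X (by omega)).trans ha
  rw [X_dvd_iff] at h1
  simp at h1

theorem isUnit_of_notMem_tt [Fact p.Prime] (a : AR p s) (ha : a ∉ Ideal.span {tt p s}) :
    IsUnit a := by
  obtain ⟨f, rfl⟩ := Ideal.Quotient.mk_surjective a
  have hX : ¬ (X : (ZMod p)[X]) ∣ f := fun ⟨c, hc⟩ => ha (Ideal.mem_span_singleton'.2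
    ⟨Ideal.Quotient.mk _ c, by rw [tt, ← map_mul, hc, mul_comm]⟩)
  obtain ⟨u, w, h⟩ := ((irreducible_X.coprime_iff_not_dvd).2 hX).pow_left (m := s)
  refine IsUnit.of_mul_eq_one (Ideal.Quotient.mk _ w) ?_
  rw [← map_mul, ← map_one (Ideal.Quotient.mk (Ideal.span {(X : (ZMod p)[X]) ^ s})),
    Ideal.Quotient.eq, Ideal.mem_span_singleton]
  exact ⟨-u, by linear_combination h⟩

theorem finite_AR [Fact p.Prime] : Finite (AR p s) := by
  refine Finite.of_surjective (fun c : Fin s → ZMod p =>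
    Ideal.Quotient.mk (Ideal.span {(X : (ZMod p)[X]) ^ s}) (∑ i, C (c i) * X ^ i.1)) fun a => ?_
  obtain ⟨f, rfl⟩ := Ideal.Quotient.mk_surjective a
  refine ⟨fun i => f.coeff i, ?_⟩
  rw [Ideal.Quotient.eq, Ideal.mem_span_singleton, X_pow_dvd_iff]
  intro d hd
  rw [coeff_sub, finsetSum_coeff, sub_eq_zero, Finset.sum_eq_single (⟨d, hd⟩ : Fin s)]
  · simp
  · intro b _ hb
    rw [coeff_C_mul_X_pow, if_neg fun e => hb (Fin.ext e.symm)]
  · simp

end Ring

section Pool

variable (p k : ℕ) [NeZero k] [Fact p.Prime] (s : ℕ)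

theorem mem_PG {g : GG p k s} {n : Fin k} : g ∈ PG p k s n ↔
    ∀ m, mat g m n = (1 : Matrix (Fin k) (Fin k) (AR p s)) m n ∧
      mat g n m = (1 : Matrix (Fin k) (Fin k) (AR p s)) n m := by
  simp only [Matrix.one_apply]
  rfl

/-- The order of a set of types: before along every cyclic order starting in it. -/
def lT (T : Finset (Fin k)) (m l : Fin k) : Prop := T.Nonempty ∧ ∀ i ∈ T, ltc i m l

omit [NeZero k] in
theorem lT_trans (T : Finset (Fin k)) (a b c : Fin k) : lT k T a b → lT k T b c → lT k T a c :=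
  fun h h' => ⟨h.1, fun i hi => ltc_trans i a b c (h.2 i hi) (h'.2 i hi)⟩

omit [NeZero k] in
theorem lT_asymm (T : Finset (Fin k)) (a b : Fin k) : lT k T a b → ¬ lT k T b a := fun h h' => by
  obtain ⟨i, hi⟩ := h.1
  exact ltc_asymm i a b (h.2 i hi) (h'.2 i hi)

omit [NeZero k] in
theorem lT_irrefl (T : Finset (Fin k)) (a : Fin k) : ¬ lT k T a a := fun h =>
  lT_asymm k T a a h h

theorem val_ofNat_of_lt {x : ℕ} (hx : x < k) : (Fin.ofNat k x).val = x := Nat.mod_eq_of_lt hx

/-- An interval with no cut in its interior is linearly ordered. -/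
theorem lT_of_interval {T : Finset (Fin k)} (hT : T.Nonempty) (a : Fin k) {L : ℕ} (hL : L ≤ k)
    (hcut : ∀ z, 0 < z → z < L → a + Fin.ofNat k z ∉ T) {x y : ℕ} (hxy : x < y) (hy : y < L) :
    lT k T (a + Fin.ofNat k x) (a + Fin.ofNat k y) := by
  refine ⟨hT, fun i hi => ?_⟩
  have ei : a + Fin.ofNat k (i - a).val = i := by
    rw [Fin.ofNat_val_eq_self, add_sub_cancel]
  have hi0 : (i - a).val = 0 ∨ L ≤ (i - a).val := by
    by_contra h
    push Not at h
    exact hcut _ (Nat.pos_of_ne_zero h.1) h.2 (by rwa [ei])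
  have e : ∀ z, z < L → (a + Fin.ofNat k z - i).val =
      if (i - a).val ≤ z then z - (i - a).val else k + z - (i - a).val := by
    intro z hz
    rw [show a + Fin.ofNat k z - i = Fin.ofNat k z - (i - a) by abel, val_sub_eq,
      val_ofNat_of_lt k (by omega)]
  rw [ltc, e x (by omega), e y hy]
  have := (i - a).isLt
  split_ifs <;> omega

/-- The potential giving the degrees along the cyclic order starting at `i`. -/
def pot (i m : Fin k) : ℕ := if m < i then 1 else 0

omit [NeZero k] in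
theorem dlt_pot {i m l : Fin k} (h : ltc i m l) : dlt m l + pot k i m = pot k i l := by
  unfold ltc at h
  unfold dlt pot
  have hm := m.isLt; have hl := l.isLt; have hi := i.isLt
  rw [val_sub_eq, val_sub_eq] at h
  simp only [Fin.lt_def]
  split_ifs at * <;> omega

/-- The twist of a matrix of pattern `lT T`. -/
noncomputable def twist (M : Matrix (Fin k) (Fin k) (ZMod p)) :
    Matrix (Fin k) (Fin k) (ZMod p)[X] :=
  fun m l => if m = l then 1 else C (M m l) * X ^ dlt m l

variable {k} in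
theorem pot_twist {T : Finset (Fin k)} (g : Pat (⊥ : Ideal (ZMod p)) (lT k T) (lT_trans k T)
    (lT_asymm k T)) {i : Fin k} (hi : i ∈ T) :
    diagonal (fun m => (X : (ZMod p)[X]) ^ pot k i m) * twist p k (mat g) =
      (mat g).map C * diagonal (fun m => (X : (ZMod p)[X]) ^ pot k i m) := by
  ext1 m l
  rw [diagonal_mul, mul_diagonal, Matrix.map_apply, twist]
  by_cases h : m = l
  · subst h
    have : mat g m m = 1 := sub_eq_zero.1 (Ideal.mem_bot.1 (g.2.2 m))
    rw [if_pos rfl, this, map_one, mul_one, one_mul]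
  · rw [if_neg h]
    by_cases hl : lT k T m l
    · rw [← dlt_pot k (hl.2 i hi), pow_add]
      ring
    · have : mat g m l = 0 := Ideal.mem_bot.1 (g.2.1 m l h hl)
      rw [this, map_zero]
      simp

variable {k} in
theorem pot_cancel (i : Fin k) {M N : Matrix (Fin k) (Fin k) (ZMod p)[X]}
    (h : diagonal (fun m => (X : (ZMod p)[X]) ^ pot k i m) * M =
      diagonal (fun m => (X : (ZMod p)[X]) ^ pot k i m) * N) : M = N := by
  ext1 m l
  have := congrFun (congrFun h m) l
  rw [diagonal_mul, diagonal_mul] at this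
  exact mul_left_cancel₀ (pow_ne_zero _ X_ne_zero) this

variable {k} in
theorem det_twist {T : Finset (Fin k)} (g : Pat (⊥ : Ideal (ZMod p)) (lT k T) (lT_trans k T)
    (lT_asymm k T)) {i : Fin k} (hi : i ∈ T) : (twist p k (mat g)).det = 1 := by
  have h := congrArg Matrix.det (pot_twist p g hi)
  have hdet : (mat g).det = 1 := g.1.2
  rw [det_mul, det_mul, det_diagonal, ← RingHom.mapMatrix_apply C, ← RingHom.map_det, hdet,
    map_one, one_mul, mul_eq_left₀] at h
  · exact h
  · exact Finset.prod_ne_zero_iff.2 fun m _ => pow_ne_zero _ X_ne_zero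

variable {k} in
/-- The vertex group pattern inside the polynomial group. -/
noncomputable def phiT (T : Finset (Fin k)) (hT : T.Nonempty) :
    Pat (⊥ : Ideal (ZMod p)) (lT k T) (lT_trans k T) (lT_asymm k T) →* Gam p k where
  toFun g := ⟨⟨twist p k (mat g), det_twist p g hT.choose_spec⟩, by
    refine ⟨fun m l hml h => ?_, fun m => by simp [twist]⟩
    show twist p k (mat g) m l ∈ _
    have : l < m := lt_of_le_of_ne (not_lt.1 h) (Ne.symm hml)
    simp only [twist, if_neg hml, dlt, if_pos this, pow_one]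
    exact Ideal.mul_mem_left _ _ (Ideal.mem_span_singleton_self _)⟩
  map_one' := by
    apply Subtype.ext; apply Subtype.ext
    ext1 m l
    show twist p k 1 m l = (1 : Matrix (Fin k) (Fin k) (ZMod p)[X]) m l
    by_cases h : m = l <;> simp [twist, h, one_apply]
  map_mul' g h := by
    apply Subtype.ext; apply Subtype.ext
    show twist p k (mat (g * h)) = twist p k (mat g) * twist p k (mat h)
    apply pot_cancel p hT.choose
    rw [pot_twist p (g * h) hT.choose_spec, ← Matrix.mul_assoc, pot_twist p g hT.choose_spec,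
      Matrix.mul_assoc, pot_twist p h hT.choose_spec, ← Matrix.mul_assoc, mat_mul, Matrix.map_mul]

variable {k}

theorem phiT_apply {T : Finset (Fin k)} (hT : T.Nonempty)
    (g : Pat (⊥ : Ideal (ZMod p)) (lT k T) (lT_trans k T) (lT_asymm k T)) (m l : Fin k) :
    (((phiT p T hT g).1 : Matrix (Fin k) (Fin k) (ZMod p)[X])) m l =
      if m = l then 1 else C (mat g m l) * X ^ dlt m l := rfl

theorem range_phiT {T : Finset (Fin k)} (hT : T.Nonempty) :
    (phiT p T hT).range = ⨅ i ∈ T, KGam p k i := by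
  ext g
  simp only [MonoidHom.mem_range, Subgroup.mem_iInf]
  constructor
  · rintro ⟨M, rfl⟩ i hi m l
    refine ⟨mat M m l, ?_⟩
    rw [phiT_apply]
    by_cases h : m = l
    · simp [h]
    · rw [if_neg h, if_neg h]
      by_cases hl : ltc i m l
      · rw [if_pos hl]
      · rw [if_neg hl]
        have : mat M m l = 0 := Ideal.mem_bot.1 (M.2.1 m l h fun h' => hl (h'.2 i hi))
        simp [this]
  · intro hg
    obtain ⟨i₀, hi₀⟩ := hT
    have hc : ∀ m l, ∃ c : ZMod p, (g.1 : Matrix (Fin k) (Fin k) (ZMod p)[X]) m l =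
        (if m = l then 1 else C c * X ^ dlt m l) ∧ (m ≠ l → ¬ lT k T m l → c = 0) := by
      intro m l
      by_cases h : m = l
      · obtain ⟨c, hc⟩ := hg i₀ hi₀ m l
        rw [if_pos h] at hc
        exact ⟨0, by rw [if_pos h, hc], fun h' => absurd h h'⟩
      by_cases hl : lT k T m l
      · obtain ⟨c, hc⟩ := hg i₀ hi₀ m l
        rw [if_neg h, if_pos (hl.2 i₀ hi₀)] at hc
        exact ⟨c, by rw [if_neg h, hc], fun _ h' => absurd hl h'⟩
      · obtain ⟨i, hi, hil⟩ : ∃ i ∈ T, ¬ ltc i m l := by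
          by_contra h'
          exact hl ⟨⟨i₀, hi₀⟩, fun i hi => by_contra fun h'' => h' ⟨i, hi, h''⟩⟩
        obtain ⟨c, hc⟩ := hg i hi m l
        rw [if_neg h, if_neg hil] at hc
        exact ⟨0, by rw [if_neg h, hc]; simp, fun _ _ => rfl⟩
    choose c hc hc0 using hc
    set M : Matrix (Fin k) (Fin k) (ZMod p) := Matrix.of fun m l => if m = l then 1 else c m l
      with hM
    have hMd : ∀ m, M m m = 1 := fun m => by rw [hM, Matrix.of_apply, if_pos rfl]
    have hMo : ∀ m l, m ≠ l → M m l = c m l := fun m l h => by rw [hM, Matrix.of_apply, if_neg h]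
    have e : twist p k M = (g.1 : Matrix (Fin k) (Fin k) (ZMod p)[X]) := by
      ext1 m l
      rw [hc m l, twist]
      by_cases h : m = l
      · simp [h]
      · simp [h, hMo m l h]
    have e2 : diagonal (fun m => (X : (ZMod p)[X]) ^ pot k i₀ m) * twist p k M =
        M.map C * diagonal (fun m => (X : (ZMod p)[X]) ^ pot k i₀ m) := by
      ext1 m l
      rw [diagonal_mul, mul_diagonal, Matrix.map_apply, twist]
      by_cases h : m = l
      · subst h; simp [hMd]
      · rw [if_neg h]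
        by_cases hl : lT k T m l
        · rw [← dlt_pot k (hl.2 i₀ hi₀), pow_add]
          ring
        · simp [hMo m l h, hc0 m l h hl]
    have hdet : M.det = 1 := by
      have h := congrArg Matrix.det e2
      have hg1 : (g.1 : Matrix (Fin k) (Fin k) (ZMod p)[X]).det = 1 := g.1.2
      rw [e, det_mul, det_mul, hg1, mul_one, det_diagonal, ← RingHom.mapMatrix_apply C,
        ← RingHom.map_det] at h
      have h0 : (∏ m, (X : (ZMod p)[X]) ^ pot k i₀ m) ≠ 0 :=
        Finset.prod_ne_zero_iff.2 fun m _ => pow_ne_zero _ X_ne_zero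
      exact C_injective (by rw [map_one]; exact mul_right_cancel₀ h0 (by rw [one_mul, ← h]))
    refine ⟨⟨⟨M, hdet⟩, fun m l h hl => ?_, fun m => ?_⟩, ?_⟩
    · exact Ideal.mem_bot.2 (by show M m l = 0; rw [hMo m l h, hc0 m l h hl])
    · exact Ideal.mem_bot.2 (by show M m m - 1 = 0; rw [hMd, sub_self])
    · apply Subtype.ext; apply Subtype.ext
      exact e

theorem red_apply (g : Gam p k) (m l : Fin k) :
    mat (red p k s g) m l =
      Ideal.Quotient.mk (Ideal.span {(X : (ZMod p)[X]) ^ s})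
        ((g.1 : Matrix (Fin k) (Fin k) (ZMod p)[X]) m l) := rfl

theorem eq_of_mk_eq (hs : 2 ≤ s) {f g : (ZMod p)[X]} (hf : f.natDegree ≤ 1) (hg : g.natDegree ≤ 1)
    (h : Ideal.Quotient.mk (Ideal.span {(X : (ZMod p)[X]) ^ s}) f =
      Ideal.Quotient.mk (Ideal.span {(X : (ZMod p)[X]) ^ s}) g) : f = g := by
  rw [Ideal.Quotient.eq, Ideal.mem_span_singleton] at h
  refine sub_eq_zero.1 (eq_zero_of_dvd_of_natDegree_lt h ?_)
  rw [natDegree_X_pow]
  exact lt_of_le_of_lt (natDegree_sub_le f g) (by omega)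

theorem natDegree_KGam {i : Fin k} {g : Gam p k} (hg : g ∈ KGam p k i) (m l : Fin k) :
    ((g.1 : Matrix (Fin k) (Fin k) (ZMod p)[X]) m l).natDegree ≤ 1 := by
  obtain ⟨c, hc⟩ := hg m l
  rw [hc]
  split_ifs with h1 h2
  · simp
  · exact (natDegree_C_mul_X_pow_le c (dlt m l)).trans (by unfold dlt; split_ifs <;> omega)
  · simp

/-- Reduction is injective on the union of the vertex groups. -/
theorem red_inj (hs : 2 ≤ s) {i j : Fin k} {g h : Gam p k} (hg : g ∈ KGam p k i)
    (hh : h ∈ KGam p k j) (e : red p k s g = red p k s h) : g = h := by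
  apply Subtype.ext; apply Subtype.ext
  ext1 m l
  refine eq_of_mk_eq p s hs (natDegree_KGam p hg m l) (natDegree_KGam p hh m l) ?_
  rw [← red_apply, ← red_apply, e]

/-- The intersection of the vertex groups of `T` as the image of its pattern group. -/
noncomputable def psiT (T : Finset (Fin k)) (hT : T.Nonempty) :
    Pat (⊥ : Ideal (ZMod p)) (lT k T) (lT_trans k T) (lT_asymm k T) →* GG p k s :=
  (red p k s).comp (phiT p T hT)

theorem range_psiT (hs : 2 ≤ s) {T : Finset (Fin k)} (hT : T.Nonempty) :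
    (psiT p s T hT).range = ⨅ i ∈ T, KG p k s i := by
  rw [psiT, MonoidHom.range_comp, range_phiT]
  ext x
  simp only [Subgroup.mem_map, Subgroup.mem_iInf, KG]
  constructor
  · rintro ⟨g, hg, rfl⟩ i hi
    exact ⟨g, hg i hi, rfl⟩
  · intro h
    obtain ⟨i₀, hi₀⟩ := hT
    obtain ⟨g, hg, rfl⟩ := h i₀ hi₀
    refine ⟨g, fun i hi => ?_, rfl⟩
    obtain ⟨g', hg', e⟩ := h i hi
    rwa [red_inj p s hs hg hg' e.symm]

theorem phiT_mem {T : Finset (Fin k)} (hT : T.Nonempty)
    (g : Pat (⊥ : Ideal (ZMod p)) (lT k T) (lT_trans k T) (lT_asymm k T)) {i : Fin k}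
    (hi : i ∈ T) : phiT p T hT g ∈ KGam p k i := by
  have h : phiT p T hT g ∈ ⨅ i ∈ T, KGam p k i := range_phiT p hT ▸ ⟨g, rfl⟩
  simp only [Subgroup.mem_iInf] at h
  exact h i hi

theorem mk_twist_eq_one (hs : 2 ≤ s) (M : Matrix (Fin k) (Fin k) (ZMod p)) {a b : Fin k}
    (hab : a ≠ b) : Ideal.Quotient.mk (Ideal.span {(X : (ZMod p)[X]) ^ s})
      (twist p k M a b) = 0 ↔ M a b = 0 := by
  rw [twist, if_neg hab]
  constructor
  · intro h
    have := eq_of_mk_eq p s hs (g := 0) ((natDegree_C_mul_X_pow_le (M a b) (dlt a b)).trans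
      (by unfold dlt; split_ifs <;> omega)) (by simp) (by rw [h, map_zero])
    simpa [X_ne_zero] using this
  · intro h; simp [h]

theorem psiT_mem_PG (hs : 2 ≤ s) {T : Finset (Fin k)} (hT : T.Nonempty)
    (g : Pat (⊥ : Ideal (ZMod p)) (lT k T) (lT_trans k T) (lT_asymm k T)) (n : Fin k) :
    psiT p s T hT g ∈ PG p k s n ↔
      g ∈ stabN (⊥ : Ideal (ZMod p)) (lT k T) (lT_trans k T) (lT_asymm k T) n := by
  have hd : ∀ a, mat g a a = 1 := fun a => sub_eq_zero.1 (Ideal.mem_bot.1 (g.2.2 a))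
  have hdd : ∀ a, mat (psiT p s T hT g) a a = 1 := fun a => by
    rw [psiT, MonoidHom.comp_apply, red_apply, phiT_apply, if_pos rfl, map_one]
  have he : ∀ {a b : Fin k}, a ≠ b → (mat (psiT p s T hT g) a b = 0 ↔ mat g a b = 0) :=
    fun hab => by
      rw [psiT, MonoidHom.comp_apply, red_apply]
      exact mk_twist_eq_one p s hs (mat g) hab
  rw [mem_PG]
  show (∀ m, _) ↔ ∀ m, _
  refine forall_congr' fun m => ?_
  by_cases h : m = n
  · subst h
    simp [one_apply_eq, hdd, hd]
  · rw [one_apply_ne h, one_apply_ne (Ne.symm h), one_apply_ne h, one_apply_ne (Ne.symm h),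
      he h, he (Ne.symm h)]

end Pool

section Transfer

theorem bd_vpush {V W : Type*} {f : V → W} (hf : Function.Injective f) (z : Chain V) :
    bd (vpush f z) = vpush f (bd z) := by
  conv_lhs => rw [← Finsupp.sum_single z]
  conv_rhs => rw [← Finsupp.sum_single z]
  simp only [Finsupp.sum, map_sum]
  refine sum_congr rfl fun σ _ => ?_
  rw [vpush, Finsupp.lmapDomain_apply, Finsupp.mapDomain_single, bd_single, bd_single, map_sum,
    sum_image hf.injOn]
  refine sum_congr rfl fun v _ => ?_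
  rw [Finsupp.lmapDomain_apply, Finsupp.mapDomain_single, image_erase hf]

/-- Exactness passes to a complex whose faces are images under an injective vertex map. -/
theorem ex_of_injective {V W : Type*} {K : Cplx V} {L : Cplx W} {f : V → W}
    (hf : Function.Injective f) (h1 : ∀ σ, K.face σ → L.face (σ.image f))
    (h2 : ∀ τ, L.face τ → ∃ σ, K.face σ ∧ σ.image f = τ) {m : ℕ} (h : K.Ex m) : L.Ex m := by
  intro j hj z hz hbz
  have hinj : Function.Injective (fun σ : Finset V => σ.image f) := image_injective hf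
  have hmem : ↑z.support ⊆ Set.range (fun σ : Finset V => σ.image f) := fun τ hτ => by
    obtain ⟨σ, -, e⟩ := h2 τ (hz hτ).1
    exact ⟨σ, e⟩
  set z' := Finsupp.comapDomain (fun σ : Finset V => σ.image f) z hinj.injOn with hz'
  have e : vpush f z' = z := Finsupp.mapDomain_comapDomain _ hinj z hmem
  have hz'c : z' ∈ K.chains j := by
    intro σ hσ
    rw [Finset.mem_coe, hz', Finsupp.comapDomain_support, mem_preimage] at hσ
    obtain ⟨hf', hc⟩ := hz hσ
    obtain ⟨σ', hσ', e'⟩ := h2 _ hf'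
    rw [hinj e'] at hσ'
    exact ⟨hσ', by rwa [card_image_of_injective _ hf] at hc⟩
  have hb : bd z' = 0 := by
    apply Finsupp.mapDomain_injective hinj
    rw [Finsupp.mapDomain_zero]
    show vpush f (bd z') = 0
    rw [← bd_vpush hf, e, hbz]
  obtain ⟨w, hw, hwb⟩ := h j hj z' hz'c hb
  refine ⟨vpush f w, ?_, by rw [bd_vpush hf, hwb, e]⟩
  intro τ hτ
  obtain ⟨σ, hσ, rfl⟩ := mem_image.1 (Finsupp.mapDomain_support (Finset.mem_coe.1 hτ))
  exact ⟨h1 σ (hw hσ).1, by rw [card_image_of_injective _ hf]; exact (hw hσ).2⟩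

end Transfer

section Pullback

/-- Exactness of a coset complex passes along a surjective homomorphism. -/
theorem ex_of_surjective {G' G ι : Type*} [Group G'] [Group G] (ψ : G' →* G)
    (hψ : Function.Surjective ψ) (K' : ι → Subgroup G') (K : ι → Subgroup G)
    (hK : ∀ n a, a ∈ K' n ↔ ψ a ∈ K n) (R : Finset ι) {m : ℕ} (h : (coset K' R).Ex m) :
    (coset K R).Ex m := by
  have hcomp : ∀ n a b, a⁻¹ * b ∈ K' n ↔ (ψ a)⁻¹ * ψ b ∈ K n := fun n a b => by
    rw [hK, map_mul, map_inv]
  let f : (n : ι) × (G' ⧸ K' n) → (n : ι) × (G ⧸ K n) := fun v =>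
    ⟨v.1, Quotient.liftOn' v.2 (fun a => ((ψ a : G) : G ⧸ K v.1))
      fun a b hab => QuotientGroup.eq.2 ((hcomp v.1 a b).1 (QuotientGroup.leftRel_apply.1 hab))⟩
  have hf : Function.Injective f := by
    rintro ⟨n, a⟩ ⟨n', b⟩ e
    obtain rfl : n = n' := congrArg Sigma.fst e
    obtain ⟨a, rfl⟩ := QuotientGroup.mk_surjective a
    obtain ⟨b, rfl⟩ := QuotientGroup.mk_surjective b
    have e' : ((ψ a : G) : G ⧸ K n) = ((ψ b : G) : G ⧸ K n) := eq_of_heq (Sigma.mk.inj_iff.1 e).2
    exact Sigma.ext rfl (heq_of_eq (QuotientGroup.eq.2 ((hcomp n a b).2 (QuotientGroup.eq.1 e'))))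
  refine ex_of_injective hf ?_ ?_ h
  · rintro σ ⟨g, hg⟩
    refine ⟨ψ g, fun v hv => ?_⟩
    obtain ⟨w, hw, rfl⟩ := mem_image.1 hv
    refine ⟨(hg w hw).1, ?_⟩
    show Quotient.liftOn' w.2 _ _ = _
    rw [(hg w hw).2]
    rfl
  · rintro τ ⟨g, hg⟩
    obtain ⟨a, rfl⟩ := hψ g
    refine ⟨τ.image fun v => ⟨v.1, (a : G' ⧸ K' v.1)⟩, ⟨a, fun v hv' => ?_⟩, ?_⟩
    · obtain ⟨w, hw, rfl⟩ := mem_image.1 hv'
      exact ⟨(hg w hw).1, rfl⟩
    · rw [image_image]
      refine (image_congr fun v hv' => ?_).trans image_id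
      exact Sigma.ext rfl (heq_of_eq (hg v hv').2.symm)

end Pullback

end Vale.Agent.P067.Cob.Frames
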