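import Vale.Agent.P067.Cob.Corner
import Vale.Agent.P067.Cob.FramesInst

/-!
The pool complexes of orthogonal frames are acyclic (section D; owner helper24).
-/

namespace Vale.Agent.P067.Cob

open Finset

open scoped Classical

attribute [-instance] Sigma.instDecidableEqSigma instDecidableEqSigma

open Frames in
theorem frames_ex (m : ℕ) : ∃ c : ℕ, ∀ (p k : ℕ) [Fact p.Prime] [NeZero k], ∀ s, 2 ≤ s →
    ∀ T pool : Finset (Fin k), (T.card + 1) * c ≤ pool.card →
      (coset (fun n => (PG p k s n).subgroupOf (⨅ i ∈ T, KG p k s i)) pool).Ex m := by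
  refine ⟨frameBound m, fun p k _ _ s hs T pool hpool => ?_⟩
  rcases T.eq_empty_or_nonempty with rfl | hT
  · have htop : (⨅ i ∈ (∅ : Finset (Fin k)), KG p k s i) = ⊤ := by simp
    haveI := finite_AR p s
    have h : (coset (stabN (Ideal.span {tt p s}) (· < ·) (fun _ _ _ => lt_trans)
        (fun _ _ => lt_asymm) : Fin k → Subgroup (GG p k s)) pool).Ex m :=
      ex_frames (Ideal.span {tt p s}) (· < ·) (fun _ _ _ => lt_trans) (fun _ _ => lt_asymm)
        (tt p s) rfl (one_notMem_tt p s (by omega)) (isUnit_of_notMem_tt p s) (subset_refl pool)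
        (fun _ _ _ _ h => h.lt_or_gt) (by simpa using hpool)
    let ψ : GG p k s →* (⨅ i ∈ (∅ : Finset (Fin k)), KG p k s i : Subgroup (GG p k s)) :=
      MonoidHom.codRestrict (MonoidHom.id _) _ fun g => by
        show g ∈ _
        rw [htop]; exact Subgroup.mem_top g
    exact ex_of_surjective ψ (fun g => ⟨g.1, rfl⟩) _ _ (fun n a => by
      rw [Subgroup.mem_subgroupOf]
      exact (mem_PG p k s).symm) pool h
  · have hne : ∀ n : Fin k, ∃ i ∈ T, ∀ i' ∈ T, (n - i).val ≤ (n - i').val := fun n =>
      exists_min_image T _ hT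
    choose cut hcutT hcut using hne
    obtain ⟨i₀, -, hi₀⟩ := exists_le_card_fiber_of_mul_le_card_of_maps_to
      (s := pool) (t := T) (f := cut) (n := frameBound m) (fun n _ => hcutT n) hT
      (le_trans (by nlinarith) hpool)
    have hC : ∀ a ∈ pool.filter (fun x => cut x = i₀), ∀ b ∈ pool.filter (fun x => cut x = i₀),
        a ≠ b → lT k T a b ∨ lT k T b a := by
      have key : ∀ a b : Fin k, cut a = i₀ → cut b = i₀ → (a - i₀).val < (b - i₀).val →
          lT k T a b := by
        intro a b ha hb hab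
        have hz : ∀ z, 0 < z → z < (b - i₀).val + 1 → i₀ + Fin.ofNat k z ∉ T := by
          intro z hz0 hz1 hzT
          have h := hcut b _ hzT
          rw [hb] at h
          have hlt := (b - i₀).isLt
          rw [show b - (i₀ + Fin.ofNat k z) = (b - i₀) - Fin.ofNat k z by abel,
            val_sub_eq (b - i₀), val_ofNat_of_lt k (by omega)] at h
          split_ifs at h <;> omega
        have := lT_of_interval k hT i₀ (L := (b - i₀).val + 1)
          (Nat.succ_le_of_lt (b - i₀).isLt) hz hab (Nat.lt_succ_self _)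
        rwa [Fin.ofNat_val_eq_self, Fin.ofNat_val_eq_self, add_sub_cancel, add_sub_cancel] at this
      intro a ha b hb hab
      have ha' := (mem_filter.1 ha).2
      have hb' := (mem_filter.1 hb).2
      have hne' : (a - i₀).val ≠ (b - i₀).val := fun e => hab (sub_left_injective (Fin.ext e))
      rcases lt_or_gt_of_ne hne' with h | h
      · exact Or.inl (key a b ha' hb' h)
      · exact Or.inr (key b a hb' ha' h)
    have h := ex_frames (⊥ : Ideal (ZMod p)) (lT k T) (lT_trans k T) (lT_asymm k T) 0
      (Ideal.span_singleton_eq_bot.2 rfl).symm (fun h1 => one_ne_zero (Ideal.mem_bot.1 h1))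
      (fun a ha => isUnit_iff_ne_zero.2 fun e => ha (Ideal.mem_bot.2 e))
      (filter_subset (fun x => cut x = i₀) pool) hC hi₀
    have hrange := range_psiT p s hs hT
    refine ex_of_surjective (MonoidHom.codRestrict (psiT p s T hT) _
      fun g => hrange ▸ MonoidHom.mem_range.2 ⟨g, rfl⟩) ?_ _ _ ?_ pool h
    · rintro ⟨g, hg⟩
      obtain ⟨a, rfl⟩ := MonoidHom.mem_range.1 (hrange.symm ▸ hg)
      exact ⟨a, rfl⟩
    · intro n a
      rw [Subgroup.mem_subgroupOf]
      exact (psiT_mem_PG p s hs hT a n).symm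

end Vale.Agent.P067.Cob
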