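import Vale.Agent.P067.Cob.Groups

/-!
Orthogonal frames in pattern groups: transitivity, avoidance of finitely many frames, and exactness
of the complex of frames with types in a pool containing a long chain of the pattern.
-/

namespace Vale.Agent.P067.Cob.Frames

open Finset Matrix

open scoped Classical

attribute [-instance] Sigma.instDecidableEqSigma instDecidableEqSigma

section Dom

variable {ι : Type*} [Fintype ι] [DecidableEq ι] {A : Type*} [CommRing A]
  (J : Ideal A) (r : ι → ι → Prop)

/-- A column congruent to the unit vector at `n` plus entries preceding `n`. -/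
def IsCol (n : ι) (v : ι → A) : Prop := v n - 1 ∈ J ∧ ∀ m, m ≠ n → ¬ r m n → v m ∈ J

/-- A column and a row at `n` pairing to one. -/
def IsPair (n : ι) (v f : ι → A) : Prop :=
  IsCol J r n v ∧ IsCol J (flip r) n f ∧ f ⬝ᵥ v = 1

theorem card_quotient_range {M : Type*} [AddCommGroup M] [Module A M] [Finite M]
    (D : M →ₗ[A] M) : Nat.card (M ⧸ LinearMap.range D) = Nat.card (LinearMap.ker D) := by
  have h1 := Submodule.card_eq_card_quotient_mul_card (LinearMap.range D)
  have h2 := Submodule.card_eq_card_quotient_mul_card (LinearMap.ker D)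
  rw [Nat.card_congr D.quotKerEquivRange.toEquiv] at h2
  have h3 : 0 < Nat.card (LinearMap.range D) := Nat.card_pos
  nlinarith [h1, h2, h3]

theorem exists_maximal {κ : Type*} (rel : κ → κ → Prop)
    (htr : ∀ a b c, rel a b → rel b c → rel a c) (hirr : ∀ a, ¬ rel a a) (s : Finset κ) :
    s.Nonempty → ∃ a ∈ s, ∀ b ∈ s, ¬ rel a b := by
  induction s using Finset.induction_on with
  | empty => intro h; simp at h
  | @insert a s ha ih =>
    intro _
    rcases s.eq_empty_or_nonempty with rfl | hs
    · exact ⟨a, by simp, fun b hb => by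
        have : b = a := by simpa using hb
        subst this; exact hirr b⟩
    obtain ⟨c, hc, hmax⟩ := ih hs
    by_cases hca : rel c a
    · refine ⟨a, mem_insert_self _ _, fun b hb h => ?_⟩
      rcases mem_insert.1 hb with rfl | hb'
      · exact hirr _ h
      · exact hmax b hb' (htr _ _ _ hca h)
    · refine ⟨c, mem_insert_of_mem hc, fun b hb => ?_⟩
      rcases mem_insert.1 hb with rfl | hb'
      · exact hca
      · exact hmax b hb'

variable {J r}

/-- Finitely many linear conditions exclude at most as many indices of a chain as there are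
conditions. -/
theorem card_failing_le [Finite A] (t : A) (hJ : J = Ideal.span {t}) (h1 : (1 : A) ∉ J)
    (hunit : ∀ a ∉ J, IsUnit a) (hr : ∀ a b c, r a b → r b c → r a c)
    (has : ∀ a b, r a b → ¬ r b a) {α : Type*} [Fintype α] (ρ : α → ι → A) (C : Finset ι)
    (hC : ∀ a ∈ C, ∀ b ∈ C, a ≠ b → r a b ∨ r b a) :
    (C.filter fun n => ¬ ∃ v, IsCol J r n v ∧ ∀ i, ρ i ⬝ᵥ v = 0).card ≤ Fintype.card α := by
  set Fs := C.filter fun n => ¬ ∃ v, IsCol J r n v ∧ ∀ i, ρ i ⬝ᵥ v = 0 with hFs
  let Φ : (ι → A) →ₗ[A] (α → A) :=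
    { toFun := fun v i => ρ i ⬝ᵥ v
      map_add' := fun v w => by funext i; simp [dotProduct_add]
      map_smul' := fun a v => by funext i; simp [dotProduct_smul] }
  let D : LinearMap.range Φ →ₗ[A] LinearMap.range Φ := t • LinearMap.id
  let L : A →ₗ[A] A := LinearMap.mulLeft A t
  let vec : (Fs → A ⧸ J) → ι → A := fun c m =>
    if h : m ∈ Fs then Quotient.out (c ⟨m, h⟩) else 0
  let Ψ : (Fs → A ⧸ J) → LinearMap.range Φ ⧸ LinearMap.range D := fun c =>
    Submodule.Quotient.mk ⟨Φ (vec c), LinearMap.mem_range_self Φ (vec c)⟩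
  have : Finite (LinearMap.range Φ ⧸ LinearMap.range D) :=
    Finite.of_surjective _ (Submodule.Quotient.mk_surjective _)
  have : Finite (A ⧸ J) := Finite.of_surjective _ Ideal.Quotient.mk_surjective
  have hinj : Function.Injective Ψ := by
    intro c c' hcc
    by_contra hne
    obtain ⟨w0, hw0⟩ := (Submodule.Quotient.eq _).1 hcc
    obtain ⟨w, hw⟩ := w0.2
    set d := vec c - vec c' with hd
    have hΦd : Φ (d - t • w) = 0 := by
      rw [map_sub, map_smul, hd, map_sub, hw]
      have := congrArg Subtype.val hw0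
      simp [D] at this
      rw [this, sub_self]
    have hbad : (Fs.filter fun m => d m ∉ J).Nonempty := by
      by_contra hemp
      apply hne
      funext m
      have hm : d m.1 ∈ J := by
        by_contra hm
        exact hemp ⟨m.1, mem_filter.2 ⟨m.2, hm⟩⟩
      simp only [hd, Pi.sub_apply, vec, dif_pos m.2] at hm
      have := (Ideal.Quotient.eq).2 hm
      simpa using this
    obtain ⟨n, hn, hmax⟩ := exists_maximal r hr (fun a h => has a a h h) _ hbad
    obtain ⟨hnF, hdn⟩ := mem_filter.1 hn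
    obtain ⟨hnC, hfail⟩ := mem_filter.1 hnF
    obtain ⟨u, hu⟩ := (hunit _ hdn).exists_left_inv
    have htJ : ∀ a : A, t * a ∈ J := fun a => by
      rw [hJ]; exact Ideal.mem_span_singleton.2 (Dvd.intro a rfl)
    refine hfail ⟨u • (d - t • w), ⟨?_, fun m hmn hrmn => ?_⟩, fun i => ?_⟩
    · simp only [Pi.smul_apply, Pi.sub_apply, smul_eq_mul] at hu ⊢
      rw [mul_sub, hu, sub_sub_cancel_left]
      exact J.neg_mem (J.mul_mem_left _ (htJ _))
    · simp only [Pi.smul_apply, Pi.sub_apply, smul_eq_mul]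
      refine J.mul_mem_left _ (J.sub_mem ?_ (htJ _))
      by_contra hdm
      by_cases hmF : m ∈ Fs
      · rcases hC m (mem_filter.1 hmF).1 n hnC hmn with h | h
        · exact hrmn h
        · exact hmax m (mem_filter.2 ⟨hmF, hdm⟩) h
      · apply hdm
        simp [hd, vec, dif_neg hmF]
    · have h2 : Φ (u • (d - t • w)) = 0 := by rw [map_smul, hΦd, smul_zero]
      exact congrFun h2 i
  have hcard := Nat.card_le_card_of_injective Ψ hinj
  rw [card_quotient_range, Nat.card_fun] at hcard
  let ev : LinearMap.ker D → α → LinearMap.ker L := fun x i => ⟨x.1.1 i, by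
    have h : (D x.1).1 i = 0 := by rw [LinearMap.mem_ker.1 x.2]; rfl
    exact LinearMap.mem_ker.2 h⟩
  have hev : Function.Injective ev := fun x y h => Subtype.ext (Subtype.ext (funext fun i =>
    congrArg Subtype.val (congrFun h i)))
  have hq : Nat.card (A ⧸ J) = Nat.card (LinearMap.ker L) := by
    have hrange : LinearMap.range L = J := by
      ext x
      simp [L, hJ, Ideal.mem_span_singleton, dvd_def, eq_comm]
    have := card_quotient_range L
    rwa [hrange] at this
  have h2 : 1 < Nat.card (A ⧸ J) := by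
    have : Nontrivial (A ⧸ J) := Ideal.Quotient.nontrivial_iff.2 fun h => h1 (by rw [h]; trivial)
    exact Finite.one_lt_card
  have h4 := hcard.trans (Nat.card_le_card_of_injective ev hev)
  rw [Nat.card_fun, ← hq, Nat.card_eq_finsetCard, Nat.card_eq_fintype_card (α := α)] at h4
  exact (Nat.pow_le_pow_iff_right h2).1 h4

variable (J r)

theorem dot_congr (has : ∀ a b, r a b → ¬ r b a) {n : ι} {v f : ι → A} (hv : IsCol J r n v)
    (hf : IsCol J (flip r) n f) : f ⬝ᵥ v - 1 ∈ J := by
  rw [dotProduct, ← add_sum_erase _ _ (mem_univ n), add_sub_right_comm]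
  refine J.add_mem ?_ (J.sum_mem fun m hm => ?_)
  · rw [show f n * v n - 1 = (f n - 1) * v n + (v n - 1) by ring]
    exact J.add_mem (J.mul_mem_right _ hf.1) hv.1
  · have hmn := (mem_erase.1 hm).1
    by_cases h : r m n
    · exact J.mul_mem_right _ (hf.2 m hmn (has _ _ h))
    · exact J.mul_mem_left _ (hv.2 m hmn h)

variable {J r}

theorem isUnit_of_sub_one (h1 : (1 : A) ∉ J) (hunit : ∀ a ∉ J, IsUnit a) {a : A}
    (ha : a - 1 ∈ J) : IsUnit a :=
  hunit a fun h => h1 (by simpa using J.sub_mem h ha)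

theorem inv_sub_one_mem {a u : A} (ha : a - 1 ∈ J) (hu : u * a = 1) : u - 1 ∈ J := by
  rw [show u - 1 = -(u * (a - 1)) by rw [mul_sub, hu]; ring]
  exact J.neg_mem (J.mul_mem_left _ ha)

/-- A fresh index of a chain carries a pair orthogonal to finitely many given ones. -/
theorem exists_fresh_pair [Finite A] (t : A) (hJ : J = Ideal.span {t}) (h1 : (1 : A) ∉ J)
    (hunit : ∀ a ∉ J, IsUnit a) (hr : ∀ a b c, r a b → r b c → r a c)
    (has : ∀ a b, r a b → ¬ r b a) {κ : Type*} (S : Finset κ) (ty : κ → ι) (col row : κ → ι → A)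
    (C : Finset ι) (hC : ∀ a ∈ C, ∀ b ∈ C, a ≠ b → r a b ∨ r b a) (hcard : 3 * S.card < C.card) :
    ∃ n ∈ C, (∀ x ∈ S, ty x ≠ n) ∧ ∃ v f, IsPair J r n v f ∧
      ∀ x ∈ S, row x ⬝ᵥ v = 0 ∧ f ⬝ᵥ col x = 0 := by
  have b1 := card_failing_le t hJ h1 hunit hr has (α := S) (fun x => row x.1) C hC
  have b2 := card_failing_le (r := flip r) t hJ h1 hunit (fun a b c h h' => hr _ _ _ h' h)
    (fun a b h => has _ _ h) (α := S) (fun x => col x.1) C
    (fun a ha b hb hab => (hC a ha b hb hab).symm)
  rw [Fintype.card_coe] at b1 b2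
  have b3 := card_image_le (s := S) (f := ty)
  set F1 := C.filter fun n => ¬ ∃ v, IsCol J r n v ∧ ∀ i : S, row i.1 ⬝ᵥ v = 0
  set F2 := C.filter fun n => ¬ ∃ v, IsCol J (flip r) n v ∧ ∀ i : S, col i.1 ⬝ᵥ v = 0
  have hlt : (F1 ∪ F2 ∪ S.image ty).card < C.card := by
    have := card_union_le (F1 ∪ F2) (S.image ty)
    have := card_union_le F1 F2
    omega
  obtain ⟨n, hn, hn'⟩ := exists_mem_notMem_of_card_lt_card hlt
  have e1 : ∃ v, IsCol J r n v ∧ ∀ i : S, row i.1 ⬝ᵥ v = 0 := by
    by_contra h
    exact hn' (mem_union_left _ (mem_union_left _ (mem_filter.2 ⟨hn, h⟩)))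
  have e2 : ∃ v, IsCol J (flip r) n v ∧ ∀ i : S, col i.1 ⬝ᵥ v = 0 := by
    by_contra h
    exact hn' (mem_union_left _ (mem_union_right _ (mem_filter.2 ⟨hn, h⟩)))
  obtain ⟨v, hv, hv0⟩ := e1
  obtain ⟨f, hf, hf0⟩ := e2
  have hfv := dot_congr J r has hv hf
  obtain ⟨u, hu⟩ := (isUnit_of_sub_one h1 hunit hfv).exists_left_inv
  have hu1 := inv_sub_one_mem hfv hu
  refine ⟨n, hn, fun x hx h => hn' (mem_union_right _ (mem_image.2 ⟨x, hx, h⟩)), v, u • f,
    ⟨hv, ⟨?_, fun m hmn hm => ?_⟩, ?_⟩, fun x hx => ⟨hv0 ⟨x, hx⟩, ?_⟩⟩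
  · simp only [Pi.smul_apply, smul_eq_mul]
    rw [show u * f n - 1 = u * (f n - 1) + (u - 1) by ring]
    exact J.add_mem (J.mul_mem_left _ hf.1) hu1
  · exact J.mul_mem_left _ (hf.2 m hmn hm)
  · rw [smul_dotProduct, smul_eq_mul, hu]
  · rw [smul_dotProduct, dotProduct_comm, hf0 ⟨x, hx⟩, smul_zero]

end Dom

section Transitive

variable {ι : Type*} [Fintype ι] [DecidableEq ι] {A : Type*} [CommRing A]
  (J : Ideal A) (r : ι → ι → Prop) (hr : ∀ a b c, r a b → r b c → r a c)
  (has : ∀ a b, r a b → ¬ r b a)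


/-- The matrix of an element of a pattern group. -/
abbrev mat {H : Subgroup (Matrix.SpecialLinearGroup ι A)} (g : H) : Matrix ι ι A :=
  (g.1 : Matrix ι ι A)

theorem mat_mul {H : Subgroup (Matrix.SpecialLinearGroup ι A)} (g h : H) :
    mat (g * h) = mat g * mat h := by
  simp [mat]

theorem mat_inv_mul {H : Subgroup (Matrix.SpecialLinearGroup ι A)} (g : H) :
    mat g⁻¹ * mat g = 1 := by
  rw [← mat_mul, inv_mul_cancel]; simp [mat]

theorem mat_mul_inv {H : Subgroup (Matrix.SpecialLinearGroup ι A)} (g : H) :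
    mat g * mat g⁻¹ = 1 := by
  rw [← mat_mul, mul_inv_cancel]; simp [mat]

/-- The stabiliser of a unit column and the matching unit row. -/
def stabN (n : ι) : Subgroup (Pat J r hr has) where
  carrier := {g | ∀ m, mat g m n = (1 : Matrix ι ι A) m n ∧ mat g n m = (1 : Matrix ι ι A) n m}
  one_mem' m := by simp [mat]
  mul_mem' {g h} hg hh m := by
    rw [mat_mul, mul_apply, mul_apply]
    simp only [(hh _).1, (hg _).2]
    simp [one_apply, (hg m).1, (hh m).2]
  inv_mem' {g} hg m := by
    have h1 := congrFun (congrFun (mat_inv_mul g) m) n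
    have h2 := congrFun (congrFun (mat_mul_inv g) n) m
    rw [mul_apply] at h1 h2
    simp only [(hg _).1] at h1
    simp only [(hg _).2] at h2
    simp only [one_apply, mul_ite, mul_one, mul_zero, sum_ite_eq', mem_univ, if_true] at h1
    simp only [one_apply, ite_mul, one_mul, zero_mul, sum_ite_eq, mem_univ, if_true] at h2
    exact ⟨by rw [h1, one_apply], by rw [h2, one_apply]⟩

theorem isCol_mulVec (g : (Pat J r hr has)) {n : ι} {v : ι → A} (hv : IsCol J r n v) :
    IsCol J r n (mat g *ᵥ v) := by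
  obtain ⟨hg, hd⟩ := g.2
  constructor
  · rw [mulVec, dotProduct, ← add_sum_erase _ _ (mem_univ n), add_sub_right_comm]
    refine J.add_mem ?_ (J.sum_mem fun q hq => ?_)
    · rw [show mat g n n * v n - 1 = (mat g n n - 1) * v n + (v n - 1) by ring]
      exact J.add_mem (J.mul_mem_right _ (hd n)) hv.1
    · have hqn := (mem_erase.1 hq).1
      by_cases h : r q n
      · exact J.mul_mem_right _ (hg n q (Ne.symm hqn) (has _ _ h))
      · exact J.mul_mem_left _ (hv.2 q hqn h)
  · intro m hmn hm
    rw [mulVec, dotProduct]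
    refine J.sum_mem fun q _ => ?_
    by_cases hq : q = m
    · subst hq; exact J.mul_mem_left _ (hv.2 q hmn hm)
    by_cases hqn : q = n
    · subst hqn; exact J.mul_mem_right _ (hg m q hmn hm)
    by_cases h : r m q
    · exact J.mul_mem_left _ (hv.2 q hqn fun h' => hm (hr _ _ _ h h'))
    · exact J.mul_mem_right _ (hg m q (Ne.symm hq) h)

theorem isCol_vecMul (g : (Pat J r hr has)) {n : ι} {f : ι → A} (hf : IsCol J (flip r) n f) :
    IsCol J (flip r) n (f ᵥ* mat g) := by
  obtain ⟨hg, hd⟩ := g.2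
  constructor
  · rw [vecMul, dotProduct, ← add_sum_erase _ _ (mem_univ n), add_sub_right_comm]
    refine J.add_mem ?_ (J.sum_mem fun q hq => ?_)
    · rw [show f n * mat g n n - 1 = f n * (mat g n n - 1) + (f n - 1) by ring]
      exact J.add_mem (J.mul_mem_left _ (hd n)) hf.1
    · have hqn := (mem_erase.1 hq).1
      by_cases h : r n q
      · exact J.mul_mem_left _ (hg q n hqn (has _ _ h))
      · exact J.mul_mem_right _ (hf.2 q hqn h)
  · intro m hmn hm
    rw [vecMul, dotProduct]
    refine J.sum_mem fun q _ => ?_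
    by_cases hq : q = m
    · subst hq; exact J.mul_mem_right _ (hf.2 q hmn hm)
    by_cases hqn : q = n
    · subst hqn; exact J.mul_mem_left _ (hg q m (Ne.symm hmn) hm)
    by_cases h : r q m
    · exact J.mul_mem_right _ (hf.2 q hqn fun h' => hm (hr _ _ _ h' h))
    · exact J.mul_mem_left _ (hg q m hq h)

/-- One step of transitivity, fixing the unit frame on `B`. -/
theorem exists_step (h1 : (1 : A) ∉ J) (hunit : ∀ a ∉ J, IsUnit a) {n n' : ι} {B : Finset ι}
    (hnB : n ∉ B) (hn'B : n' ∉ B) (hn' : n' ≠ n) {v f : ι → A} (hp : IsPair J r n v f)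
    (hB : ∀ b ∈ B, v b = 0 ∧ f b = 0) :
    ∃ h : (Pat J r hr has), (∀ b ∈ B, h ∈ stabN J r hr has b) ∧ (∀ m, mat h m n = v m) ∧
      f ᵥ* mat h = Pi.single n 1 := by
  obtain ⟨hv, hf, hfv⟩ := hp
  obtain ⟨u, hu⟩ := (isUnit_of_sub_one h1 hunit hv.1).exists_left_inv
  let d : ι → A := fun l => if l = n' then u else 1
  have hdn : d n = 1 := if_neg (Ne.symm hn')
  let M1 : Matrix ι ι A := fun m l => if l = n then v m else if m = l then d l else 0
  let z : ι → A := fun l => if l = n then 1 else -(f l * d l)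
  let M2 : Matrix ι ι A := updateRow 1 n z
  have hcol : ∀ w : ι → A, (updateCol (1 : Matrix ι ι A) n w).det = w n := fun w => by
    rw [← cramer_apply, cramer_one]; rfl
  have e1 : M1 = updateCol 1 n v * diagonal d := by
    ext m l
    rw [mul_diagonal, updateCol_apply]
    by_cases hl : l = n
    · subst hl; simp [M1, hdn]
    · by_cases hml : m = l
      · subst hml; simp [M1, hl]
      · simp [M1, hl, hml]
  have det1 : M1.det = 1 := by
    rw [e1, det_mul, hcol, det_diagonal, Fintype.prod_ite_eq', mul_comm, hu]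
  have det2 : M2.det = 1 := by
    rw [← det_transpose, ← updateCol_transpose, transpose_one, hcol]
    simp [z]
  have m1 : (⟨M1, det1⟩ : Matrix.SpecialLinearGroup ι A) ∈ (Pat J r hr has) := by
    refine ⟨fun m l hml hrl => ?_, fun m => ?_⟩
    · show M1 m l ∈ J
      by_cases hl : l = n
      · subst hl; simpa [M1] using hv.2 m hml hrl
      · simp [M1, hl, hml]
    · show M1 m m - 1 ∈ J
      by_cases hl : m = n
      · subst hl; simpa [M1] using hv.1
      · by_cases hm' : m = n'
        · subst hm'; simpa [M1, hl, d] using inv_sub_one_mem hv.1 hu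
        · simp [M1, hl, d, hm']
  have m2 : (⟨M2, det2⟩ : Matrix.SpecialLinearGroup ι A) ∈ (Pat J r hr has) := by
    refine ⟨fun m l hml hrl => ?_, fun m => ?_⟩
    · show M2 m l ∈ J
      by_cases hm : m = n
      · subst hm
        simp only [M2, updateRow_self, z, if_neg (Ne.symm hml)]
        exact J.neg_mem (J.mul_mem_right _ (hf.2 l (Ne.symm hml) hrl))
      · simp [M2, updateRow_ne hm, hml]
    · show M2 m m - 1 ∈ J
      by_cases hm : m = n
      · subst hm; simp [M2, z]
      · simp [M2, updateRow_ne hm]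
  let G1 : (Pat J r hr has) := ⟨_, m1⟩
  let G2 : (Pat J r hr has) := ⟨_, m2⟩
  refine ⟨G1 * G2, fun b hb => mul_mem ?_ ?_, fun m => ?_, ?_⟩
  · have hbn : b ≠ n := fun e => hnB (e ▸ hb)
    have hbn' : b ≠ n' := fun e => hn'B (e ▸ hb)
    intro m
    show M1 m b = _ ∧ M1 b m = _
    refine ⟨?_, ?_⟩
    · by_cases hm : m = b
      · subst hm; simp [M1, hbn, d, hbn']
      · simp [M1, hbn, hm]
    · by_cases hm : m = n
      · subst hm; simp [M1, (hB b hb).1, hbn]
      · by_cases hm' : b = m
        · subst hm'; simp [M1, hbn, d, hbn']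
        · simp [M1, hm, hm']
  · have hbn : b ≠ n := fun e => hnB (e ▸ hb)
    intro m
    show M2 m b = _ ∧ M2 b m = _
    refine ⟨?_, by simp [M2, updateRow_ne hbn]⟩
    by_cases hm : m = n
    · subst hm; simp [M2, z, hbn, (hB b hb).2, Ne.symm hbn]
    · simp [M2, updateRow_ne hm]
  · rw [mat_mul, mul_apply]
    show ∑ q, M1 m q * M2 q n = v m
    rw [sum_eq_single n]
    · simp [M1, M2, z]
    · intro q _ hq; simp [M2, updateRow_ne hq, hq]
    · simp
  · rw [mat_mul, ← vecMul_vecMul]
    show (f ᵥ* M1) ᵥ* M2 = _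
    have e2 : ∀ l, (f ᵥ* M1) l = if l = n then 1 else f l * d l := fun l => by
      by_cases hl : l = n
      · subst hl
        rw [if_pos rfl, ← hfv]
        simp [vecMul, dotProduct, M1]
      · rw [if_neg hl, vecMul, dotProduct, sum_eq_single l]
        · simp [M1, hl]
        · intro q _ hq; simp [M1, hl, hq]
        · simp
    funext l
    rw [vecMul, dotProduct, ← add_sum_erase _ _ (mem_univ n), e2 n, if_pos rfl, one_mul]
    have e3 : ∀ q ∈ univ.erase n, (f ᵥ* M1) q * M2 q l = if q = l then f l * d l else 0 := by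
      intro q hq
      have hqn := (mem_erase.1 hq).1
      rw [e2 q, if_neg hqn]
      by_cases hql : q = l
      · subst hql; simp [M2, updateRow_ne hqn]
      · simp [M2, updateRow_ne hqn, hql]
    rw [sum_congr rfl e3, sum_ite_eq']
    by_cases hl : l = n
    · subst hl; simp [M2, z]
    · simp [M2, z, hl]

/-- The pattern group is transitive on frames with at most all but one type. -/
theorem exists_frame (h1 : (1 : A) ∉ J) (hunit : ∀ a ∉ J, IsUnit a) (col row : ι → ι → A)
    (s : Finset ι) : s.card < Fintype.card ι → (∀ b ∈ s, IsPair J r b (col b) (row b)) →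
      (∀ a ∈ s, ∀ b ∈ s, a ≠ b → row a ⬝ᵥ col b = 0) →
      ∃ g : (Pat J r hr has), ∀ b ∈ s, (∀ m, mat g m b = col b m) ∧ row b ᵥ* mat g = Pi.single b 1 := by
  induction s using Finset.induction_on with
  | empty => exact fun _ _ _ => ⟨1, by simp⟩
  | @insert n s hn ih =>
    intro hc hp ho
    obtain ⟨g, hg⟩ := ih (by rw [card_insert_of_notMem hn] at hc; omega)
      (fun b hb => hp b (mem_insert_of_mem hb))
      (fun a ha b hb => ho a (mem_insert_of_mem ha) b (mem_insert_of_mem hb))
    obtain ⟨n', -, hn'⟩ := exists_mem_notMem_of_card_lt_card (s := insert n s) (t := univ)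
      (by rwa [card_univ])
    rw [mem_insert, not_or] at hn'
    obtain ⟨hv, hf, hfv⟩ := hp n (mem_insert_self _ _)
    have hp' : IsPair J r n (mat g⁻¹ *ᵥ col n) (row n ᵥ* mat g) := by
      refine ⟨isCol_mulVec J r hr has _ hv, isCol_vecMul J r hr has _ hf, ?_⟩
      rw [← dotProduct_mulVec, mulVec_mulVec, mat_mul_inv, one_mulVec, hfv]
    have hB : ∀ b ∈ s, (mat g⁻¹ *ᵥ col n) b = 0 ∧ (row n ᵥ* mat g) b = 0 := by
      intro b hb
      have hbn : b ≠ n := fun e => hn (e ▸ hb)
      obtain ⟨hgc, hgr⟩ := hg b hb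
      constructor
      · have h0 := ho b (mem_insert_of_mem hb) n (mem_insert_self _ _) hbn
        have : row b = Pi.single b 1 ᵥ* mat g⁻¹ := by
          rw [← hgr, vecMul_vecMul, mat_mul_inv, vecMul_one]
        rw [this, ← dotProduct_mulVec, single_one_dotProduct] at h0
        exact h0
      · have h0 := ho n (mem_insert_self _ _) b (mem_insert_of_mem hb) (Ne.symm hbn)
        rw [vecMul, dotProduct]
        simp only [hgc]
        exact h0
    obtain ⟨h, hst, hcn, hrn⟩ := exists_step J r hr has h1 hunit hn hn'.2 hn'.1 hp' hB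
    refine ⟨g * h, fun b hb => ?_⟩
    rw [mat_mul]
    rcases mem_insert.1 hb with rfl | hb'
    · refine ⟨fun m => ?_, by rw [← vecMul_vecMul, hrn]⟩
      rw [mul_apply]
      simp only [hcn]
      have : (mat g *ᵥ (mat g⁻¹ *ᵥ col b)) m = col b m := by
        rw [mulVec_mulVec, mat_mul_inv, one_mulVec]
      exact this
    · obtain ⟨hgc, hgr⟩ := hg b hb'
      refine ⟨fun m => ?_, ?_⟩
      · rw [mul_apply]
        simp only [(hst b hb' _).1]
        simp [one_apply, hgc]
      · rw [← vecMul_vecMul, hgr]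
        funext l
        rw [single_one_vecMul]
        show mat h b l = _
        rw [(hst b hb' l).2, one_apply, Pi.single_apply]
        simp [eq_comm]

/-- The column of a vertex of the frame complex. -/
noncomputable def vcol (x : (n : ι) × ((Pat J r hr has) ⧸ stabN J r hr has n)) : ι → A :=
  fun m => mat x.2.out m x.1

/-- The row of a vertex of the frame complex. -/
noncomputable def vrow (x : (n : ι) × ((Pat J r hr has) ⧸ stabN J r hr has n)) : ι → A :=
  fun m => mat x.2.out⁻¹ x.1 m

theorem vertex_eq {x : (n : ι) × ((Pat J r hr has) ⧸ stabN J r hr has n)} {g : (Pat J r hr has)} (h : x.2 = (g : (Pat J r hr has) ⧸ _)) :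
    (∀ m, vcol J r hr has x m = mat g m x.1) ∧ ∀ m, vrow J r hr has x m = mat g⁻¹ x.1 m := by
  have hk : x.2.out⁻¹ * g ∈ stabN J r hr has x.1 := by
    rw [← QuotientGroup.eq, QuotientGroup.out_eq', h]
  have hk' := inv_mem hk
  constructor
  · intro m
    conv_rhs => rw [← mul_inv_cancel_left x.2.out g]
    rw [mat_mul, mul_apply]
    simp only [(hk _).1]
    simp [one_apply, vcol]
  · intro m
    conv_rhs => rw [← mul_inv_cancel_left x.2.out g, _root_.mul_inv_rev]
    rw [mat_mul, mul_apply]
    simp only [(hk' _).2]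
    simp [one_apply, vrow]

theorem isPair_vertex (x : (n : ι) × ((Pat J r hr has) ⧸ stabN J r hr has n)) :
    IsPair J r x.1 (vcol J r hr has x) (vrow J r hr has x) := by
  obtain ⟨hg, hd⟩ := (x.2.out).2
  obtain ⟨hg', hd'⟩ := (x.2.out⁻¹).2
  refine ⟨⟨hd x.1, fun m hm hrm => hg m x.1 hm hrm⟩,
    ⟨hd' x.1, fun m hm hrm => hg' x.1 m (Ne.symm hm) hrm⟩, ?_⟩
  have := congrFun (congrFun (mat_inv_mul x.2.out) x.1) x.1
  rw [mul_apply, one_apply_eq] at this
  exact this

theorem face_orth {R : Finset ι} {σ : Finset ((n : ι) × ((Pat J r hr has) ⧸ stabN J r hr has n))}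
    (hσ : (coset (stabN J r hr has) R).face σ) {x y : (n : ι) × ((Pat J r hr has) ⧸ stabN J r hr has n)}
    (hx : x ∈ σ) (hy : y ∈ σ) (hxy : x ≠ y) :
    x.1 ≠ y.1 ∧ vrow J r hr has x ⬝ᵥ vcol J r hr has y = 0 := by
  obtain ⟨g, hg⟩ := hσ
  have ht : x.1 ≠ y.1 := by
    intro e
    apply hxy
    obtain ⟨a, a'⟩ := x
    obtain ⟨b, b'⟩ := y
    subst e
    exact Sigma.ext rfl (heq_of_eq ((hg _ hx).2.trans (hg _ hy).2.symm))
  refine ⟨ht, ?_⟩
  rw [dotProduct]
  simp only [(vertex_eq J r hr has (hg _ hx).2).2, (vertex_eq J r hr has (hg _ hy).2).1]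
  have := congrFun (congrFun (mat_inv_mul g) x.1) y.1
  rw [mul_apply, one_apply_ne ht] at this
  exact this

theorem face_of_orth (h1 : (1 : A) ∉ J) (hunit : ∀ a ∉ J, IsUnit a) {R : Finset ι}
    {σ : Finset ((n : ι) × ((Pat J r hr has) ⧸ stabN J r hr has n))} (hc : σ.card < Fintype.card ι)
    (hR : ∀ x ∈ σ, x.1 ∈ R)
    (ho : ∀ x ∈ σ, ∀ y ∈ σ, x ≠ y →
      x.1 ≠ y.1 ∧ vrow J r hr has x ⬝ᵥ vcol J r hr has y = 0) :
    (coset (stabN J r hr has) R).face σ := by
  let col : ι → ι → A := fun b =>
    if h : ∃ x ∈ σ, x.1 = b then vcol J r hr has h.choose else 0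
  let row : ι → ι → A := fun b =>
    if h : ∃ x ∈ σ, x.1 = b then vrow J r hr has h.choose else 0
  have hsel : ∀ x ∈ σ, col x.1 = vcol J r hr has x ∧ row x.1 = vrow J r hr has x := by
    intro x hx
    have h : ∃ y ∈ σ, y.1 = x.1 := ⟨x, hx, rfl⟩
    have e : h.choose = x := by
      by_contra hne
      exact (ho _ h.choose_spec.1 x hx hne).1 h.choose_spec.2
    simp only [col, row, dif_pos h, e, and_self]
  obtain ⟨g, hg⟩ := exists_frame J r hr has h1 hunit col row (σ.image fun x => x.1)
    (lt_of_le_of_lt card_image_le hc)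
    (fun b hb => by
      obtain ⟨x, hx, rfl⟩ := mem_image.1 hb
      rw [(hsel x hx).1, (hsel x hx).2]
      exact isPair_vertex J r hr has x)
    (fun a ha b hb hab => by
      obtain ⟨x, hx, rfl⟩ := mem_image.1 ha
      obtain ⟨y, hy, rfl⟩ := mem_image.1 hb
      rw [(hsel x hx).2, (hsel y hy).1]
      exact (ho x hx y hy fun e => hab (by rw [e])).2)
  refine ⟨g, fun x hx => ⟨hR x hx, ?_⟩⟩
  obtain ⟨hgc, hgr⟩ := hg x.1 (mem_image_of_mem _ hx)
  rw [(hsel x hx).1] at hgc
  rw [(hsel x hx).2] at hgr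
  rw [← QuotientGroup.out_eq' x.2, QuotientGroup.eq]
  intro m
  rw [mat_mul, mul_apply, mul_apply]
  constructor
  · simp only [hgc, vcol]
    have := congrFun (congrFun (mat_inv_mul x.2.out) m) x.1
    rwa [mul_apply] at this
  · have := congrFun hgr m
    rw [vecMul, dotProduct] at this
    simp only [vrow] at this
    rw [this, one_apply, Pi.single_apply]
    simp [eq_comm]

end Transitive

section Exact

/-- A bound for the vertices used by the contraction on faces with `j` vertices. -/
def frameV : ℕ → ℕ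
  | 0 => 1
  | j + 1 => (j + 1) * (frameV j + 1) + 1 + frameV j

/-- The chain length needed for exactness below `m`. -/
def frameBound (m : ℕ) : ℕ := 3 * frameV m + m + 1

theorem frameV_le_succ (j : ℕ) : frameV j ≤ frameV (j + 1) := by
  simp [frameV]

theorem frameV_mono {a b : ℕ} (h : a ≤ b) : frameV a ≤ frameV b :=
  monotone_nat_of_le_succ frameV_le_succ h

theorem bd_single {V : Type*} [DecidableEq V] (σ : Finset V) (a : ZMod 2) :
    bd (Finsupp.single σ a) = ∑ v ∈ σ, Finsupp.single (σ.erase v) a := by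
  rw [bd, Finsupp.linearCombination_single, Finset.smul_sum]
  refine sum_congr rfl fun v _ => ?_
  rw [Finsupp.smul_single, smul_eq_mul, mul_one]
  congr 2
  exact Subsingleton.elim _ _

theorem bd_bd_single {V : Type*} (σ : Finset V) :
    bd (bd (Finsupp.single σ (1 : ZMod 2))) = 0 := by
  rw [bd_single, map_sum]
  simp only [bd_single]
  rw [sum_sigma']
  refine sum_involution (fun a _ => ⟨a.2, a.1⟩) ?_ ?_ ?_ ?_
  · intro a _
    simp only [Finset.erase_right_comm]
    exact Finsupp.ext fun τ => CharTwo.add_self_eq_zero _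
  · intro a ha _ h
    have h2 := congrArg Sigma.fst h
    simp only [mem_sigma, mem_erase] at ha
    exact ha.2.1 h2
  · intro a ha
    simp only [mem_sigma, mem_erase] at ha ⊢
    exact ⟨ha.2.2, Ne.symm ha.2.1, ha.1⟩
  · intro a _; rfl

theorem chain_add_self {V : Type*} (x : Chain V) : x + x = 0 := by
  ext σ
  simp [CharTwo.add_self_eq_zero]

theorem bd_joinF {V : Type*} (u : V) (z : Chain V) (hz : ∀ σ ∈ z.support, u ∉ σ) :
    bd (joinF {u} z) = z + joinF {u} (bd z) := by
  conv_lhs => rw [← Finsupp.sum_single z]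
  conv_rhs => rw [← Finsupp.sum_single z]
  simp only [Finsupp.sum, map_sum, ← sum_add_distrib]
  refine sum_congr rfl fun σ hσ => ?_
  have hu := hz σ hσ
  have e : ∀ τ (a : ZMod 2), joinF {u} (Finsupp.single τ a) = Finsupp.single (insert u τ) a :=
    fun τ a => by
      rw [joinF, Finsupp.lmapDomain_apply, Finsupp.mapDomain_single, union_comm,
        ← insert_eq]
  rw [e, bd_single, bd_single, map_sum, sum_insert hu, erase_insert hu]
  congr 1
  refine sum_congr rfl fun v hv => ?_
  rw [e, erase_insert_of_ne]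
  exact fun h => hu (h ▸ hv)

variable {ι : Type*} [Fintype ι] [DecidableEq ι] {A : Type*} [CommRing A]
  (J : Ideal A) (r : ι → ι → Prop) (hr : ∀ a b c, r a b → r b c → r a c)
  (has : ∀ a b, r a b → ¬ r b a)


theorem exists_contraction [Finite A] (t : A) (hJ : J = Ideal.span {t}) (h1 : (1 : A) ∉ J)
    (hunit : ∀ a ∉ J, IsUnit a) {R C : Finset ι} (hCR : C ⊆ R)
    (hC : ∀ a ∈ C, ∀ b ∈ C, a ≠ b → r a b ∨ r b a) {m : ℕ} (hm : frameBound m ≤ C.card) :
    ∀ j, j < m → ∃ H : Finset ((n : ι) × ((Pat J r hr has) ⧸ stabN J r hr has n)) →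
        Chain ((n : ι) × ((Pat J r hr has) ⧸ stabN J r hr has n)),
      ∀ σ, (coset (stabN J r hr has) R).face σ → σ.card ≤ j →
        H σ ∈ (coset (stabN J r hr has) R).chains (σ.card + 1) ∧
          ((H σ).support.biUnion id).card ≤ frameV j ∧
          bd (H σ) + ∑ v ∈ σ, H (σ.erase v) = Finsupp.single σ 1 := by
  set K := coset (stabN J r hr has) R with hK
  have hcard : C.card ≤ Fintype.card ι := card_le_univ C
  have cone : ∀ S : Finset ((n : ι) × ((Pat J r hr has) ⧸ stabN J r hr has n)), S.card ≤ frameV m →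
      ∃ u : (n : ι) × ((Pat J r hr has) ⧸ stabN J r hr has n), u.1 ∈ C ∧ u ∉ S ∧
        ∀ σ ⊆ S, K.face σ → σ.card < m → K.face (insert u σ) := by
    intro S hS
    obtain ⟨n, hn, hfresh, v, f, hp, ho⟩ := exists_fresh_pair t hJ h1 hunit hr has S
      (fun x => x.1) (vcol J r hr has) (vrow J r hr has) C hC (by unfold frameBound at hm; omega)
    obtain ⟨g, hg⟩ := exists_frame J r hr has h1 hunit (fun _ => v) (fun _ => f) {n}
      (by
        rw [card_singleton]
        have : 1 ≤ frameV m := frameV_mono (Nat.zero_le m)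
        unfold frameBound at hm
        omega)
      (fun b hb => by rw [mem_singleton] at hb; subst hb; exact hp)
      (fun a ha b hb hab => by simp_all)
    obtain ⟨hgc, hgr⟩ := hg n (mem_singleton_self _)
    refine ⟨⟨n, (g : (Pat J r hr has) ⧸ _)⟩, hn, fun h => hfresh _ h rfl, fun σ hσS hσ hσm => ?_⟩
    obtain ⟨ec, er⟩ := vertex_eq J r hr has
      (x := (⟨n, (g : (Pat J r hr has) ⧸ _)⟩ : (n : ι) × ((Pat J r hr has) ⧸ stabN J r hr has n))) rfl
    have ecol : vcol J r hr has (⟨n, (g : (Pat J r hr has) ⧸ _)⟩ : (n : ι) × ((Pat J r hr has) ⧸ stabN J r hr has n)) = v :=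
      funext fun l => (ec l).trans (hgc l)
    have erow : vrow J r hr has (⟨n, (g : (Pat J r hr has) ⧸ _)⟩ : (n : ι) × ((Pat J r hr has) ⧸ stabN J r hr has n)) = f := by
      funext l
      rw [er l]
      have : Pi.single n 1 ᵥ* mat g⁻¹ = f := by
        rw [← hgr, vecMul_vecMul, mat_mul_inv, vecMul_one]
      rw [← this, single_one_vecMul]
      rfl
    refine face_of_orth J r hr has h1 hunit ?_ ?_ ?_
    · refine lt_of_le_of_lt (card_insert_le _ _) ?_
      unfold frameBound at hm
      omega
    · intro x hx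
      rcases mem_insert.1 hx with rfl | hx'
      · exact hCR hn
      · obtain ⟨g0, hg0⟩ := hσ
        exact (hg0 x hx').1
    · intro x hx y hy hxy
      rcases mem_insert.1 hx with rfl | hx' <;> rcases mem_insert.1 hy with rfl | hy'
      · exact absurd rfl hxy
      · exact ⟨Ne.symm (hfresh y (hσS hy')), by rw [erow]; exact (ho y (hσS hy')).2⟩
      · exact ⟨hfresh x (hσS hx'), by rw [ecol]; exact (ho x (hσS hx')).1⟩
      · exact face_orth J r hr has hσ hx' hy' hxy
  intro j
  induction j with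
  | zero =>
    intro _
    obtain ⟨u, -, -, hf⟩ := cone ∅ (by simp)
    have hu : K.face {u} := by
      simpa using hf ∅ (subset_refl _) K.empty (by rw [card_empty]; omega)
    refine ⟨fun _ => Finsupp.single {u} 1, fun σ _ hc => ?_⟩
    obtain rfl : σ = ∅ := card_eq_zero.1 (Nat.le_zero.1 hc)
    refine ⟨Finsupp.single_mem_supported _ _ ⟨hu, by simp⟩, ?_, ?_⟩
    · rw [Finsupp.support_single _ one_ne_zero]; simp [frameV]
    · simp [bd_single]
  | succ j ih =>
    intro hj
    obtain ⟨H, hH⟩ := ih (Nat.lt_of_succ_lt hj)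
    have step : ∀ σ, ∃ c, K.face σ → σ.card = j + 1 →
        c ∈ K.chains (σ.card + 1) ∧ (c.support.biUnion id).card ≤ frameV (j + 1) ∧
          bd c + ∑ v ∈ σ, H (σ.erase v) = Finsupp.single σ 1 := by
      intro σ
      by_cases hσ : K.face σ ∧ σ.card = j + 1
      swap
      · exact ⟨0, fun h h' => absurd ⟨h, h'⟩ hσ⟩
      obtain ⟨hσ, hσc⟩ := hσ
      set z : Chain ((n : ι) × ((Pat J r hr has) ⧸ stabN J r hr has n)) :=
        Finsupp.single σ 1 + ∑ v ∈ σ, H (σ.erase v) with hz
      have hsub : ∀ v ∈ σ, K.face (σ.erase v) ∧ (σ.erase v).card = j := fun v hv =>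
        ⟨K.down hσ (erase_subset _ _), by rw [card_erase_of_mem hv, hσc]; omega⟩
      set S := σ ∪ σ.biUnion (fun v => (H (σ.erase v)).support.biUnion id) with hSdef
      have hS : S.card + 1 ≤ frameV (j + 1) := by
        have h2 := card_biUnion_le_card_mul σ
          (fun v => (H (σ.erase v)).support.biUnion id) (frameV j)
          (fun v hv => (hH _ (hsub v hv).1 (hsub v hv).2.le).2.1)
        have h3 := card_union_le σ (σ.biUnion fun v => (H (σ.erase v)).support.biUnion id)
        rw [← hSdef] at h3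
        rw [hσc] at h2 h3
        simp only [frameV, Nat.mul_succ]
        omega
      have hzc : z ∈ K.chains (j + 1) := by
        refine Submodule.add_mem _ (Finsupp.single_mem_supported _ _ ⟨hσ, hσc⟩)
          (Submodule.sum_mem _ fun v hv => ?_)
        have := (hH _ (hsub v hv).1 (hsub v hv).2.le).1
        rwa [(hsub v hv).2] at this
      have hzS : ∀ τ ∈ z.support, τ ⊆ S := by
        intro τ hτ x hx
        rcases mem_union.1 (Finsupp.support_add hτ) with h | h
        · rw [mem_singleton.1 (Finsupp.support_single_subset h)] at hx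
          exact mem_union_left _ hx
        · obtain ⟨v, hv, hv'⟩ := mem_biUnion.1 (Finsupp.support_finsetSum h)
          exact mem_union_right _ (mem_biUnion.2 ⟨v, hv, mem_biUnion.2 ⟨τ, hv', hx⟩⟩)
      have hbz : bd z = 0 := by
        have e : ∀ v ∈ σ, bd (H (σ.erase v)) =
            Finsupp.single (σ.erase v) 1 + ∑ w ∈ σ.erase v, H ((σ.erase v).erase w) := by
          intro v hv
          have h := (hH _ (hsub v hv).1 (hsub v hv).2.le).2.2
          rw [← h, add_assoc, chain_add_self, add_zero]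
        rw [hz, map_add, map_sum, sum_congr rfl e, sum_add_distrib, bd_single, ← add_assoc,
          chain_add_self, zero_add]
        have hh := congrArg (Finsupp.linearCombination (ZMod 2) H) (bd_bd_single σ)
        rw [bd_single, map_sum, map_sum, map_zero] at hh
        simpa [bd_single, map_sum, Finsupp.linearCombination_single] using hh
      obtain ⟨u, -, huS, hu⟩ := cone S (le_trans (by omega) (frameV_mono hj.le))
      refine ⟨joinF {u} z, fun _ _ => ⟨?_, ?_, ?_⟩⟩
      · rw [Cplx.chains, Finsupp.mem_supported]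
        intro τ hτ
        obtain ⟨ρ, hρ, rfl⟩ := mem_image.1 (Finsupp.mapDomain_support (Finset.mem_coe.1 hτ))
        obtain ⟨hρf, hρc⟩ := hzc hρ
        have hd : Disjoint ρ {u} := disjoint_singleton_right.2 fun h => huS (hzS ρ hρ h)
        refine ⟨?_, by rw [card_union_of_disjoint hd, card_singleton, hρc, hσc]⟩
        rw [union_comm, ← insert_eq]
        exact hu ρ (hzS ρ hρ) hρf (by omega)
      · refine le_trans (card_le_card (t := insert u S) ?_) ((card_insert_le _ _).trans hS)
        intro x hx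
        obtain ⟨τ, hτ, hxτ⟩ := mem_biUnion.1 hx
        obtain ⟨ρ, hρ, rfl⟩ := mem_image.1 (Finsupp.mapDomain_support hτ)
        rcases mem_union.1 hxτ with h | h
        · exact mem_insert_of_mem (hzS ρ hρ h)
        · rw [mem_singleton.1 h]; exact mem_insert_self _ _
      · rw [bd_joinF u z (fun τ hτ h => huS (hzS τ hτ h)), hbz, map_zero, add_zero, hz, add_assoc,
          chain_add_self, add_zero]
    choose c hc using step
    refine ⟨fun σ => if σ.card = j + 1 then c σ else H σ, fun σ hσ hσj => ?_⟩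
    have er : ∀ v ∈ σ, (if (σ.erase v).card = j + 1 then c (σ.erase v) else H (σ.erase v)) =
        H (σ.erase v) := fun v hv => by
      rw [if_neg]; rw [card_erase_of_mem hv]; omega
    simp only
    rw [sum_congr rfl er]
    by_cases he : σ.card = j + 1
    · simp only [if_pos he]; exact hc σ hσ he
    · simp only [if_neg he]
      obtain ⟨a, b, e⟩ := hH σ hσ (by omega)
      exact ⟨a, b.trans (frameV_le_succ j), e⟩

/-- Exactness of the complex of frames with types in a pool containing a long chain. -/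
theorem ex_frames [Finite A] (t : A) (hJ : J = Ideal.span {t}) (h1 : (1 : A) ∉ J)
    (hunit : ∀ a ∉ J, IsUnit a) {R C : Finset ι} (hCR : C ⊆ R)
    (hC : ∀ a ∈ C, ∀ b ∈ C, a ≠ b → r a b ∨ r b a) {m : ℕ} (hm : frameBound m ≤ C.card) :
    (coset (stabN J r hr has) R).Ex m := by
  intro j hj z hz hbz
  obtain ⟨H, hH⟩ := exists_contraction J r hr has t hJ h1 hunit hCR hC hm j hj
  refine ⟨Finsupp.linearCombination (ZMod 2) H z, ?_, ?_⟩
  · rw [Finsupp.linearCombination_apply]
    refine Submodule.sum_mem _ fun σ hσ => Submodule.smul_mem _ _ ?_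
    obtain ⟨hf, hc⟩ := hz hσ
    have := (hH σ hf hc.le).1
    rwa [hc] at this
  · have e : bd (Finsupp.linearCombination (ZMod 2) H z) +
        Finsupp.linearCombination (ZMod 2) H (bd z) = z := by
      conv_rhs => rw [← Finsupp.sum_single z]
      conv_lhs => rw [← Finsupp.sum_single z]
      simp only [Finsupp.sum, map_sum, ← sum_add_distrib]
      refine sum_congr rfl fun σ hσ => ?_
      obtain ⟨hf, hc⟩ := hz hσ
      rw [Finsupp.linearCombination_single, map_smul, bd_single, map_sum]
      simp only [Finsupp.linearCombination_single]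
      rw [← smul_sum, ← smul_add, (hH σ hf hc.le).2.2, Finsupp.smul_single, smul_eq_mul, mul_one]
    rwa [hbz, map_zero, add_zero] at e

end Exact

end Vale.Agent.P067.Cob.Frames
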