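import Vale.Agent.P067.Local
import Vale.Agent.P067.Trickle

/-! # P067 — the pair gaps of a partite complex give mixing -/

noncomputable section

open Finset
open scoped Classical

namespace Vale.Agent.P067.Cob

open Vale.Agent.P067.Local

variable {V : Type*} [Fintype V] {ι : Type*} [Fintype ι]

/-- Pair gaps in the links, for the types outside the centre, give mixing. -/
theorem mixing_of_pairGap {T : Finset (Finset V)} (ty : V → ι)
    (hty : ∀ τ ∈ T, Set.InjOn ty τ) {m : ℕ} {c : ℝ} (hc : 0 ≤ c)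
    (h : ∀ ρ : Finset V, ρ.card < m → IsFace T ρ → ∀ i j, i ≠ j → i ∉ ρ.image ty → j ∉ ρ.image ty →
      Vale.Agent.P067.PairGap (Ω := {τ // τ ∈ T ∧ ρ ⊆ τ})
        (fun τ => τ.1.filter fun v => ty v = i) (fun τ => τ.1.filter fun v => ty v = j) c) :
    Mixing T m ((Fintype.card ι : ℝ) ^ 2) c := by
  intro ρ hρc hρ A hA μ hμ
  set Ω := {τ // τ ∈ T ∧ ρ ⊆ τ}
  set ind : ι → Ω → ℝ := fun i τ => if ∃ a ∈ A, ty a = i ∧ a ∈ τ.1 then 1 else 0 with hind
  set vl : ℝ := ∑ a ∈ A, (deg T (insert a ρ) : ℝ) with hvl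
  have hΩ : (Fintype.card Ω : ℝ) = deg T ρ := by
    rw [Fintype.card_subtype, deg]
    congr 2
    ext τ
    simp
  have hΩpos : 0 < Fintype.card Ω := by
    obtain ⟨τ, h1, h2⟩ := hρ
    exact Fintype.card_pos_iff.2 ⟨⟨τ, h1, h2⟩⟩
  have hcount : ∀ π : Finset V, (∀ τ, π ⊆ τ → ρ ⊆ τ) →
      (deg T π : ℝ) = ∑ τ : Ω, if π ⊆ τ.1 then (1 : ℝ) else 0 := by
    intro π hπ
    rw [Finset.sum_boole, deg]
    congr 1
    refine Finset.card_nbij' (fun τ => if hτ : τ ∈ T ∧ ρ ⊆ τ then (⟨τ, hτ⟩ : Ω) else
      Classical.choice (Fintype.card_pos_iff.1 hΩpos)) (fun τ => τ.1) ?_ ?_ ?_ ?_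
    · intro τ hτ
      obtain ⟨h1, h2⟩ := Finset.mem_filter.1 hτ
      simp [h1, hπ τ h2, h2]
    · intro τ hτ
      exact Finset.mem_filter.2 ⟨τ.2.1, (Finset.mem_filter.1 hτ).2⟩
    · intro τ hτ
      obtain ⟨h1, h2⟩ := Finset.mem_filter.1 hτ
      simp [h1, hπ τ h2]
    · intro τ _
      simp [τ.2.1, τ.2.2]
  have hsubins : ∀ a τ, insert a ρ ⊆ τ ↔ a ∈ τ ∧ ρ ⊆ τ := fun a τ => Finset.insert_subset_iff
  have hvol : ∀ i, ∑ τ : Ω, ind i τ ≤ vl := by
    intro i
    calc ∑ τ : Ω, ind i τ ≤ ∑ τ : Ω, ∑ a ∈ A, if insert a ρ ⊆ τ.1 then (1 : ℝ) else 0 := by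
          refine Finset.sum_le_sum fun τ _ => ?_
          simp only [hind]
          split
          · next he =>
            obtain ⟨a, ha, -, hat⟩ := he
            refine le_trans ?_ (Finset.single_le_sum (fun _ _ => by positivity) ha)
            rw [if_pos ((hsubins a τ.1).2 ⟨hat, τ.2.2⟩)]
          · positivity
      _ = vl := by
          rw [Finset.sum_comm, hvl]
          refine Finset.sum_congr rfl fun a _ => (hcount _ fun τ hτ => ?_).symm
          exact ((hsubins a τ).1 hτ).2
  have hind0 : ∀ i τ, 0 ≤ ind i τ := fun i τ => by simp only [hind]; split <;> norm_num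
  have hind2 : ∀ i τ, ind i τ ^ 2 = ind i τ := fun i τ => by simp only [hind]; split <;> norm_num
  have hpair : ∀ i j, i ≠ j → i ∉ ρ.image ty → j ∉ ρ.image ty →
      ∑ τ : Ω, ind i τ * ind j τ ≤ (μ + c) * vl := by
    intro i j hij hi hj
    set n : ℝ := (Fintype.card Ω : ℝ)
    have hn : 0 < n := Nat.cast_pos.2 hΩpos
    set Si := ∑ τ : Ω, ind i τ with hSi
    set Sj := ∑ τ : Ω, ind j τ with hSj
    have hinv : ∀ (l : ι) (w w' : Ω),
        (w.1.filter fun v => ty v = l) = (w'.1.filter fun v => ty v = l) → ind l w = ind l w' := by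
      intro l w w' heq
      simp only [hind]
      refine if_congr ?_ rfl rfl
      refine exists_congr fun a => and_congr_right fun _ => and_congr_right fun hl => ?_
      have := congrArg (fun s => a ∈ s) heq
      simpa [hl] using this
    have key := h ρ hρc hρ i j hij hi hj (fun τ => ind i τ - Si / n) (fun τ => ind j τ - Sj / n)
      (fun w w' he => by simp only [hinv i w w' he]) (fun w w' he => by simp only [hinv j w w' he])
      (by simp only [Finset.sum_sub_distrib, Finset.sum_const, Finset.card_univ, nsmul_eq_mul]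
          rw [mul_div_cancel₀ _ hn.ne', ← hSi, sub_self])
      (by simp only [Finset.sum_sub_distrib, Finset.sum_const, Finset.card_univ, nsmul_eq_mul]
          rw [mul_div_cancel₀ _ hn.ne', ← hSj, sub_self])
    have hexp : ∀ (u v : Ω → ℝ) (x y : ℝ), ∑ τ, (u τ - x) * (v τ - y)
        = ∑ τ, u τ * v τ - y * ∑ τ, u τ - x * ∑ τ, v τ + n * (x * y) := by
      intro u v x y
      simp only [sub_mul, mul_sub, Finset.sum_sub_distrib, Finset.sum_const, Finset.card_univ,
        nsmul_eq_mul, ← Finset.mul_sum, ← Finset.sum_mul]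
      ring
    have hSi0 : 0 ≤ Si := Finset.sum_nonneg fun τ _ => hind0 i τ
    have hSj0 : 0 ≤ Sj := Finset.sum_nonneg fun τ _ => hind0 j τ
    have hsq : ∀ l, ∑ τ : Ω, (ind l τ - (∑ τ : Ω, ind l τ) / n) ^ 2 ≤ vl := by
      intro l
      have h0 : 0 ≤ ∑ τ : Ω, ind l τ := Finset.sum_nonneg fun τ _ => hind0 l τ
      have e : ∑ τ : Ω, (ind l τ - (∑ τ : Ω, ind l τ) / n) ^ 2
          = ∑ τ : Ω, ind l τ - (∑ τ : Ω, ind l τ) ^ 2 / n := by
        simp only [sq, hexp]
        simp only [← sq, hind2]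
        field_simp
        ring
      rw [e]
      have : 0 ≤ (∑ τ : Ω, ind l τ) ^ 2 / n := by positivity
      linarith [hvol l]
    have hvl0 : 0 ≤ vl := le_trans hSi0 (hvol i)
    have hsqrt : Real.sqrt (∑ τ : Ω, (ind i τ - Si / n) ^ 2)
        * Real.sqrt (∑ τ : Ω, (ind j τ - Sj / n) ^ 2) ≤ vl := by
      calc _ ≤ Real.sqrt vl * Real.sqrt vl :=
            mul_le_mul (Real.sqrt_le_sqrt (hsq i)) (Real.sqrt_le_sqrt (hsq j))
              (Real.sqrt_nonneg _) (Real.sqrt_nonneg _)
        _ = vl := Real.mul_self_sqrt hvl0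
    rw [hexp, ← hSi, ← hSj] at key
    have hmain : ∑ τ : Ω, ind i τ * ind j τ ≤ Si * Sj / n + c * vl := by
      have h1 : Sj / n * Si + Si / n * Sj - n * (Si / n * (Sj / n)) = Si * Sj / n := by
        field_simp
        ring
      have h2 := mul_le_mul_of_nonneg_left hsqrt hc
      linarith
    have hμ' : Si / n ≤ μ := by
      rw [div_le_iff₀ hn]
      calc Si ≤ vl := hvol i
        _ ≤ μ * deg T ρ := hμ
        _ = μ * n := by rw [hΩ]
    have h3 : Si * Sj / n ≤ μ * vl := by
      rw [mul_div_right_comm]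
      exact mul_le_mul hμ' (hvol j) hSj0 (le_trans (by positivity) hμ')
    linarith
  set P : Finset (ι × ι) := Finset.univ.filter
    (fun p => p.1 ≠ p.2 ∧ p.1 ∉ ρ.image ty ∧ p.2 ∉ ρ.image ty) with hP
  have hone : ∀ (τ : Ω) a, a ∈ τ.1 → ∀ b, b ∈ τ.1 → ty a = ty b → a = b :=
    fun τ a ha b hb he => hty τ.1 τ.2.1 ha hb he
  have hlhs : ∑ a ∈ A, ∑ b ∈ A.erase a, (deg T (insert a (insert b ρ)) : ℝ)
      ≤ ∑ p ∈ P, ∑ τ : Ω, ind p.1 τ * ind p.2 τ := by
    rw [Finset.sum_comm (s := P)]
    calc ∑ a ∈ A, ∑ b ∈ A.erase a, (deg T (insert a (insert b ρ)) : ℝ)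
        = ∑ a ∈ A, ∑ b ∈ A.erase a, ∑ τ : Ω,
            if insert a (insert b ρ) ⊆ τ.1 then (1 : ℝ) else 0 := by
          refine Finset.sum_congr rfl fun a _ => Finset.sum_congr rfl fun b _ => hcount _ ?_
          exact fun τ hτ =>
            ((Finset.subset_insert b ρ).trans (Finset.subset_insert a _)).trans hτ
      _ = ∑ τ : Ω, ∑ a ∈ A, ∑ b ∈ A.erase a,
            if insert a (insert b ρ) ⊆ τ.1 then (1 : ℝ) else 0 := by
          rw [Finset.sum_comm (γ := Ω)]
          exact Finset.sum_congr rfl fun a _ => Finset.sum_comm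
      _ ≤ _ := by
          refine Finset.sum_le_sum fun τ _ => ?_
          rw [Finset.sum_sigma', Finset.sum_boole]
          set S := (A.sigma fun a => A.erase a).filter
            (fun q => insert q.1 (insert q.2 ρ) ⊆ τ.1) with hS
          calc (S.card : ℝ) = ∑ q ∈ S, (1 : ℝ) := by simp
            _ ≤ ∑ q ∈ S, ind (ty q.1) τ * ind (ty q.2) τ := by
                refine Finset.sum_le_sum fun q hq => le_of_eq ?_
                obtain ⟨h1, h2⟩ := Finset.mem_filter.1 hq
                obtain ⟨ha, hb⟩ := Finset.mem_sigma.1 h1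
                simp only [hind]
                rw [if_pos ⟨q.1, ha, rfl, h2 (Finset.mem_insert_self _ _)⟩,
                  if_pos ⟨q.2, Finset.mem_of_mem_erase hb, rfl,
                    h2 (Finset.mem_insert_of_mem (Finset.mem_insert_self _ _))⟩, mul_one]
            _ = ∑ p ∈ S.image (fun q => (ty q.1, ty q.2)), ind p.1 τ * ind p.2 τ := by
                rw [Finset.sum_image]
                rintro ⟨a, b⟩ hq ⟨a', b'⟩ hq' he
                obtain ⟨-, h2⟩ := Finset.mem_filter.1 hq
                obtain ⟨-, h2'⟩ := Finset.mem_filter.1 hq'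
                simp only [Prod.mk.injEq] at he
                have e1 := hone τ a (h2 (Finset.mem_insert_self _ _)) a'
                  (h2' (Finset.mem_insert_self _ _)) he.1
                have e2 := hone τ b (h2 (Finset.mem_insert_of_mem (Finset.mem_insert_self _ _))) b'
                  (h2' (Finset.mem_insert_of_mem (Finset.mem_insert_self _ _))) he.2
                cases e1
                cases e2
                rfl
            _ ≤ ∑ p ∈ P, ind p.1 τ * ind p.2 τ := by
                refine Finset.sum_le_sum_of_subset_of_nonneg ?_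
                  (fun p _ _ => mul_nonneg (hind0 _ _) (hind0 _ _))
                intro p hp
                obtain ⟨⟨a, b⟩, hq, rfl⟩ := Finset.mem_image.1 hp
                obtain ⟨h1, h2⟩ := Finset.mem_filter.1 hq
                obtain ⟨ha, hb⟩ := Finset.mem_sigma.1 h1
                have haτ : a ∈ τ.1 := h2 (Finset.mem_insert_self _ _)
                have hbτ : b ∈ τ.1 := h2 (Finset.mem_insert_of_mem (Finset.mem_insert_self _ _))
                refine Finset.mem_filter.2 ⟨Finset.mem_univ _, fun he => ?_, ?_, ?_⟩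
                · exact (Finset.mem_erase.1 hb).1 (hone τ a haτ b hbτ he).symm
                · rintro hm
                  obtain ⟨r, hr, he⟩ := Finset.mem_image.1 hm
                  exact hA a ha (hone τ r (τ.2.2 hr) a haτ he ▸ hr)
                · rintro hm
                  obtain ⟨r, hr, he⟩ := Finset.mem_image.1 hm
                  exact hA b (Finset.mem_of_mem_erase hb) (hone τ r (τ.2.2 hr) b hbτ he ▸ hr)
  refine hlhs.trans ((Finset.sum_le_sum (g := fun _ => (μ + c) * vl) fun p hp => ?_).trans ?_)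
  · obtain ⟨-, h1, h2, h3⟩ := Finset.mem_filter.1 hp
    exact hpair p.1 p.2 h1 h2 h3
  · have hvl0 : 0 ≤ vl := Finset.sum_nonneg fun _ _ => Nat.cast_nonneg _
    rw [Finset.sum_const, nsmul_eq_mul, ← mul_assoc]
    have hcard : (P.card : ℝ) ≤ (Fintype.card ι : ℝ) ^ 2 := by
      have := Finset.card_le_univ P
      rw [Fintype.card_prod] at this
      rw [sq]
      exact_mod_cast this
    have hμ0 : vl = 0 ∨ 0 ≤ μ := by
      rcases eq_or_lt_of_le hvl0 with h0 | h0
      · exact Or.inl h0.symm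
      · refine Or.inr ?_
        by_contra hneg
        have : μ * (deg T ρ : ℝ) ≤ 0 :=
          mul_nonpos_of_nonpos_of_nonneg (not_le.1 hneg).le (Nat.cast_nonneg _)
        linarith
    rcases hμ0 with h0 | h0
    · simp [h0]
    · exact mul_le_mul_of_nonneg_right
        (mul_le_mul_of_nonneg_right hcard (by linarith)) hvl0

end Vale.Agent.P067.Cob
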