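import Vale.Agent.P067.Local
import Vale.Agent.P067.Trickle
import Vale.Agent.P067.Cob.Mixing
import Vale.Agent.P067.Cob.Coset

/-!
Pair gaps in all links give mixing of the chamber set (owner helper10).
-/

namespace Vale.Agent.P067.Cob

open Finset

open scoped Classical

variable {G : Type} [Group G] {ι : Type} [Fintype ι]

/-- The chambers of a finite coset complex. -/
noncomputable def chambers [Fintype G] (K : ι → Subgroup G) :
    Finset (Finset ((i : ι) × (G ⧸ K i))) :=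
  Finset.univ.image fun g : G => cell K g univ

theorem pairGap_congr {Ω A B : Type} {i₁ : Fintype Ω} (i₂ : Fintype Ω) {π π' : Ω → A} {ρ ρ' : Ω → B}
    {c : ℝ} (hπ : ∀ w, π w = π' w) (hρ : ∀ w, ρ w = ρ' w)
    (h : @Vale.Agent.P067.PairGap Ω A B i₁ π ρ c) : @Vale.Agent.P067.PairGap Ω A B i₂ π' ρ' c := by
  obtain rfl := Subsingleton.elim i₁ i₂
  obtain rfl := funext hπ
  obtain rfl := funext hρ
  exact h

theorem mixing_of_gaps (d r : ℕ) : ∃ κ : ℝ, 0 ≤ κ ∧ ∀ {G ι : Type} [Group G] [Fintype G] [Fintype ι]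
    (K : ι → Subgroup G) [∀ i, Fintype (G ⧸ K i)] (lam : ℝ), Fintype.card ι = r → d + 2 ≤ r →
    0 ≤ lam → (⨅ i ∈ (univ : Finset ι), K i) = ⊥ →
    (∀ T : Finset ι, T.card ≤ d → ∀ i j, i ∉ T → j ∉ T → i ≠ j →
      LinkGap (fun g : G => (g : G ⧸ K i)) (fun g : G => (g : G ⧸ K j))
        (fun g : G => (g : G ⧸ (⨅ l ∈ T, K l))) lam) →
    ∀ m ≤ d + 1, Local.Mixing (chambers K) m κ lam := by
  refine ⟨(r : ℝ) ^ 2, by positivity, ?_⟩
  intro G ι _ _ _ K _ lam hr _ hlam hbot hgap m hm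
  subst hr
  have hmem : ∀ (g : G) (v : (i : ι) × (G ⧸ K i)),
      v ∈ cell K g univ ↔ ((g : G) : G ⧸ K v.1) = v.2 := by
    rintro g ⟨i, c⟩
    constructor
    · intro h
      obtain ⟨l, -, hl⟩ := Finset.mem_image.1 h
      cases hl
      rfl
    · intro h
      exact Finset.mem_image.2 ⟨i, Finset.mem_univ _, congrArg (fun q => (⟨i, q⟩ : (i : ι) × (G ⧸ K i))) h⟩
  have hfst : ∀ τ ∈ chambers K, Set.InjOn (fun v : (i : ι) × (G ⧸ K i) => v.1) τ := by
    intro τ hτ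
    obtain ⟨g, -, rfl⟩ := Finset.mem_image.1 hτ
    rintro ⟨a, x⟩ ha ⟨b, y⟩ hb hab
    cases hab
    exact congrArg (fun q => (⟨a, q⟩ : (i : ι) × (G ⧸ K i)))
      (((hmem g ⟨a, x⟩).1 ha).symm.trans ((hmem g ⟨a, y⟩).1 hb))
  suffices h : ∀ ρ : Finset ((i : ι) × (G ⧸ K i)), ρ.card < m → Local.IsFace (chambers K) ρ →
      ∀ i j, i ≠ j → i ∉ ρ.image (fun v => v.1) → j ∉ ρ.image (fun v => v.1) →
      Vale.Agent.P067.PairGap (Ω := {τ // τ ∈ chambers K ∧ ρ ⊆ τ})
        (fun τ => τ.1.filter fun v => v.1 = i) (fun τ => τ.1.filter fun v => v.1 = j) lam by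
    have h0 := mixing_of_pairGap (T := chambers K) (m := m) (fun v : (i : ι) × (G ⧸ K i) => v.1)
      hfst hlam ?_
    · exact cast (by congr 1) h0
    intro ρ h1 h2 i j h3 h4 h5
    refine pairGap_congr _ (fun w => ?_) (fun w => ?_)
      (h ρ h1 h2 i j h3 (by simpa only [Finset.mem_image] using h4)
        (by simpa only [Finset.mem_image] using h5)) <;> ext v <;> simp only [Finset.mem_filter]
  intro ρ hρm hρ i j hij hi hj f g hf hg hf0 hg0
  obtain ⟨τ0, hτ0, hρτ⟩ := hρ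
  obtain ⟨g0, -, rfl⟩ := Finset.mem_image.1 hτ0
  set S : Finset ι := ρ.image (fun v => v.1)
  have hScard : S.card ≤ d := (Finset.card_image_le).trans (by omega)
  set x0 : G ⧸ (⨅ l ∈ S, K l) := (g0 : G ⧸ (⨅ l ∈ S, K l)) with hx0
  have hfib : ∀ a : G, ρ ⊆ cell K a univ ↔ (a : G ⧸ (⨅ l ∈ S, K l)) = x0 := by
    intro a
    rw [hx0, QuotientGroup.eq]
    simp only [Subgroup.mem_iInf]
    constructor
    · intro hsub l hl
      obtain ⟨v, hv, rfl⟩ := Finset.mem_image.1 hl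
      rw [← QuotientGroup.eq, (hmem a v).1 (hsub hv), (hmem g0 v).1 (hρτ hv)]
    · intro h v hv
      rw [hmem, ← (hmem g0 v).1 (hρτ hv), QuotientGroup.eq]
      exact h v.1 (Finset.mem_image_of_mem _ hv)
  have hinj : ∀ a b : G, cell K a univ = cell K b univ → a = b := by
    intro a b h
    have h1 : a⁻¹ * b ∈ (⨅ l ∈ (univ : Finset ι), K l) := by
      simp only [Subgroup.mem_iInf]
      intro l _
      rw [← QuotientGroup.eq]
      exact ((hmem b ⟨l, (a : G ⧸ K l)⟩).1 (h ▸ (hmem a ⟨l, _⟩).2 rfl)).symm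
    rw [hbot, Subgroup.mem_bot] at h1
    exact inv_mul_eq_one.1 h1
  let Ω := {τ // τ ∈ chambers K ∧ ρ ⊆ τ}
  set F := (univ : Finset G).filter fun a : G => (a : G ⧸ (⨅ l ∈ S, K l)) = x0 with hF
  let e : (a : G) → (a : G ⧸ (⨅ l ∈ S, K l)) = x0 → Ω := fun a ha =>
    ⟨cell K a univ, Finset.mem_image_of_mem _ (Finset.mem_univ a), (hfib a).2 ha⟩
  let ext : (Ω → ℝ) → G → ℝ := fun u a =>
    if ha : (a : G ⧸ (⨅ l ∈ S, K l)) = x0 then u (e a ha) else 0
  have hsum : ∀ u : Ω → ℝ, ∑ a ∈ F, ext u a = ∑ w, u w := by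
    intro u
    refine Finset.sum_bij (fun a ha => e a (Finset.mem_filter.1 ha).2)
      (fun _ _ => Finset.mem_univ _) (fun a _ b _ h => hinj a b (congrArg Subtype.val h)) ?_ ?_
    · rintro ⟨τ, hτ, hsub⟩ -
      obtain ⟨a, -, rfl⟩ := Finset.mem_image.1 hτ
      exact ⟨a, Finset.mem_filter.2 ⟨Finset.mem_univ _, (hfib a).1 hsub⟩, rfl⟩
    · intro a ha
      simp only [ext, dif_pos (Finset.mem_filter.1 ha).2]
  have hfilt : ∀ (a : G) (l : ι), (cell K a univ).filter (fun v => v.1 = l)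
      = {⟨l, (a : G ⧸ K l)⟩} := by
    intro a l
    ext ⟨i', c⟩
    simp only [Finset.mem_filter, hmem, Finset.mem_singleton]
    constructor
    · rintro ⟨h1, h2⟩
      cases h2
      rw [← h1]
    · intro h
      cases h
      exact ⟨rfl, rfl⟩
  have hcompat : ∀ (l : ι) (u : Ω → ℝ),
      (∀ w w', (w.1.filter fun v => v.1 = l) = (w'.1.filter fun v => v.1 = l) → u w = u w') →
      ∀ a b : G, (a : G ⧸ (⨅ l ∈ S, K l)) = x0 → (b : G ⧸ (⨅ l ∈ S, K l)) = x0 →
        (a : G ⧸ K l) = b → ext u a = ext u b := by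
    intro l u hu a b ha hb hab
    simp only [ext, dif_pos ha, dif_pos hb]
    refine hu _ _ ?_
    show (cell K a univ).filter _ = (cell K b univ).filter _
    rw [hfilt, hfilt, hab]
  have key := hgap S hScard i j hi hj hij x0 (ext f) (ext g) (hcompat i f hf) (hcompat j g hg)
    (by rw [← hF, hsum]; exact hf0) (by rw [← hF, hsum]; exact hg0)
  rw [← hF] at key
  have hmul : ∀ u v : Ω → ℝ, ∑ a ∈ F, ext u a * ext v a = ∑ w, u w * v w := by
    intro u v
    rw [← hsum (fun w => u w * v w)]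
    refine Finset.sum_congr rfl fun a ha => ?_
    simp only [ext, dif_pos (Finset.mem_filter.1 ha).2]
  simpa only [sq, hmul] using key

end Vale.Agent.P067.Cob
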