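import Vale.Agent.P067.Cob.BlockGap
import Vale.Agent.P067.Cob.Mix

/-!
Small gaps of all pair graphs in all links of the finite coset complex (section G).
-/

namespace Vale.Agent.P067.Cob

open Finset Polynomial
open scoped BigOperators Classical

variable {p k : ℕ} [NeZero k] [Fact p.Prime] {t : Fin k} {T : Finset (Fin k)}

omit [NeZero k] [Fact p.Prime] in
theorem dlt_self (m : Fin k) : dlt m m = 0 := by simp [dlt]

/-- The matrix of the standard lift. -/
noncomputable def liftMat (A : UT p t T) : Matrix (Fin k) (Fin k) (ZMod p)[X] :=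
  Matrix.of fun m l => C (A.1 m l) * X ^ dlt m l

theorem liftMat_diag (A : UT p t T) (m : Fin k) : liftMat A m m = 1 := by
  simp [liftMat, dlt_self, (mem_UT.1 A.2).2 m]

omit [NeZero k] in
theorem liftMat_off (A : UT p t T) {m l : Fin k} (hne : m ≠ l) (h : ¬ Rel t T m l) :
    liftMat A m l = 0 := by
  simp [liftMat, (mem_UT.1 A.2).1 m l hne h]

theorem liftMat_mul (A B : UT p t T) : liftMat (A * B) = liftMat A * liftMat B := by
  ext1 m l
  simp only [liftMat, Matrix.of_apply, coe_mul_UT, Matrix.mul_apply, map_sum, sum_mul]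
  refine sum_congr rfl fun q _ => ?_
  rcases eq_or_ne m q with rfl | h1
  · simp [dlt_self, (mem_UT.1 A.2).2 m]
  rcases eq_or_ne q l with rfl | h2
  · simp [dlt_self, (mem_UT.1 B.2).2 q]
  by_cases r1 : Rel t T m q
  · by_cases r2 : Rel t T q l
    · rw [map_mul, ← dlt_add r1.1 r2.1, pow_add]; ring
    · simp [(mem_UT.1 B.2).1 q l h2 r2]
  · simp [(mem_UT.1 A.2).1 m q h1 r1]

theorem det_liftMat (A : UT p t T) : (liftMat A).det = 1 :=
  det_eq_one_of_ltc t _ (liftMat_diag A) fun _ _ hne h => liftMat_off A hne fun h' => h h'.1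

/-- The standard lift of the pattern group. -/
noncomputable def liftGam : UT p t T →* Gam p k :=
  MonoidHom.mk' (fun A => ⟨⟨liftMat A, det_liftMat A⟩, by
    refine ⟨fun m l hne hml => Ideal.mem_span_singleton.2 ?_, fun m => ?_⟩
    · show X ∣ liftMat A m l
      simp [liftMat, dlt, lt_of_le_of_ne (not_lt.1 hml) hne.symm]
    · show liftMat A m m - 1 ∈ _
      simp [liftMat_diag]⟩) fun A B => Subtype.ext (Subtype.ext (liftMat_mul A B))

/-- The lift into the finite group. -/
noncomputable def Phi (s : ℕ) : UT p t T →* GG p k s := (red p k s).comp liftGam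

theorem Phi_mem (s : ℕ) (A : UT p t T) {u : Fin k} (hA : A.1 ∈ UT p t {u}) :
    Phi s A ∈ KG p k s u := by
  refine ⟨liftGam A, fun m l => ⟨A.1 m l, ?_⟩, rfl⟩
  show liftMat A m l = _
  rcases eq_or_ne m l with rfl | hne
  · rw [liftMat_diag, if_pos rfl]
  rw [if_neg hne]
  split_ifs with h
  · rfl
  · simp [liftMat, (mem_UT.1 hA).1 m l hne fun h' => h (h'.2 u (mem_singleton_self u))]

theorem mk_eq_mk {s : ℕ} (hs : 2 ≤ s) {c c' : ZMod p} {e : ℕ} (he : e ≤ 1)
    (h : Ideal.Quotient.mk (Ideal.span {(X : (ZMod p)[X]) ^ s}) (C c * X ^ e) =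
      Ideal.Quotient.mk _ (C c' * X ^ e)) : c = c' := by
  rw [Ideal.Quotient.eq, Ideal.mem_span_singleton, X_pow_dvd_iff] at h
  simpa [sub_eq_zero] using h e (by omega)

omit [NeZero k] in
theorem dlt_le_one (m l : Fin k) : dlt m l ≤ 1 := by unfold dlt; split_ifs <;> omega

theorem Phi_injective {s : ℕ} (hs : 2 ≤ s) : Function.Injective (Phi (p := p) (t := t) (T := T) s) := by
  intro A B h
  apply UT_ext
  ext m l
  exact mk_eq_mk hs (dlt_le_one m l) (congrArg (fun g : GG p k s => g.1.1 m l) h)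

theorem exists_Phi {s : ℕ} (hs : 2 ≤ s) (ht : t ∈ T) {x : GG p k s}
    (hx : ∀ u ∈ T, x ∈ KG p k s u) : ∃ A : UT p t T, Phi s A = x := by
  obtain ⟨g, hg, rfl⟩ := hx t ht
  choose c hc using hg
  have hzero : ∀ m l, m ≠ l → ¬ Rel t T m l → ltc t m l → c m l = 0 := fun m l hne hr ht' => by
    obtain ⟨u, hu, hlt⟩ : ∃ u ∈ T, ¬ ltc u m l := by
      by_contra hcon
      push Not at hcon
      exact hr ⟨ht', hcon⟩
    obtain ⟨g', hg', he⟩ := hx u hu
    obtain ⟨c', hc'⟩ := hg' m l
    have h1 := congrArg (fun y : GG p k s => y.1.1 m l) he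
    change Ideal.Quotient.mk _ (g'.1.1 m l) = Ideal.Quotient.mk _ (g.1.1 m l) at h1
    rw [show g'.1.1 m l = C (0 : ZMod p) * X ^ dlt m l by rw [hc']; simp [hne, hlt],
      show g.1.1 m l = C (c m l) * X ^ dlt m l by rw [hc]; simp [hne, ht']] at h1
    exact (mk_eq_mk hs (dlt_le_one m l) h1).symm
  obtain ⟨A, hA⟩ := exists_unip (p := p) (t := t) (T := T)
    (X := Matrix.of fun m l => if Rel t T m l then c m l else 0) fun m l h => by simp [h]
  refine ⟨A, congrArg (red p k s) (Subtype.ext (Subtype.ext ?_))⟩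
  ext1 m l
  change C ((A.1.1) m l) * X ^ dlt m l = g.1.1 m l
  rw [hA, hc, Matrix.add_apply, Matrix.of_apply]
  rcases eq_or_ne m l with rfl | hne
  · have : ¬ Rel t T m m := fun h => ltc_ne h.1 rfl
    simp [this, dlt_self]
  by_cases hr : Rel t T m l
  · simp [hne, hr, hr.1]
  · by_cases hl : ltc t m l
    · simp [hne, hr, hl, hzero m l hne hr hl]
    · simp [hne, hr, hl]

/-- The gap of two types inside a translate of the group of a nonempty set of types. -/
theorem coset_gap {s : ℕ} [Fintype (GG p k s)] (hs : 2 ≤ s) (ht : t ∈ T) {i j : Fin k}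
    (hij : i ≠ j) {C : Type} {_ : DecidableEq C} (σ : GG p k s → C)
    (hσ : ∀ w w', σ w = σ w' ↔ ∀ u ∈ T, w⁻¹ * w' ∈ KG p k s u) :
    LinkGap (fun g : GG p k s => (g : GG p k s ⧸ KG p k s i))
      (fun g : GG p k s => (g : GG p k s ⧸ KG p k s j)) σ (Real.sqrt (1 / p)) := by
  intro x f g hf hg hf0 hg0
  by_cases hne : ∃ w₀, σ w₀ = x
  swap
  · have he : univ.filter (fun w => σ w = x) = ∅ := filter_eq_empty_iff.2 fun w _ h => hne ⟨w, h⟩
    simp [he]
  obtain ⟨w₀, rfl⟩ := hne
  have hin : ∀ A : UT p t T, σ (w₀ * Phi s A) = σ w₀ := fun A =>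
    ((hσ _ _).2 fun u hu => by
      rw [inv_mul_cancel_left]
      exact Phi_mem s A (UT_anti t (singleton_subset_iff.2 hu) A.2)).symm
  have hsum : ∀ F : GG p k s → ℝ, ∑ w ∈ univ.filter (fun w => σ w = σ w₀), F w =
      ∑ A : UT p t T, F (w₀ * Phi s A) := fun F => by
    symm
    refine sum_bij (fun A _ => w₀ * Phi s A) (fun A _ => by simp [hin A])
      (fun A _ B _ h => Phi_injective hs (mul_left_cancel h)) (fun w hw => ?_) fun _ _ => rfl
    obtain ⟨A, hA⟩ := exists_Phi hs ht ((hσ _ _).1 (mem_filter.1 hw).2.symm)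
    exact ⟨A, mem_univ A, by simp [hA]⟩
  simp only [hsum] at *
  refine block_gap hij (fun A => f (w₀ * Phi s A)) (fun A => g (w₀ * Phi s A))
    (fun A h hh => (hf _ _ (hin A) (hin _) ?_).symm) (fun A h hh => (hg _ _ (hin A) (hin _) ?_).symm)
    hf0 hg0 <;>
  · rw [QuotientGroup.eq, map_mul, mul_inv_rev, mul_assoc, inv_mul_cancel_left, inv_mul_cancel_left]
    exact Phi_mem s h (UT_anti t (by simp) hh)

/-- Exactness in size one: the vertex groups generate. -/
theorem iSup_KG_eq_top {s : ℕ} (h : (Wc p k s univ).Ex 2) :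
    (⨆ i, KG p k s i) = ⊤ := by
  set H := ⨆ i, KG p k s i
  rw [eq_top_iff]
  rintro g -
  by_contra hg
  let i : Fin k := 0
  let phi : Chain ((i : Fin k) × (GG p k s ⧸ KG p k s i)) →ₗ[ZMod 2] ZMod 2 :=
    Finsupp.linearCombination (ZMod 2) fun σ => ∑ v ∈ σ, if v.2.out ∈ H then (1 : ZMod 2) else 0
  have hout : ∀ (l : Fin k) (y : GG p k s), (y : GG p k s ⧸ KG p k s l).out ∈ H ↔ y ∈ H := fun l y => by
    obtain ⟨c, hc⟩ := QuotientGroup.mk_out_eq_mul (KG p k s l) y
    rw [hc]
    exact Subgroup.mul_mem_cancel_right H (le_iSup (fun i => KG p k s i) l c.2)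
  have hphi : ∀ w ∈ (Wc p k s univ).chains 2, phi (bd w) = 0 := by
    intro w hw
    conv_lhs => arg 2; rw [bd, Finsupp.linearCombination_apply, Finsupp.sum]
    rw [map_sum]
    refine sum_eq_zero fun σ hσ => ?_
    obtain ⟨⟨y, hy⟩, hc⟩ := (Finsupp.mem_supported _ _).1 hw hσ
    rw [map_smul, map_sum]
    set c : ZMod 2 := if y ∈ H then 1 else 0
    have hval : ∀ v ∈ σ, (if v.2.out ∈ H then (1 : ZMod 2) else 0) = c := fun v hv => by
      rw [(hy v hv).2]
      simp only [hout, c]
    simp only [phi, Finsupp.linearCombination_single, one_smul]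
    have hin : ∀ v ∈ σ, (∑ u ∈ σ.erase v, if u.2.out ∈ H then (1 : ZMod 2) else 0) = c := fun v hv => by
      rw [sum_congr rfl fun u hu => hval u (mem_of_mem_erase hu), sum_const, card_erase_of_mem hv, hc,
        show 2 - 1 = 1 from rfl, one_smul]
    refine smul_eq_zero_of_right _ ((sum_congr rfl (g := fun _ => c) fun v hv => ?_).trans ?_)
    · exact cast (by congr; try exact Subsingleton.elim _ _) (hin v hv)
    · rw [sum_const, hc, two_nsmul, CharTwo.add_self_eq_zero]
  set z : Chain ((i : Fin k) × (GG p k s ⧸ KG p k s i)) :=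
    Finsupp.single {⟨i, (1 : GG p k s)⟩} 1 + Finsupp.single {⟨i, g⟩} 1 with hz
  have hmem : z ∈ (Wc p k s univ).chains 1 :=
    add_mem (Finsupp.single_mem_supported _ _ ⟨⟨1, fun v hv => by rw [mem_singleton] at hv; subst hv; exact ⟨mem_univ _, rfl⟩⟩,
      card_singleton _⟩) (Finsupp.single_mem_supported _ _
      ⟨⟨g, fun v hv => by rw [mem_singleton] at hv; subst hv; exact ⟨mem_univ _, rfl⟩⟩, card_singleton _⟩)
  obtain ⟨w, hw, hwz⟩ := h 1 (by omega) z hmem (by
    simp [hz, bd, Finsupp.linearCombination_single, ← Finsupp.single_add, CharTwo.add_self_eq_zero])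
  have h2 := hphi w hw
  rw [hwz] at h2
  simp only [hz, phi, map_add, Finsupp.linearCombination_single, one_smul, sum_singleton] at h2
  simp [hout, hg, one_mem] at h2

theorem sq_le_of_gap {κ : Type*} (S : Finset κ) (F : κ → ℝ) {c : ℝ} (hc : c < 1)
    (h : ∑ w ∈ S, F w * F w ≤ c * (Real.sqrt (∑ w ∈ S, F w ^ 2) * Real.sqrt (∑ w ∈ S, F w ^ 2))) :
    ∀ w ∈ S, F w = 0 := by
  simp only [← pow_two, Real.sq_sqrt (sum_nonneg fun w _ => sq_nonneg (F w))] at h
  have h0 : ∑ w ∈ S, F w ^ 2 = 0 := by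
    nlinarith [sum_nonneg fun w (_ : w ∈ S) => sq_nonneg (F w)]
  intro w hw
  exact pow_eq_zero_iff two_ne_zero |>.1
    ((sum_eq_zero_iff_of_nonneg fun w _ => sq_nonneg (F w)).1 h0 w hw)

/-- Small gaps in all links, the empty one included. -/
theorem link_gaps (d k : ℕ) [NeZero k] (hk : d + 3 ≤ k) (lam : ℝ) (hlam : 0 < lam) :
    ∃ p₀, ∀ (p : ℕ) [Fact p.Prime], p₀ ≤ p → ∀ (s : ℕ) [Fintype (GG p k s)], 2 ≤ s →
      (Wc p k s univ).Ex 2 → ∀ T : Finset (Fin k), T.card ≤ d → ∀ i j, i ∉ T → j ∉ T → i ≠ j →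
        LinkGap (fun g : GG p k s => (g : GG p k s ⧸ KG p k s i))
          (fun g : GG p k s => (g : GG p k s ⧸ KG p k s j))
          (fun g : GG p k s => (g : GG p k s ⧸ (⨅ l ∈ T, KG p k s l))) lam := by
  refine ⟨⌈4 / lam ^ 2⌉₊ + 4, fun p _ hp s _ hs hex T _ i j _ _ hij => ?_⟩
  have hp1 : 4 / lam ^ 2 ≤ p := (Nat.le_ceil _).trans (by exact_mod_cast (by omega))
  have hp4 : (4 : ℝ) ≤ p := by exact_mod_cast (by omega : 4 ≤ p)
  have hq0 := Real.sqrt_nonneg (1 / (p : ℝ))
  have hq2 := Real.sq_sqrt (show (0 : ℝ) ≤ 1 / p by positivity)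
  set q := Real.sqrt (1 / (p : ℝ))
  have hpq : (p : ℝ) * q ^ 2 = 1 := by rw [hq2]; field_simp
  have hqhalf : q ≤ 1 / 2 := by nlinarith
  have hqlam : 2 * q ≤ lam := by
    rw [div_le_iff₀ (by positivity)] at hp1
    nlinarith [mul_nonneg hq0 hlam.le]
  rcases T.eq_empty_or_nonempty with rfl | ⟨t, ht⟩
  · -- trickling down
    let π : Fin k → GG p k s → (l : Fin k) × (GG p k s ⧸ KG p k s l) := fun l g => ⟨l, g⟩
    have hπ : ∀ l w w', π l w = π l w' ↔ (w : GG p k s ⧸ KG p k s l) = w' := fun l w w' => by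
      simp [π]
    have hlink : ∀ a b c, a ≠ b → LinkGap (π a) (π b) (π c) q := fun a b c hab x f g hf hg =>
      coset_gap (T := {c}) hs (mem_singleton_self c) hab (π c)
        (fun w w' => by simp [hπ, QuotientGroup.eq])
        x f g (fun w w' h1 h2 h => hf w w' h1 h2 ((hπ _ _ _).2 h))
        (fun w w' h1 h2 h => hg w w' h1 h2 ((hπ _ _ _).2 h))
    have hjoin : ∀ a b, a ≠ b → Joined (π a) (π b) := by
      intro a b hab f hfa hfb
      have hinv : ∀ (l : Fin k) w w', π l w = π l w' → f w = f w' := by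
        intro l w w' hl
        set S := univ.filter fun y => π l y = π l w with hS
        set μ := (∑ y ∈ S, f y) / S.card
        have hcard : (S.card : ℝ) ≠ 0 :=
          Nat.cast_ne_zero.2 (card_ne_zero.2 ⟨w, by simp [hS]⟩)
        have h0 : ∑ y ∈ S, (f y - μ) = 0 := by
          rw [sum_sub_distrib, sum_const, nsmul_eq_mul, mul_div_cancel₀ _ hcard, sub_self]
        have hz := sq_le_of_gap S (fun y => f y - μ) (show q < 1 by linarith)
          (hlink a b l hab (π l w) _ _ (fun y y' _ _ h => by simp only [hfa y y' h])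
            (fun y y' _ _ h => by simp only [hfb y y' h]) h0 h0)
        have h1 := hz w (by simp [hS])
        have h2 := hz w' (by simp [hS, hl.symm])
        linarith
      intro w w'
      let St : Subgroup (GG p k s) :=
        { carrier := {c | ∀ y, f (y * c) = f y}
          one_mem' := fun y => by rw [mul_one]
          mul_mem' := fun {c c'} hc hc' y => by rw [← mul_assoc, hc', hc]
          inv_mem' := fun {c} hc y => by rw [← hc (y * c⁻¹), inv_mul_cancel_right] }
      have hle : (⨆ l, KG p k s l) ≤ St := iSup_le fun l c hc y =>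
        hinv l _ _ ((hπ _ _ _).2 (by simp [QuotientGroup.eq, inv_mem hc]))
      have := hle (iSup_KG_eq_top hex ▸ Subgroup.mem_top (w⁻¹ * w')) w
      rwa [mul_inv_cancel_left, eq_comm] at this
    have hthird : ∀ a b : Fin k, ∃ l, l ≠ a ∧ l ≠ b := fun a b => by
      have : (univ \ {a, b} : Finset (Fin k)).Nonempty := by
        rw [← card_pos, card_sdiff_of_subset (subset_univ _), card_univ, Fintype.card_fin]
        have := card_le_two (a := a) (b := b)
        omega
      obtain ⟨l, hl⟩ := this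
      exact ⟨l, by simpa using (mem_sdiff.1 hl).2⟩
    have hgap := pairGap_of_linkGap π hq0 hqhalf hthird hjoin
      (fun a b c hab _ _ => hlink a b c hab) i j hij
    intro x f g hf hg hf0 hg0
    have hall : univ.filter (fun w : GG p k s =>
        (w : GG p k s ⧸ (⨅ l ∈ (∅ : Finset (Fin k)), KG p k s l)) = x) = univ := by
      refine filter_true_of_mem fun w _ => ?_
      induction x using QuotientGroup.induction_on with
      | _ y => simp [QuotientGroup.eq]
    simp only [hall] at hf0 hg0 ⊢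
    have hmem : ∀ w : GG p k s,
        (w : GG p k s ⧸ (⨅ l ∈ (∅ : Finset (Fin k)), KG p k s l)) = x := fun w => by
      have hw := mem_univ w
      rw [← hall] at hw
      exact (mem_filter.1 hw).2
    refine (hgap f g (fun w w' h => hf w w' (hmem w) (hmem w') ((hπ _ _ _).1 h))
      (fun w w' h => hg w w' (hmem w) (hmem w') ((hπ _ _ _).1 h)) hf0 hg0).trans ?_
    exact mul_le_mul_of_nonneg_right hqlam (by positivity)
  · intro x f g hf hg hf0 hg0
    exact (coset_gap hs ht hij _ (fun w w' => by simp [QuotientGroup.eq, Subgroup.mem_iInf])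
      x f g hf hg hf0 hg0).trans
      (mul_le_mul_of_nonneg_right (show q ≤ lam by linarith) (by positivity))

end Vale.Agent.P067.Cob
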