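import Vale.Agent.P067.Cob.GlobalSpan
import Vale.Agent.P067.Cob.Building
import Vale.Agent.P067.Cob.Affine

/-!
Global vanishing (sections E1, E3, E4; owner helper15).
-/

namespace Vale.Agent.P067.Cob

open Finset

open scoped Classical

attribute [-instance] Sigma.instDecidableEqSigma instDecidableEqSigma

namespace GlobalAux

theorem nsmul_odd {V : Type*} {n : ℕ} (hn : Odd n) (z : Chain V) : n • z = z := by
  rw [← Nat.cast_smul_eq_nsmul (ZMod 2), ZMod.natCast_eq_one_iff_odd.2 hn, one_smul]

variable (p k : ℕ) [NeZero k] [Fact p.Prime] (s : ℕ)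

/-- The elements fixing a class modulo boundaries. -/
noncomputable def fixSub (m : ℕ) (c : Chain ((i : Fin k) × (GG p k s ⧸ KG p k s i))) :
    Subgroup (GG p k s) where
  carrier := {g | act (KG p k s) g c + c ∈ nul (Wc p k s univ) m}
  one_mem' := by
    show act (KG p k s) 1 c + c ∈ nul (Wc p k s univ) m
    rw [act_one, add_self']
    exact Submodule.zero_mem _
  mul_mem' {g h} hg hh := by
    show act (KG p k s) (g * h) c + c ∈ nul (Wc p k s univ) m
    have h1 : act (KG p k s) g (act (KG p k s) h c + c) ∈ nul (Wc p k s univ) m :=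
      mem_nul.2 (act_null _ _ g m _ (mem_nul.1 hh))
    have h2 := Submodule.add_mem _ h1 hg
    rwa [map_add, ← act_mul, add_assoc, ← add_assoc (act (KG p k s) g c), add_self',
      zero_add] at h2
  inv_mem' {g} hg := by
    show act (KG p k s) g⁻¹ c + c ∈ nul (Wc p k s univ) m
    have h1 : act (KG p k s) g⁻¹ (act (KG p k s) g c + c) ∈ nul (Wc p k s univ) m :=
      mem_nul.2 (act_null _ _ g⁻¹ m _ (mem_nul.1 hg))
    rwa [map_add, ← act_mul, inv_mul_cancel, act_one, add_comm] at h1

/-- A class fixed by a subgroup of odd order agrees with its orbit sum. -/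
theorem sum_fixed {m : ℕ} (c : Chain ((i : Fin k) × (GG p k s ⧸ KG p k s i)))
    (N : Subgroup (GG p k s)) [Fintype N] (hN : N ≤ fixSub p k s m c)
    (hodd : Odd (Nat.card N)) :
    ∑ x : N, act (KG p k s) (x : GG p k s) c + c ∈ nul (Wc p k s univ) m := by
  have h := Submodule.sum_mem (nul (Wc p k s univ) m)
    fun (x : N) (_ : x ∈ Finset.univ) => (hN x.2 : act (KG p k s) (x : GG p k s) c + c ∈ _)
  rwa [Finset.sum_add_distrib, Finset.sum_const, Finset.card_univ, ← Nat.card_eq_fintype_card,
    nsmul_odd hodd] at h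

/-- Sections E2 to E4: corner classes missing at least `r` indices vanish. -/
theorem corner_null (hp : p ≠ 2) (hs : 2 ≤ s) (M r m : ℕ) (hm : m < M) (hrM : 2 * M + 2 ≤ r)
    (hrk : r ≤ k) (hU : (Uc p k univ).Ex M)
    (hsel : ∀ (a : Fin k) (r' : ℕ), 2 * M + 2 ≤ r' → r' ≤ k →
      ∀ σ, (Wc p k s univ).face σ → σ.Nonempty → (∀ v ∈ σ, v.1 ∉ cyc a r') →
        (((Wc p k s univ).link σ).restrict fun v => v.1 ∈ cyc a r').Ex M)
    (k' : ℕ) [NeZero k'] (hk' : k' + r = k) (e : Fin k' ↪o Fin k)
    (y : Chain ((i : Fin k') × (GG p k' s ⧸ KG p k' s i)))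
    (hy : y ∈ (Wc p k' s univ).chains m) (hyc : bd y = 0) :
    (Wc p k s univ).Null m (vpush (cornerV p k e s) y) := by
  set c := vpush (cornerV p k e s) y with hc
  have hf := cornerV_isMap p k e s (univ : Finset (Fin k'))
  have hcch : c ∈ (Wc p k s univ).chains m := hf.chains hy
  have hcb : bd c = 0 := by rw [hc, hf.bd_vpush hy, hyc, map_zero]
  have := finite_GG p k s
  let := Fintype.ofFinite (GG p k s)
  have hpodd : Odd p := (Fact.out : p.Prime).odd_of_ne_two hp
  have hodd : ∀ N : Subgroup (GG p k s), Odd (Nat.card N) := fun N => by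
    obtain ⟨a, ha⟩ := card_GG p k s
    exact Odd.of_dvd_nat (ha ▸ hpodd.pow) N.card_subgroup_dvd_card
  set D : Finset (Fin k) := (univ.image e)ᶜ with hD
  have hDcard : D.card = r := by
    rw [hD, Finset.card_compl, Finset.card_image_of_injective _ e.injective, Finset.card_univ,
      Fintype.card_fin, Fintype.card_fin]
    omega
  have hDmem : ∀ a ∈ D, ∀ x, e x ≠ a := fun a ha x hx =>
    Finset.mem_compl.1 (hD ▸ ha) (Finset.mem_image.2 ⟨x, Finset.mem_univ _, hx⟩)
  -- roots touching `D`
  have htop : NH p k s (k - r + 1) ≤ fixSub p k s m c := by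
    rw [← hDcard]
    refine NH_le_of_roots p k s D (by omega) _ fun a b g hg hab => ?_
    exact mem_nul.2 (root_fix p k k' M s hp hs hU e a b g hg
      (hab.imp (hDmem a) (hDmem b)) m hm y hy hyc)
  -- descent
  have hdesc : ∀ t, t ≤ k - r → NH p k s (k - r + 1 - t) ≤ fixSub p k s m c := by
    intro t
    induction t with
    | zero => exact fun _ => htop
    | succ t ih =>
      intro ht
      set h := k - r + 1 - (t + 1) with hh
      have hsucc : NH p k s (h + 1) ≤ fixSub p k s m c := by
        rw [show h + 1 = k - r + 1 - t by omega]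
        exact ih (by omega)
      refine NH_step p k s h (by omega) (by omega) _ hsucc fun a g hgK hgN => ?_
      set a' : Fin k := a + 1 + Fin.ofNat k h with ha'
      obtain ⟨y', hy', -, hn⟩ := move (Wc p k s univ) (fun v => v.1 ∈ cyc a' r) M
        (fun σ hne hσ hP => ex_mono (Nat.sub_le _ _) (hsel a' r hrM hrk σ hσ hne hP))
        hm c hcch hcb
      replace hy' : y' ∈ (Wc p k s (cyc a' r)).chains m := by
        rw [coset_restrict] at hy'
        convert hy' using 3
        simp
      have := NH_normal p k s (h + 1)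
      set N := NH p k s (h + 1) with hN
      have hinv := act_orbit (KG p k s) (cyc a' r) N g (fun x => by
        have h1 := N.inv_mem (NH_central p k s h g hgN x)
        simpa [hN, mul_assoc, mul_inv_rev] using h1) (fun i hi => hgK i (cyc_disjoint (a + 1)
          (by omega) hi)) y' hy'
      set y'' := ∑ x : N, act (KG p k s) (x : GG p k s) y' with hy''
      have h1 : y'' + c ∈ nul (Wc p k s univ) m := by
        have h2 : y'' + ∑ x : N, act (KG p k s) (x : GG p k s) c ∈ nul (Wc p k s univ) m := by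
          rw [hy'', ← Finset.sum_add_distrib]
          refine Submodule.sum_mem _ fun x _ => ?_
          rw [← map_add, add_comm]
          exact mem_nul.2 (act_null _ _ _ _ _ hn)
        have h3 := Submodule.add_mem _ h2 (sum_fixed p k s c N hsucc (hodd N))
        rwa [add_assoc, ← add_assoc (∑ x : N, act (KG p k s) (x : GG p k s) c), add_self',
          zero_add] at h3
      have h4 : act (KG p k s) g (y'' + c) ∈ nul (Wc p k s univ) m :=
        mem_nul.2 (act_null _ _ _ _ _ (mem_nul.1 h1))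
      have h5 := Submodule.add_mem _ h4 h1
      show act (KG p k s) g c + c ∈ nul (Wc p k s univ) m
      rw [map_add, hinv] at h5
      rwa [add_add_add_comm, add_self', zero_add] at h5
  have hall : (⊤ : Subgroup (GG p k s)) ≤ fixSub p k s m c := by
    have := hdesc (k - r) le_rfl
    rwa [show k - r + 1 - (k - r) = 1 by omega, NH_one] at this
  have h6 : ∑ g : GG p k s, act (KG p k s) g c + c ∈ nul (Wc p k s univ) m := by
    have h7 := Submodule.sum_mem (nul (Wc p k s univ) m)
      fun (g : GG p k s) (_ : g ∈ Finset.univ) =>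
        (hall (Subgroup.mem_top g) : act (KG p k s) g c + c ∈ _)
    have h8 : Odd (Fintype.card (GG p k s)) := by
      obtain ⟨a, ha⟩ := card_GG p k s
      rw [← Nat.card_eq_fintype_card, ha]
      exact hpodd.pow
    rwa [Finset.sum_add_distrib, Finset.sum_const, Finset.card_univ, nsmul_odd h8] at h7
  have h9 : ∑ g : GG p k s, act (KG p k s) g c ∈ nul (Wc p k s univ) m :=
    mem_nul.2 (orbit_sum_null (KG p k s) (0 : Fin k) c hcch hcb)
  have h10 := Submodule.add_mem _ h9 h6
  rwa [← add_assoc, add_self', zero_add] at h10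

/-- Every cycle is a boundary, given the smaller sizes in nearby ranks. -/
theorem top_null (hp : p ≠ 2) (hs : 2 ≤ s) (M r c m : ℕ) (hm : m < M) (hrM : 2 * M + 2 ≤ r)
    (hk : 3 * r + (r + 1) * c + M + 1 ≤ k) (hU : (Uc p k univ).Ex M)
    (hIH : ∀ (q : ℕ) [NeZero q], k ≤ q + r + M → q < k → ∀ m', m' < M → (Wc p q s univ).Ex m')
    (hsel : ∀ (q : ℕ) [NeZero q], k ≤ q + r + M → q ≤ k → ∀ (a : Fin q) (r' : ℕ),
      2 * M + 2 ≤ r' → r' ≤ q →
      ∀ σ, (Wc p q s univ).face σ → σ.Nonempty → (∀ v ∈ σ, v.1 ∉ cyc a r') →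
        (((Wc p q s univ).link σ).restrict fun v => v.1 ∈ cyc a r').Ex M)
    (hfr : ∀ (q : ℕ) [NeZero q], ∀ T pool' : Finset (Fin q), (T.card + 1) * c ≤ pool'.card →
      (coset (fun i => (PG p q s i).subgroupOf (⨅ j ∈ T, KG p q s j)) pool').Ex M)
    (z : Chain ((i : Fin k) × (GG p k s ⧸ KG p k s i))) (hz : z ∈ (Wc p k s univ).chains m)
    (hzc : bd z = 0) : (Wc p k s univ).Null m z := by
  have hclaim : ∀ b, ∀ (q : ℕ) [NeZero q], q + r = k + b → q ≤ k →
      ∀ (e : Fin q ↪o Fin k) (y : Chain ((i : Fin q) × (GG p q s ⧸ KG p q s i))),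
        y ∈ (Wc p q s univ).chains m → bd y = 0 →
          (Wc p k s univ).Null m (vpush (cornerV p k e s) y) := by
    intro b
    induction b with
    | zero =>
      intro q _ hq _ e y hy hyc
      exact corner_null p k s hp hs M r m hm hrM (by omega) hU
        (hsel k (by omega) le_rfl) q hq e y hy hyc
    | succ b ih =>
      intro q _ hq hqk e y hy hyc
      have : NeZero (q - 1) := ⟨by omega⟩
      refine mem_nul.1 (Submodule.mem_comap.1 (span p q s M r c hs hrM (by omega)
        (fun q' _ h1 h2 m' hm' => hIH q' (by omega) (by omega) m' hm')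
        (fun q' _ h1 h2 => hsel q' (by omega) (by omega))
        (hfr q) (q - 1) (by omega) hm
        ((nul (Wc p k s univ) m).comap (vpush (cornerV p k e s))) ?_ ?_ y hy hyc))
      · intro w hw
        exact mem_nul.2 ((cornerV_isMap p k e s univ).null hw)
      · intro e' y' g hy' hyc'
        rw [Submodule.mem_comap, vpush_cornerV_act, vpush_vpush,
          show cornerV p k e s ∘ cornerV p q e' s = cornerV p k (e'.trans e) s from
            funext (cornerV_comp p k e s e')]
        exact mem_nul.2 (act_null _ _ _ _ _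
          (ih (q - 1) (by omega) (by omega) (e'.trans e) y' hy' hyc'))
  have h := hclaim r k rfl le_rfl (OrderIso.refl (Fin k)).toOrderEmbedding z hz hzc
  rwa [show cornerV p k (OrderIso.refl (Fin k)).toOrderEmbedding s = id from
    funext (cornerV_refl p k s), vpush_id'] at h

end GlobalAux

open GlobalAux in
theorem Wc_ex (m : ℕ) : ∃ k₀, ∀ (k : ℕ) [NeZero k], k₀ ≤ k → ∃ p₀, ∀ (p : ℕ) [Fact p.Prime],
    p₀ ≤ p → ∀ s, 2 ≤ s → (Wc p k s univ).Ex m := by
  induction m with
  | zero => exact ⟨0, fun k _ _ => ⟨0, fun p _ _ s _ j hj => absurd hj (Nat.not_lt_zero j)⟩⟩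
  | succ m ih =>
    obtain ⟨k₁, hk₁⟩ := ih
    obtain ⟨kU, hkU⟩ := Uc_ex (m + 1)
    obtain ⟨c, hfr⟩ := frames_ex (m + 1)
    set M := m + 1 with hM
    set r := 2 * M + 2 with hr
    refine ⟨k₁ + kU + 3 * r + (r + 1) * c + r + M + 1, fun k _ hk => ?_⟩
    obtain ⟨pU, hpU⟩ := hkU k (by omega)
    have hW : ∀ q : ℕ, ∃ p₀, ∀ [NeZero q], k₁ ≤ q → ∀ (p : ℕ) [Fact p.Prime], p₀ ≤ p →
        ∀ s, 2 ≤ s → (Wc p q s univ).Ex m := by
      intro q
      by_cases hq : q ≠ 0 ∧ k₁ ≤ q
      · have : NeZero q := ⟨hq.1⟩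
        obtain ⟨p₀, h⟩ := hk₁ q hq.2
        exact ⟨p₀, fun _ => h⟩
      · exact ⟨0, fun {hn} h => absurd ⟨hn.out, h⟩ hq⟩
    have hS : ∀ q : ℕ, ∃ p₀, ∀ [NeZero q], ∀ (p : ℕ) [Fact p.Prime], p₀ ≤ p →
        ∀ s, 2 ≤ s → ∀ (a : Fin q) (r' : ℕ), 2 * M + 2 ≤ r' → r' ≤ q →
        ∀ σ, (Wc p q s univ).face σ → σ.Nonempty → (∀ v ∈ σ, v.1 ∉ cyc a r') →
          (((Wc p q s univ).link σ).restrict fun v => v.1 ∈ cyc a r').Ex M := by
      intro q
      by_cases hq : q = 0
      · exact ⟨0, fun {hn} => absurd hq hn.out⟩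
      · have : NeZero q := ⟨hq⟩
        obtain ⟨p₀, h⟩ := sel_link_Wc M q
        exact ⟨p₀, fun {_} p _ hp => h p hp⟩
    choose pW hpW using hW
    choose pS hpS using hS
    refine ⟨pU + 3 + ∑ q ∈ Finset.range (k + 1), (pW q + pS q), fun p _ hp s hs => ?_⟩
    have hle : ∀ q ≤ k, pW q + pS q ≤ p := fun q hq => by
      refine le_trans ?_ ((Nat.le_add_left _ _).trans hp)
      exact Finset.single_le_sum (f := fun q => pW q + pS q) (fun _ _ => Nat.zero_le _)
        (Finset.mem_range.2 (Nat.lt_succ_of_le hq))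
    intro j hj z hz hzc
    rcases Nat.lt_or_ge j m with hjm | hjm
    · exact hpW k (by omega) p (by linarith [hle k le_rfl]) s hs j hjm z hz hzc
    · refine top_null p k s (by omega) hs M r c j (by omega) le_rfl (by omega) (hpU p (by omega))
        ?_ ?_ (fun q _ => hfr p q s hs) z hz hzc
      · intro q _ h1 h2 m' hm'
        exact ex_mono (show m' ≤ m by omega)
          (hpW q (by omega) p (by linarith [hle q h2.le]) s hs)
      · intro q _ h1 h2
        exact hpS q p (by linarith [hle q h2]) s hs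

end Vale.Agent.P067.Cob
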