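import Vale.Agent.P067.Cob.Coset

/-!
Chain lemmas for the global vanishing step: maps of vertices, moving a cycle into a part,
the simplex, and orbit sums of cells.
-/

namespace Vale.Agent.P067.Cob.GlobalAux

open Finset

open scoped Classical

attribute [-instance] Sigma.instDecidableEqSigma instDecidableEqSigma

variable {V W X : Type*}

theorem add_self' (z : Chain V) : z + z = 0 := ZModModule.add_self z

theorem bd_single_one (σ : Finset V) :
    bd (Finsupp.single σ (1 : ZMod 2)) = ∑ v ∈ σ, Finsupp.single (σ.erase v) (1 : ZMod 2) := by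
  simp [bd, Finsupp.linearCombination_single]

theorem vpush_single_one (f : V → W) (σ : Finset V) :
    vpush f (Finsupp.single σ (1 : ZMod 2)) = Finsupp.single (σ.image f) 1 := by
  simp [vpush, Finsupp.lmapDomain_apply, Finsupp.mapDomain_single]

theorem joinF_single_one (F σ : Finset V) :
    joinF F (Finsupp.single σ (1 : ZMod 2)) = Finsupp.single (σ ∪ F) 1 := by
  simp [joinF, Finsupp.lmapDomain_apply, Finsupp.mapDomain_single]

/-- A linear image lies in a submodule if the images of the faces occurring do. -/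
theorem map_mem (Φ : Chain V →ₗ[ZMod 2] Chain W) (N : Submodule (ZMod 2) (Chain W))
    (z : Chain V) (h : ∀ σ ∈ z.support, Φ (Finsupp.single σ 1) ∈ N) : Φ z ∈ N := by
  conv => enter [2, 2]; rw [← z.sum_single, Finsupp.sum]
  rw [map_sum]
  refine N.sum_mem fun σ hσ => ?_
  have : Finsupp.single σ (z σ) = z σ • Finsupp.single σ (1 : ZMod 2) := by
    rw [Finsupp.smul_single', mul_one]
  rw [this, map_smul]
  exact N.smul_mem _ (h σ hσ)

/-- Two linear maps agree on a chain if they agree on the faces occurring in it. -/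
theorem map_eq (Φ Ψ : Chain V →ₗ[ZMod 2] Chain W) (z : Chain V)
    (h : ∀ σ ∈ z.support, Φ (Finsupp.single σ 1) = Ψ (Finsupp.single σ 1)) : Φ z = Ψ z := by
  have := map_mem (Φ - Ψ) ⊥ z fun σ hσ => by simp [h σ hσ]
  simpa [sub_eq_zero] using this

theorem mem_supported_iff {s : Set (Finset V)} {z : Chain V} :
    z ∈ Finsupp.supported (ZMod 2) (ZMod 2) s ↔ ∀ σ ∈ z.support, σ ∈ s := by
  rw [Finsupp.mem_supported]
  exact Iff.rfl

theorem face_of_chains {K : Cplx V} {j : ℕ} {z : Chain V} (hz : z ∈ K.chains j) {σ : Finset V}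
    (hσ : σ ∈ z.support) : K.face σ ∧ σ.card = j := mem_supported_iff.1 hz σ hσ

theorem single_mem_chains {K : Cplx V} {σ : Finset V} {j : ℕ} (h : K.face σ) (hc : σ.card = j) :
    Finsupp.single σ (1 : ZMod 2) ∈ K.chains j :=
  Finsupp.single_mem_supported (ZMod 2) 1 (show σ ∈ {σ | K.face σ ∧ σ.card = j} from ⟨h, hc⟩)

theorem bd_vpush (f : V → W) (z : Chain V)
    (h : ∀ σ ∈ z.support, Set.InjOn f (σ : Set V)) : bd (vpush f z) = vpush f (bd z) := by
  refine map_eq (bd.comp (vpush f)) ((vpush f).comp bd) z fun σ hσ => ?_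
  simp only [LinearMap.comp_apply, vpush_single_one, bd_single_one, map_sum]
  rw [Finset.sum_image (h σ hσ)]
  refine Finset.sum_congr rfl fun v hv => ?_
  congr 1
  ext w
  simp only [Finset.mem_erase, Finset.mem_image]
  constructor
  · rintro ⟨hne, u, hu, rfl⟩
    exact ⟨u, ⟨fun e => hne (by rw [e]), hu⟩, rfl⟩
  · rintro ⟨u, ⟨hne, hu⟩, rfl⟩
    exact ⟨fun e => hne (h σ hσ hu hv e), u, hu, rfl⟩

theorem vpush_vpush (f : V → W) (g : W → X) (z : Chain V) :
    vpush g (vpush f z) = vpush (g ∘ f) z :=
  map_eq ((vpush g).comp (vpush f)) (vpush (g ∘ f)) z fun σ _ => by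
    simp only [LinearMap.comp_apply, vpush_single_one, Finset.image_image]

theorem vpush_id' (z : Chain V) : vpush (id : V → V) z = z :=
  map_eq (vpush id) LinearMap.id z fun σ _ => by
    simp [vpush_single_one]

theorem vpush_injective {f : V → W} (hf : Function.Injective f) :
    Function.Injective (vpush f) := by
  intro a b h
  exact Finsupp.mapDomain_injective (Finset.image_injective hf) h

/-- A vertex map that is injective on faces and sends faces to faces. -/
structure IsMap (f : V → W) (K : Cplx V) (K' : Cplx W) : Prop where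
  injOn : ∀ σ, K.face σ → Set.InjOn f (σ : Set V)
  face : ∀ σ, K.face σ → K'.face (σ.image f)

theorem IsMap.chains {f : V → W} {K : Cplx V} {K' : Cplx W} (hf : IsMap f K K') {j : ℕ}
    {z : Chain V} (hz : z ∈ K.chains j) : vpush f z ∈ K'.chains j := by
  refine map_mem (vpush f) _ z fun σ hσ => ?_
  obtain ⟨h1, h2⟩ := face_of_chains hz hσ
  rw [vpush_single_one]
  exact single_mem_chains (hf.face σ h1) (by rw [Finset.card_image_of_injOn (hf.injOn σ h1), h2])

theorem IsMap.bd_vpush {f : V → W} {K : Cplx V} {K' : Cplx W} (hf : IsMap f K K') {j : ℕ}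
    {z : Chain V} (hz : z ∈ K.chains j) : bd (vpush f z) = vpush f (bd z) :=
  GlobalAux.bd_vpush f z fun σ hσ => hf.injOn σ (face_of_chains hz hσ).1

theorem IsMap.null {f : V → W} {K : Cplx V} {K' : Cplx W} (hf : IsMap f K K') {j : ℕ}
    {z : Chain V} (hz : K.Null j z) : K'.Null j (vpush f z) := by
  obtain ⟨w, hw, rfl⟩ := hz
  exact ⟨vpush f w, hf.chains hw, hf.bd_vpush hw⟩

/-- The boundaries of a fixed size, as a submodule. -/
noncomputable def nul (K : Cplx V) (j : ℕ) : Submodule (ZMod 2) (Chain V) :=
  (K.chains (j + 1)).map bd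

theorem mem_nul {K : Cplx V} {j : ℕ} {z : Chain V} : z ∈ nul K j ↔ K.Null j z := Iff.rfl

theorem null_mono {K K' : Cplx V} (h : ∀ σ, K.face σ → K'.face σ) {j : ℕ} {z : Chain V}
    (hz : K.Null j z) : K'.Null j z := by
  obtain ⟨w, hw, e⟩ := hz
  exact ⟨w, mem_supported_iff.2 fun σ hσ =>
    ⟨h σ (face_of_chains hw hσ).1, (face_of_chains hw hσ).2⟩, e⟩

theorem ex_mono {K : Cplx V} {m m' : ℕ} (h : m' ≤ m) (hK : K.Ex m) : K.Ex m' :=
  fun j hj => hK j (lt_of_lt_of_le hj h)

/-! ### Moving a cycle into a part -/

/-- The vertices outside the part. -/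
noncomputable def out (P : V → Prop) (σ : Finset V) : Finset V := σ.filter fun v => ¬ P v

/-- The inside of the faces with outside equal to `F`. -/
noncomputable def slice (P : V → Prop) (F : Finset V) : Chain V →ₗ[ZMod 2] Chain V :=
  Finsupp.linearCombination (ZMod 2) fun σ : Finset V =>
    if out P σ = F then Finsupp.single (σ.filter P) (1 : ZMod 2) else 0

theorem slice_single (P : V → Prop) (F σ : Finset V) :
    slice P F (Finsupp.single σ (1 : ZMod 2)) =
      if out P σ = F then Finsupp.single (σ.filter P) (1 : ZMod 2) else 0 := by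
  simp [slice, Finsupp.linearCombination_single]

/-- A cycle is homologous to one inside a part with exact outside links. -/
theorem move (K : Cplx V) (P : V → Prop) (M : ℕ)
    (h : ∀ F, F.Nonempty → K.face F → (∀ v ∈ F, ¬ P v) →
      ((K.link F).restrict P).Ex (M - F.card))
    {j : ℕ} (hj : j < M) (z : Chain V) (hz : z ∈ K.chains j) (hzc : bd z = 0) :
    ∃ z' ∈ (K.restrict P).chains j, bd z' = 0 ∧ K.Null j (z + z') := by
  suffices H : ∀ a : ℕ, ∀ z ∈ K.chains j, bd z = 0 → (∀ σ ∈ z.support, (out P σ).card ≤ a) →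
      ∃ z' ∈ (K.restrict P).chains j, bd z' = 0 ∧ K.Null j (z + z') from
    H j z hz hzc fun σ hσ => (Finset.card_filter_le _ _).trans (face_of_chains hz hσ).2.le
  intro a
  induction a with
  | zero =>
    intro z hz hzc ha
    refine ⟨z, mem_supported_iff.2 fun σ hσ => ⟨⟨(face_of_chains hz hσ).1, fun v hv => ?_⟩,
      (face_of_chains hz hσ).2⟩, hzc, ?_⟩
    · have := Finset.filter_eq_empty_iff.1 (Finset.card_eq_zero.1 (Nat.le_zero.1 (ha σ hσ))) hv
      exact not_not.1 this
    · rw [add_self']
      exact ⟨0, Submodule.zero_mem _, map_zero _⟩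
  | succ a ih =>
    intro z hz hzc ha
    set L : Submodule (ZMod 2) (Chain V) :=
      Finsupp.supported (ZMod 2) (ZMod 2) {σ | (out P σ).card ≤ a} with hL
    set FF := (z.support.image (out P)).filter fun F => F.card = a + 1 with hFF
    have hFfacts : ∀ F ∈ FF, F.card = a + 1 ∧ K.face F ∧ (∀ v ∈ F, ¬ P v) ∧ a + 1 ≤ j := by
      intro F hF
      obtain ⟨h1, h2⟩ := Finset.mem_filter.1 hF
      obtain ⟨σ, hσ, rfl⟩ := Finset.mem_image.1 h1
      refine ⟨h2, K.down (face_of_chains hz hσ).1 (Finset.filter_subset _ _),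
        fun v hv => (Finset.mem_filter.1 hv).2, ?_⟩
      rw [← h2, ← (face_of_chains hz hσ).2]
      exact Finset.card_filter_le _ _
    have hfill : ∀ F ∈ FF, ∃ w ∈ ((K.link F).restrict P).chains (j - (a + 1) + 1),
        bd w = slice P F z := by
      intro F hF
      obtain ⟨hc, hf, hP, hja⟩ := hFfacts F hF
      refine h F (Finset.card_pos.1 (by omega)) hf hP (j - (a + 1)) (by omega) _ ?_ ?_
      · refine map_mem (slice P F) _ z fun σ hσ => ?_
        rw [slice_single]
        split_ifs with hout
        · have hu : σ.filter P ∪ F = σ := by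
            rw [← hout]; exact Finset.filter_union_filter_not_eq P σ
          have hd : Disjoint (σ.filter P) F :=
            Finset.disjoint_left.2 fun v hv hv' => hP v hv' (Finset.mem_filter.1 hv).2
          refine single_mem_chains ⟨Or.inr ⟨hd, by rw [hu]; exact (face_of_chains hz hσ).1⟩,
            fun v hv => (Finset.mem_filter.1 hv).2⟩ ?_
          have := Finset.card_union_of_disjoint hd
          rw [hu, (face_of_chains hz hσ).2] at this
          omega
        · exact Submodule.zero_mem _
      · have e : bd (slice P F z) = slice P F (bd z) := by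
          refine map_eq (bd.comp (slice P F)) ((slice P F).comp bd) z fun σ hσ => ?_
          simp only [LinearMap.comp_apply, slice_single, bd_single_one, map_sum]
          split_ifs with hout
          · rw [bd_single_one, ← Finset.sum_filter_add_sum_filter_not σ P]
            rw [Finset.sum_eq_zero (s := σ.filter fun v => ¬ P v), add_zero]
            · refine Finset.sum_congr rfl fun v hv => ?_
              obtain ⟨hvσ, hvP⟩ := Finset.mem_filter.1 hv
              rw [if_pos, Finset.filter_erase]
              rw [← hout, out, out, Finset.filter_erase, Finset.erase_eq_of_notMem]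
              simp [hvP]
            · intro v hv
              rw [if_neg]
              intro e
              have : v ∈ out P (σ.erase v) := by rw [e, ← hout]; exact hv
              simp [out] at this
          · rw [map_zero]
            refine (Finset.sum_eq_zero fun v _ => ?_).symm
            rw [if_neg]
            intro e
            refine hout (Finset.eq_of_subset_of_card_le ?_ ?_).symm
            · rw [← e]; exact Finset.filter_subset_filter _ (Finset.erase_subset _ _)
            · rw [hc]; exact ha σ hσ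
        rw [e, hzc, map_zero]
    choose! w hw hwb using hfill
    set Wt := ∑ F ∈ FF, joinF F (w F) with hWt
    have hWK : Wt ∈ K.chains (j + 1) := by
      refine Submodule.sum_mem _ fun F hF => map_mem (joinF F) _ _ fun τ hτ => ?_
      obtain ⟨hc, hf, hP, hja⟩ := hFfacts F hF
      obtain ⟨⟨h1, hτP⟩, h2⟩ := face_of_chains (hw F hF) hτ
      rw [joinF_single_one]
      rcases h1 with rfl | ⟨hd, hface⟩
      · simp at h2
      · refine single_mem_chains hface ?_
        rw [Finset.card_union_of_disjoint hd, h2, hc]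
        omega
    -- the top outside layer cancels
    have h1 : z + ∑ F ∈ FF, joinF F (slice P F z) ∈ L := by
      have h0 := map_mem (LinearMap.id + ∑ F ∈ FF, (joinF F).comp (slice P F)) L z fun σ hσ => ?_
      · simpa using h0
      simp only [LinearMap.add_apply, LinearMap.id_apply, LinearMap.sum_apply,
        LinearMap.comp_apply, slice_single, apply_ite, map_zero, joinF_single_one]
      by_cases hmem : out P σ ∈ FF
      · rw [Finset.sum_eq_single (out P σ) (fun F _ hne => if_neg (Ne.symm hne))
          (fun hn => absurd hmem hn), if_pos rfl]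
        rw [show σ.filter P ∪ out P σ = σ from Finset.filter_union_filter_not_eq P σ, add_self']
        exact Submodule.zero_mem _
      · rw [Finset.sum_eq_zero (fun F hF => if_neg fun e : out P σ = F => hmem (e ▸ hF)), add_zero]
        refine mem_supported_iff.2 fun τ hτ => ?_
        have hτσ : τ = σ := Finset.mem_singleton.1 (Finsupp.support_single_subset hτ)
        subst hτσ
        by_contra hcon
        exact hmem (Finset.mem_filter.2 ⟨Finset.mem_image_of_mem _ hσ,
          le_antisymm (ha τ hσ) (Nat.lt_of_not_le hcon)⟩)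
    have h2 : ∀ F ∈ FF, bd (joinF F (w F)) + joinF F (slice P F z) ∈ L := by
      intro F hF
      rw [← hwb F hF]
      obtain ⟨hc, hf, hP, hja⟩ := hFfacts F hF
      have h0 := map_mem (bd.comp (joinF F) + (joinF F).comp bd) L (w F) fun τ hτ => ?_
      · simpa using h0
      obtain ⟨⟨-, hτP⟩, -⟩ := face_of_chains (hw F hF) hτ
      have hd : Disjoint τ F := Finset.disjoint_left.2 fun v hv hv' => hP v hv' (hτP v hv)
      simp only [LinearMap.add_apply, LinearMap.comp_apply, joinF_single_one, bd_single_one,
        map_sum]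
      rw [Finset.sum_union hd]
      rw [show ∑ v ∈ τ, Finsupp.single ((τ ∪ F).erase v) (1 : ZMod 2)
          = ∑ v ∈ τ, Finsupp.single (τ.erase v ∪ F) (1 : ZMod 2) from
        Finset.sum_congr rfl fun v hv => by
          rw [Finset.erase_union_distrib, Finset.erase_eq_of_notMem (Finset.disjoint_left.1 hd hv)],
        add_right_comm, add_self', zero_add]
      refine Submodule.sum_mem _ fun v hv => mem_supported_iff.2 fun ρ hρ => ?_
      rw [Finset.mem_singleton.1 (Finsupp.support_single_subset hρ)]
      show (out P _).card ≤ a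
      have hsub : out P ((τ ∪ F).erase v) ⊆ F.erase v := by
        intro u hu
        simp only [out, Finset.mem_filter, Finset.mem_erase, Finset.mem_union] at hu ⊢
        exact ⟨hu.1.1, hu.1.2.resolve_left fun hh => hu.2 (hτP u hh)⟩
      have := Finset.card_le_card hsub
      rw [Finset.card_erase_of_mem hv, hc] at this
      omega
    have h3 : z + bd Wt ∈ L := by
      have h4 := L.add_mem h1 (Submodule.sum_mem L h2)
      rw [Finset.sum_add_distrib] at h4
      rw [hWt, map_sum]
      rwa [show ∀ A B : Chain V, (z + A) + (B + A) = z + B + (A + A) from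
        fun A B => by abel, add_self', add_zero] at h4
    have hb : bd Wt ∈ K.chains j := by
      refine map_mem bd _ Wt fun σ hσ => ?_
      rw [bd_single_one]
      refine Submodule.sum_mem _ fun v hv => ?_
      obtain ⟨h5, h6⟩ := face_of_chains hWK hσ
      exact single_mem_chains (K.down h5 (Finset.erase_subset _ _))
        (by rw [Finset.card_erase_of_mem hv]; omega)
    have hcyc : bd (z + bd Wt) = 0 := by
      rw [map_add, hzc, zero_add]
      refine map_eq (bd.comp bd) 0 Wt fun σ _ => ?_
      simp only [LinearMap.comp_apply, bd_single_one, map_sum, LinearMap.zero_apply]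
      refine Finset.sum_sigma' σ (fun v => σ.erase v)
        (fun v u => Finsupp.single ((σ.erase v).erase u) (1 : ZMod 2)) |>.trans ?_
      refine Finset.sum_involution (fun x _ => ⟨x.2, x.1⟩) ?_ ?_ ?_ ?_
      · intro x hx
        rw [Finset.erase_right_comm, add_self']
      · intro x hx _ e
        simp only [Finset.mem_sigma, Finset.mem_erase] at hx
        exact hx.2.1 (congrArg Sigma.fst e)
      · intro x hx
        simp only [Finset.mem_sigma, Finset.mem_erase] at hx ⊢
        exact ⟨hx.2.2, Ne.symm hx.2.1, hx.1⟩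
      · intro x hx
        rfl
    obtain ⟨z', hz', hzc', hnull⟩ := ih (z + bd Wt) (Submodule.add_mem _ hz hb) hcyc
      fun σ hσ => mem_supported_iff.1 h3 σ hσ
    refine ⟨z', hz', hzc', mem_nul.1 ?_⟩
    have := Submodule.add_mem (nul K j) (mem_nul.2 hnull) (mem_nul.2 ⟨Wt, hWK, rfl⟩)
    rwa [show z + bd Wt + z' + bd Wt = z + z' + (bd Wt + bd Wt) by abel, add_self',
      add_zero] at this

/-! ### The simplex -/

/-- The cone at a vertex in the full simplex. -/
noncomputable def simpCone (v₀ : V) : Chain V →ₗ[ZMod 2] Chain V :=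
  Finsupp.linearCombination (ZMod 2) fun T : Finset V =>
    if v₀ ∈ T then 0 else Finsupp.single (insert v₀ T) (1 : ZMod 2)

theorem simpCone_single (v₀ : V) (T : Finset V) :
    simpCone v₀ (Finsupp.single T (1 : ZMod 2)) =
      if v₀ ∈ T then 0 else Finsupp.single (insert v₀ T) (1 : ZMod 2) := by
  simp [simpCone, Finsupp.linearCombination_single]

theorem bd_simpCone (v₀ : V) (b : Chain V) (hb : bd b = 0) : bd (simpCone v₀ b) = b := by
  have h : (bd.comp (simpCone v₀) + (simpCone v₀).comp bd) b = LinearMap.id (R := ZMod 2) b := by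
    refine map_eq _ _ b fun T _ => ?_
    simp only [LinearMap.add_apply, LinearMap.comp_apply, LinearMap.id_apply, simpCone_single,
      bd_single_one, map_sum]
    by_cases hT : v₀ ∈ T
    · rw [if_pos hT, map_zero, zero_add, Finset.sum_eq_single v₀]
      · rw [if_neg (Finset.notMem_erase _ _), Finset.insert_erase hT]
      · intro v hv hne
        rw [if_pos (Finset.mem_erase.2 ⟨Ne.symm hne, hT⟩)]
      · exact fun hn => absurd hT hn
    · rw [if_neg hT, bd_single_one, Finset.sum_insert hT, Finset.erase_insert hT, add_assoc]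
      rw [show ∑ v ∈ T, Finsupp.single ((insert v₀ T).erase v) (1 : ZMod 2)
          = ∑ v ∈ T, (if v₀ ∈ T.erase v then (0 : Chain V) else
              Finsupp.single (insert v₀ (T.erase v)) (1 : ZMod 2)) from
        Finset.sum_congr rfl fun v hv => by
          rw [if_neg fun hh => hT (Finset.mem_of_mem_erase hh),
            Finset.erase_insert_of_ne fun e : v₀ = v => hT (e ▸ hv)],
        add_self', add_zero]
  simpa [hb] using h

/-! ### Cells of coset complexes -/

section Coset

variable {G : Type} [Group G] {ι : Type}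

theorem mem_cell {K : ι → Subgroup G} {g : G} {T : Finset ι} {v : (i : ι) × (G ⧸ K i)} :
    v ∈ cell K g T ↔ v.1 ∈ T ∧ v.2 = ((g : G) : G ⧸ K v.1) := by
  simp only [cell, Finset.mem_image]
  constructor
  · rintro ⟨i, hi, rfl⟩
    exact ⟨hi, rfl⟩
  · rintro ⟨h1, h2⟩
    exact ⟨v.1, h1, Sigma.ext rfl (heq_of_eq h2.symm)⟩

theorem cell_image_trans (K : ι → Subgroup G) (g x : G) (T : Finset ι) :
    (cell K x T).image (trans K g) = cell K (g * x) T := by
  ext v
  simp [cell, trans, Finset.mem_image]

theorem cell_congr (K : ι → Subgroup G) {x y : G} {T : Finset ι}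
    (h : ∀ i ∈ T, x⁻¹ * y ∈ K i) : cell K x T = cell K y T := by
  have e : ∀ i ∈ T, ((x : G) : G ⧸ K i) = ((y : G) : G ⧸ K i) := fun i hi =>
    QuotientGroup.eq.2 (h i hi)
  ext v
  rw [mem_cell, mem_cell]
  exact ⟨fun ⟨h1, h2⟩ => ⟨h1, h2.trans (e _ h1)⟩, fun ⟨h1, h2⟩ => ⟨h1, h2.trans (e _ h1).symm⟩⟩

theorem act_cell (K : ι → Subgroup G) (g x : G) (T : Finset ι) :
    act K g (Finsupp.single (cell K x T) (1 : ZMod 2)) = Finsupp.single (cell K (g * x) T) 1 := by
  rw [act, vpush_single_one, cell_image_trans]

theorem injOn_fst {K : ι → Subgroup G} {R : Finset ι} {σ : Finset ((i : ι) × (G ⧸ K i))}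
    (h : (coset K R).face σ) :
    Set.InjOn (Sigma.fst : ((i : ι) × (G ⧸ K i)) → ι) (σ : Set ((i : ι) × (G ⧸ K i))) := by
  obtain ⟨g, hg⟩ := h
  rintro ⟨i, q⟩ hu ⟨i', q'⟩ hv rfl
  rw [show q = _ from (hg _ hu).2, show q' = _ from (hg _ hv).2]

theorem trans_injective (K : ι → Subgroup G) (g : G) : Function.Injective (trans K g) := by
  have hinv : ∀ v, trans K g⁻¹ (trans K g v) = v := fun v =>
    Sigma.ext rfl (heq_of_eq (inv_smul_smul g v.2))
  intro v w h
  rw [← hinv v, h, hinv w]

/-- A vertex map that is injective on faces because it respects types. -/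
theorem injOn_of_fst {K : ι → Subgroup G} {R : Finset ι} {σ : Finset ((i : ι) × (G ⧸ K i))}
    (h : (coset K R).face σ) {W : Type*} (f : ((i : ι) × (G ⧸ K i)) → W) {κ : Type*} (ty : W → κ)
    (e : ι → κ) (he : Function.Injective e) (hf : ∀ v ∈ σ, ty (f v) = e v.1) :
    Set.InjOn f (σ : Set ((i : ι) × (G ⧸ K i))) := fun u hu v hv huv =>
  injOn_fst h hu hv (he (by rw [← hf u hu, ← hf v hv, huv]))

/-- Exactness transported along an equality of families. -/
theorem ex_congr {K K' : ι → Subgroup G} (h : K = K') {R : Finset ι} {m : ℕ} :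
    (coset K R).Ex m ↔ (coset K' R).Ex m := by
  subst h
  exact Iff.rfl

/-- Reindexing the types. -/
theorem ex_reindex [DecidableEq ι] {κ : Type} (K : ι → Subgroup G) (e : κ → ι) (he : Function.Injective e)
    (R : Finset κ) (m : ℕ) :
    (coset (fun i => K (e i)) R).Ex m ↔ (coset K (R.image e)).Ex m := by
  refine Cplx.ex_of_iso _ _ (fun v => ⟨e v.1, v.2⟩) (fun v w _ _ h => ?_) (fun τ => ?_) m
  · obtain ⟨i, q⟩ := v
    obtain ⟨i', q'⟩ := w
    simp only [Sigma.mk.injEq] at h
    obtain ⟨h1, h2⟩ := h
    obtain rfl := he h1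
    exact Sigma.ext rfl h2
  · constructor
    · rintro ⟨g, hg⟩
      refine ⟨cell (fun i => K (e i)) g (R.filter fun i => ⟨e i, (g : G ⧸ K (e i))⟩ ∈ τ),
        ⟨g, fun v hv => ?_⟩, ?_⟩
      · obtain ⟨h1, h2⟩ := mem_cell.1 hv
        exact ⟨(Finset.mem_filter.1 h1).1, h2⟩
      · ext ⟨i, q⟩
        simp only [cell, Finset.mem_image, Finset.mem_filter]
        constructor
        · rintro ⟨v, ⟨x, ⟨hx, hxτ⟩, rfl⟩, hv⟩
          exact hv ▸ hxτ
        · intro hq
          obtain ⟨h1, h2⟩ := hg _ hq
          obtain ⟨x, hx, hxi⟩ := Finset.mem_image.1 h1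
          simp only at hxi h2
          subst hxi
          subst h2
          exact ⟨⟨x, (g : G ⧸ K (e x))⟩, ⟨x, ⟨hx, hq⟩, rfl⟩, rfl⟩
    · rintro ⟨σ, ⟨g, hg⟩, rfl⟩
      refine ⟨g, fun v hv => ?_⟩
      obtain ⟨u, hu, rfl⟩ := Finset.mem_image.1 hv
      exact ⟨Finset.mem_image_of_mem _ (hg u hu).1, (hg u hu).2⟩

theorem link_empty_restrict {κ : Type*} (L : Cplx κ) (P : κ → Prop) :
    (L.link ∅).restrict P = L.restrict P := by
  have hface : (L.link ∅).face = L.face := by
    funext τ
    refine propext ⟨?_, fun h => Or.inr ⟨Finset.disjoint_empty_right τ, by simpa using h⟩⟩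
    rintro (rfl | ⟨-, h⟩)
    · exact L.empty
    · simpa using h
  simp [Cplx.restrict, hface]

/-- The section of the type map through a group element. -/
def sec (K : ι → Subgroup G) (g : G) (i : ι) : (i : ι) × (G ⧸ K i) :=
  ⟨i, ((g : G) : G ⧸ K i)⟩

/-- The orbit sum of a chain only depends on its projection to types, and a projection that is
a cycle lifts to a boundary. -/
theorem orbit_sum_null [Fintype G] [Fintype ι] (K : ι → Subgroup G) (v₀ : ι) {j : ℕ}
    (c : Chain ((i : ι) × (G ⧸ K i))) (hc : c ∈ (coset K univ).chains j) (hcb : bd c = 0) :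
    (coset K univ).Null j (∑ g : G, act K g c) := by
  have h1 : ∑ g : G, act K g c = ∑ g : G, vpush (sec K g) (vpush Sigma.fst c) := by
    have := map_eq (∑ g : G, act K g) (∑ g : G, (vpush (sec K g)).comp (vpush Sigma.fst)) c
      fun σ hσ => by
        obtain ⟨x, hx⟩ := (face_of_chains hc hσ).1
        have hσc : σ = cell K x (σ.image Sigma.fst) := by
          ext v
          rw [mem_cell]
          refine ⟨fun hv => ⟨Finset.mem_image_of_mem _ hv, (hx v hv).2⟩, fun ⟨hv1, hv2⟩ => ?_⟩
          obtain ⟨u, hu, hu1⟩ := Finset.mem_image.1 hv1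
          obtain ⟨i, q⟩ := u
          obtain ⟨i', q'⟩ := v
          simp only at hu1 hv2
          subst hu1 hv2
          rwa [← (hx _ hu).2]
        simp only [LinearMap.sum_apply, LinearMap.comp_apply, vpush_single_one]
        refine Fintype.sum_equiv (Equiv.mulRight x) _ _ fun g => ?_
        conv_lhs => rw [hσc, act_cell]
        congr 1
        ext v
        simp [cell, sec, Finset.mem_image]
    simpa using this
  set b := vpush Sigma.fst c with hb
  have hbb : bd b = 0 := by
    rw [hb, bd_vpush _ c fun σ hσ => injOn_fst (face_of_chains hc hσ).1, hcb, map_zero]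
  have hbc : ∀ T ∈ (simpCone v₀ b).support, T.card = j + 1 := by
    have hmem : simpCone v₀ b ∈ Finsupp.supported (ZMod 2) (ZMod 2) {T : Finset ι | T.card = j + 1} := by
      refine map_mem ((simpCone v₀).comp (vpush Sigma.fst)) _ c fun σ hσ => ?_
      rw [LinearMap.comp_apply, vpush_single_one, simpCone_single]
      split_ifs with hv
      · exact Submodule.zero_mem _
      · refine Finsupp.single_mem_supported (ZMod 2) 1 ?_
        show (insert v₀ (σ.image Sigma.fst)).card = j + 1
        rw [Finset.card_insert_of_notMem hv,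
          Finset.card_image_of_injOn (injOn_fst (face_of_chains hc hσ).1),
          (face_of_chains hc hσ).2]
    exact fun T hT => mem_supported_iff.1 hmem T hT
  rw [h1, ← bd_simpCone v₀ b hbb, ← mem_nul]
  refine Submodule.sum_mem _ fun g _ => mem_nul.2 ⟨vpush (sec K g) (simpCone v₀ b), ?_, ?_⟩
  · refine map_mem (vpush (sec K g)) _ _ fun T hT => ?_
    rw [vpush_single_one]
    refine single_mem_chains ⟨g, fun v hv => ?_⟩ ?_
    · obtain ⟨i, -, rfl⟩ := Finset.mem_image.1 hv
      exact ⟨Finset.mem_univ _, rfl⟩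
    · rw [Finset.card_image_of_injective _ fun a a' h => congrArg Sigma.fst h, hbc T hT]
  · exact bd_vpush _ _ fun T _ => fun a _ a' _ h => congrArg Sigma.fst h

/-- An orbit sum over a normal subgroup is fixed by an element that is central modulo it and fixes
the types. -/
theorem act_orbit (K : ι → Subgroup G) (R : Finset ι) (N : Subgroup G) [N.Normal] [Fintype N]
    (g : G) (hg : ∀ x : G, g * x * g⁻¹ * x⁻¹ ∈ N) (hgK : ∀ i ∈ R, g ∈ K i) {j : ℕ}
    (y : Chain ((i : ι) × (G ⧸ K i))) (hy : y ∈ (coset K R).chains j) :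
    act K g (∑ n : N, act K (n : G) y) = ∑ n : N, act K (n : G) y := by
  rw [map_sum]
  have := map_eq (∑ n : N, (act K g).comp (act K (n : G))) (∑ n : N, act K (n : G)) y
    fun σ hσ => by
      obtain ⟨⟨x, hx⟩, -⟩ := face_of_chains hy hσ
      have hσc : σ = cell K x (σ.image Sigma.fst) := by
        ext v
        rw [mem_cell]
        refine ⟨fun hv => ⟨Finset.mem_image_of_mem _ hv, (hx v hv).2⟩, fun ⟨hv1, hv2⟩ => ?_⟩
        obtain ⟨u, hu, hu1⟩ := Finset.mem_image.1 hv1
        obtain ⟨i, q⟩ := u
        obtain ⟨i', q'⟩ := v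
        simp only at hu1 hv2
        subst hu1 hv2
        rwa [← (hx _ hu).2]
      have hT : ∀ i ∈ σ.image Sigma.fst, g ∈ K i := by
        intro i hi
        obtain ⟨u, hu, rfl⟩ := Finset.mem_image.1 hi
        exact hgK _ (hx u hu).1
      simp only [LinearMap.sum_apply, LinearMap.comp_apply]
      let d : N := ⟨g * x * g⁻¹ * x⁻¹, hg x⟩
      let conj : N ≃ N :=
        { toFun := fun n => ⟨g * n * g⁻¹, ‹N.Normal›.conj_mem _ n.2 g⟩
          invFun := fun n => ⟨g⁻¹ * n * g, by
            simpa using ‹N.Normal›.conj_mem _ n.2 g⁻¹⟩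
          left_inv := fun n => by ext; simp [mul_assoc]
          right_inv := fun n => by ext; simp [mul_assoc] }
      refine Fintype.sum_equiv (conj.trans (Equiv.mulRight d)) _ _ fun n => ?_
      conv_lhs => rw [hσc, act_cell, act_cell]
      conv_rhs => rw [hσc, act_cell]
      congr 1
      refine cell_congr K fun i hi => ?_
      have e : (g * ((n : G) * x))⁻¹ * (((conj.trans (Equiv.mulRight d)) n : G) * x) = g⁻¹ := by
        show (g * ((n : G) * x))⁻¹ * ((g * (n : G) * g⁻¹) * (g * x * g⁻¹ * x⁻¹) * x) = g⁻¹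
        group
      rw [e]
      exact (K i).inv_mem (hT i hi)
  simpa using this

end Coset

end Vale.Agent.P067.Cob.GlobalAux
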