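import Vale.Agent.P067.Cob.GlobalAux
import Vale.Agent.P067.Cob.Blocks
import Vale.Agent.P067.Cob.Frames

/-!
Section E1: modulo boundaries every cycle is a sum of translated corner cycles of one rank less.
-/

namespace Vale.Agent.P067.Cob

open Finset

open scoped Classical

attribute [-instance] Sigma.instDecidableEqSigma instDecidableEqSigma

namespace GlobalAux

theorem mem_cyc_zero {n r : ℕ} [NeZero n] (hr : r ≤ n) {i : Fin n} :
    i ∈ cyc 0 r ↔ i.val < r := by
  simp only [cyc, Finset.mem_image, Finset.mem_range, zero_add]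
  constructor
  · rintro ⟨x, hx, rfl⟩
    rw [Fin.val_ofNat, Nat.mod_eq_of_lt (lt_of_lt_of_le hx hr)]
    exact hx
  · intro h
    exact ⟨i.val, h, Fin.ext (by rw [Fin.val_ofNat, Nat.mod_eq_of_lt i.isLt])⟩

theorem card_cyc_zero {n r : ℕ} [NeZero n] (hr : r ≤ n) : (cyc (0 : Fin n) r).card = r := by
  rw [cyc, Finset.card_image_of_injOn, Finset.card_range]
  intro a ha b hb hab
  have ha' : a < n := lt_of_lt_of_le (Finset.mem_range.1 ha) hr
  have hb' : b < n := lt_of_lt_of_le (Finset.mem_range.1 hb) hr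
  simpa [Nat.mod_eq_of_lt ha', Nat.mod_eq_of_lt hb'] using congrArg Fin.val hab

theorem cyc_disjoint {n : ℕ} [NeZero n] (a : Fin n) {h r : ℕ} (hr : h + r ≤ n) {i : Fin n}
    (h1 : i ∈ cyc (a + Fin.ofNat n h) r) : i ∉ cyc a h := by
  intro h2
  simp only [cyc, Finset.mem_image, Finset.mem_range] at h1 h2
  obtain ⟨x, hx, rfl⟩ := h1
  obtain ⟨y, hy, e⟩ := h2
  rw [add_assoc, add_right_inj] at e
  have := congrArg Fin.val e
  simp only [Fin.val_add, Fin.val_ofNat] at this
  rw [← Nat.add_mod, Nat.mod_eq_of_lt (show y < n by omega),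
    Nat.mod_eq_of_lt (show h + x < n by omega)] at this
  omega

theorem strictMono_le {n N : ℕ} (e : Fin n ↪o Fin N) (x : Fin n) : x.val ≤ (e x).val := by
  obtain ⟨v, hv⟩ := x
  induction v with
  | zero => exact Nat.zero_le _
  | succ v ih =>
    have h1 := ih (by omega)
    have h2 : e ⟨v, by omega⟩ < e ⟨v + 1, hv⟩ := e.lt_iff_lt.2 (by simp [Fin.lt_def])
    rw [Fin.lt_def] at h2
    dsimp only at h1 h2 ⊢
    omega

/-- An increasing map whose range contains the initial interval fixes it. -/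
theorem image_cyc_zero {n N r : ℕ} [NeZero n] [NeZero N] (hr : r ≤ n) (hrN : r ≤ N)
    (e : Fin n ↪o Fin N) (he : ∀ i ∈ cyc (0 : Fin N) r, ∃ x, e x = i) :
    (cyc (0 : Fin n) r).image e = cyc (0 : Fin N) r := by
  have hsub : cyc (0 : Fin N) r ⊆ (cyc (0 : Fin n) r).image e := by
    intro i hi
    obtain ⟨x, rfl⟩ := he i hi
    refine Finset.mem_image_of_mem _ ((mem_cyc_zero hr).2 ?_)
    exact lt_of_le_of_lt (strictMono_le e x) ((mem_cyc_zero hrN).1 hi)
  refine (Finset.eq_of_subset_of_card_le hsub ?_).symm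
  rw [card_cyc_zero hrN]
  exact Finset.card_image_le.trans (card_cyc_zero hr).le

section Corner

variable (p k : ℕ) [NeZero k] [Fact p.Prime] {k' : ℕ} [NeZero k'] (e : Fin k' ↪o Fin k) (s : ℕ)

theorem cornerV_inj (hs : 2 ≤ s) : Function.Injective (cornerV p k e s) := by
  rintro ⟨i, q⟩ ⟨i', q'⟩ h
  induction q using QuotientGroup.induction_on with | _ a => ?_
  induction q' using QuotientGroup.induction_on with | _ b => ?_
  rw [cornerV_mk, cornerV_mk] at h
  obtain rfl : i = i' := e.injective (congrArg Sigma.fst h)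
  simp only [Sigma.mk.injEq, heq_eq_eq, true_and] at h ⊢
  rw [QuotientGroup.eq, ← map_inv, ← map_mul] at h
  rw [QuotientGroup.eq, ← comap_cornerG_KG p k e s hs i]
  exact h

theorem cornerV_isMap (R : Finset (Fin k')) :
    IsMap (cornerV p k e s) (Wc p k' s R) (Wc p k s univ) where
  injOn σ hσ := injOn_of_fst hσ _ Sigma.fst e e.injective fun _ _ => rfl
  face σ hσ := by
    obtain ⟨x, hx⟩ := hσ
    refine ⟨cornerG p k e s x, fun v hv => ?_⟩
    obtain ⟨⟨i, q⟩, hu, rfl⟩ := Finset.mem_image.1 hv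
    obtain rfl : q = ((x : GG p k' s) : GG p k' s ⧸ KG p k' s i) := (hx _ hu).2
    rw [cornerV_mk]
    exact ⟨Finset.mem_univ _, rfl⟩

theorem cornerV_trans (g : GG p k' s) (v : (i : Fin k') × (GG p k' s ⧸ KG p k' s i)) :
    cornerV p k e s (trans (KG p k' s) g v) =
      trans (KG p k s) (cornerG p k e s g) (cornerV p k e s v) := by
  obtain ⟨i, q⟩ := v
  induction q using QuotientGroup.induction_on with | _ a => ?_
  show cornerV p k e s ⟨i, ((g * a : GG p k' s) : GG p k' s ⧸ KG p k' s i)⟩ = _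
  rw [cornerV_mk, cornerV_mk, map_mul]
  rfl

theorem vpush_cornerV_act (g : GG p k' s) (z : Chain ((i : Fin k') × (GG p k' s ⧸ KG p k' s i))) :
    vpush (cornerV p k e s) (act (KG p k' s) g z) =
      act (KG p k s) (cornerG p k e s g) (vpush (cornerV p k e s) z) := by
  rw [act, act, vpush_vpush, vpush_vpush]
  congr 2
  funext v
  exact cornerV_trans p k e s g v

variable {k'' : ℕ} [NeZero k''] (e' : Fin k'' ↪o Fin k')

omit [NeZero k''] in
theorem cornerG_comp (g : GG p k'' s) :
    cornerG p k e s (cornerG p k' e' s g) = cornerG p k (e'.trans e) s g := by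
  apply Subtype.ext
  apply Subtype.ext
  show blockExt k e (blockExt k' e' g.1.1) = blockExt k (e'.trans e) g.1.1
  have h : incl k (AR p s) e * incl k' (AR p s) e' = incl k (AR p s) (e'.trans e) := by
    ext a b
    simp [Matrix.mul_apply, incl]
    exact if_congr Iff.rfl rfl rfl
  simp only [blockExt, add_sub_cancel_left]
  rw [← h, Matrix.transpose_mul]
  simp only [Matrix.mul_assoc]

theorem cornerV_comp (v : (i : Fin k'') × (GG p k'' s ⧸ KG p k'' s i)) :
    cornerV p k e s (cornerV p k' e' s v) = cornerV p k (e'.trans e) s v := by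
  obtain ⟨i, q⟩ := v
  induction q using QuotientGroup.induction_on with | _ a => ?_
  rw [cornerV_mk, cornerV_mk, cornerV_mk, cornerG_comp]
  rfl

theorem cornerV_refl (v : (i : Fin k) × (GG p k s ⧸ KG p k s i)) :
    cornerV p k (OrderIso.refl (Fin k)).toOrderEmbedding s v = v := by
  obtain ⟨i, q⟩ := v
  induction q using QuotientGroup.induction_on with | _ a => ?_
  have h : cornerG p k (OrderIso.refl (Fin k)).toOrderEmbedding s a = a := by
    apply Subtype.ext
    apply Subtype.ext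
    show blockExt k (OrderIso.refl (Fin k)).toOrderEmbedding a.1.1 = a.1.1
    have : incl k (AR p s) (OrderIso.refl (Fin k)).toOrderEmbedding = 1 := by
      ext x y
      simp [incl, Matrix.one_apply]
      exact if_congr Iff.rfl rfl rfl
    simp [blockExt, this]
  rw [cornerV_mk, h]
  rfl

end Corner

variable (p n : ℕ) [NeZero n] [Fact p.Prime] (s : ℕ)

/-- Vertex groups of the complex with pool vertices. -/
noncomputable def KZ : Fin n ⊕ Fin n → Subgroup (GG p n s) := Sum.elim (KG p n s) (PG p n s)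

/-- The types of the complex with pool vertices. -/
def inlSet (S : Finset (Fin n)) : Finset (Fin n ⊕ Fin n) := S.image Sum.inl

/-- The pool types. -/
def inrSet (S : Finset (Fin n)) : Finset (Fin n ⊕ Fin n) := S.image Sum.inr

/-- The vertices of types in `R` inside the complex with pool vertices. -/
def inW (v : (i : Fin n) × (GG p n s ⧸ KG p n s i)) :
    (i : Fin n ⊕ Fin n) × (GG p n s ⧸ KZ p n s i) :=
  ⟨Sum.inl v.1, v.2⟩

/-- The retraction back. -/
noncomputable def backW : (i : Fin n ⊕ Fin n) × (GG p n s ⧸ KZ p n s i) →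
    (i : Fin n) × (GG p n s ⧸ KG p n s i)
  | ⟨Sum.inl i, q⟩ => ⟨i, q⟩
  | ⟨Sum.inr _, _⟩ => ⟨0, ((1 : GG p n s) : GG p n s ⧸ KG p n s 0)⟩

theorem backW_inW (v : (i : Fin n) × (GG p n s ⧸ KG p n s i)) :
    backW p n s (inW p n s v) = v := rfl

theorem inW_injective : Function.Injective (inW p n s) :=
  Function.LeftInverse.injective (backW_inW p n s)

theorem inW_isMap (R : Finset (Fin n)) (T : Finset (Fin n ⊕ Fin n)) (hT : inlSet n R ⊆ T) :
    IsMap (inW p n s) (Wc p n s R) (coset (KZ p n s) T) where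
  injOn _ _ := (inW_injective p n s).injOn
  face σ hσ := by
    obtain ⟨x, hx⟩ := hσ
    refine ⟨x, fun v hv => ?_⟩
    obtain ⟨u, hu, rfl⟩ := Finset.mem_image.1 hv
    exact ⟨hT (Finset.mem_image_of_mem _ (hx u hu).1), (hx u hu).2⟩

theorem backW_isMap (R : Finset (Fin n)) (T : Finset (Fin n ⊕ Fin n)) :
    IsMap (backW p n s) ((coset (KZ p n s) T).restrict fun v => v.1 ∈ inlSet n R)
      (Wc p n s univ) where
  injOn σ hσ := by
    rintro ⟨i, q⟩ hu ⟨i', q'⟩ hv h
    obtain ⟨a, -, ha⟩ := Finset.mem_image.1 (hσ.2 _ hu)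
    obtain ⟨a', -, ha'⟩ := Finset.mem_image.1 (hσ.2 _ hv)
    simp only at ha ha'
    subst ha ha'
    exact congrArg (inW p n s) h
  face σ hσ := by
    obtain ⟨⟨x, hx⟩, hR⟩ := hσ
    refine ⟨x, fun v hv => ?_⟩
    obtain ⟨⟨i, q⟩, hu, rfl⟩ := Finset.mem_image.1 hv
    obtain ⟨a, -, ha⟩ := Finset.mem_image.1 (hR _ hu)
    simp only at ha
    subst ha
    exact ⟨Finset.mem_univ _, (hx _ hu).2⟩

/-- The complex with pool vertices is exact. -/
theorem pool_complex_ex (M r c : ℕ) (R pool : Finset (Fin n))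
    (hRc : R.card ≤ r) (hpool : (r + 1) * c ≤ pool.card)
    (hfr : ∀ T pool' : Finset (Fin n), (T.card + 1) * c ≤ pool'.card →
      (coset (fun i => (PG p n s i).subgroupOf (⨅ j ∈ T, KG p n s j)) pool').Ex M) :
    (coset (KZ p n s) (inlSet n R ∪ inrSet n pool)).Ex M := by
  refine Cplx.ex_of_part _ (fun v => v.1 ∈ inrSet n pool) M fun F hF hFP => ?_
  obtain ⟨g, T, hT, rfl⟩ := (coset_face_iff _ _ _).1 hF
  set T0 := R.filter fun i => Sum.inl i ∈ T with hT0
  have hTeq : T = inlSet n T0 := by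
    ext x
    simp only [inlSet, hT0, Finset.mem_image, Finset.mem_filter]
    constructor
    · intro hx
      rcases Finset.mem_union.1 (hT hx) with h | h
      · obtain ⟨i, hi, rfl⟩ := Finset.mem_image.1 h
        exact ⟨i, ⟨hi, hx⟩, rfl⟩
      · exact absurd h (hFP ⟨x, ((g : GG p n s) : GG p n s ⧸ KZ p n s x)⟩ (mem_cell.2 ⟨hx, rfl⟩))
    · rintro ⟨i, ⟨-, hi⟩, rfl⟩
      exact hi
  refine ex_mono (Nat.sub_le _ _) ?_
  rw [ex_link_coset _ _ T _ g hT Finset.subset_union_right]
  · have h := hfr T0 pool ((Nat.mul_le_mul_right c (Nat.succ_le_succ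
      ((Finset.card_filter_le _ _).trans hRc))).trans hpool)
    have hinf : (⨅ i ∈ T, KZ p n s i) = ⨅ j ∈ T0, KG p n s j := by
      rw [hTeq, inlSet, Finset.iInf_finset_image]
      rfl
    rw [hinf]
    exact (ex_reindex (fun i => (KZ p n s i).subgroupOf (⨅ j ∈ T0, KG p n s j)) Sum.inr
      Sum.inr_injective pool M).1 h
  · rw [hTeq]
    refine Finset.disjoint_left.2 fun x h1 h2 => ?_
    obtain ⟨i, -, rfl⟩ := Finset.mem_image.1 h1
    obtain ⟨i', -, h⟩ := Finset.mem_image.1 h2
    exact Sum.inr_ne_inl h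

/-- Links of pool faces, restricted to `R`, are complexes of lower rank. -/
theorem pool_link_ex (M r : ℕ) (pool : Finset (Fin n)) (hpool : Disjoint (cyc (0 : Fin n) r) pool)
    (hr : r ≤ n) (hs : 2 ≤ s) (hrM : 2 * M + 2 ≤ r) (hrn : r + M ≤ n)
    (hIH : ∀ (q : ℕ) [NeZero q], n ≤ q + M → q < n → ∀ m', m' < M → (Wc p q s univ).Ex m')
    (hsel : ∀ (q : ℕ) [NeZero q], n ≤ q + M → q ≤ n → ∀ (a : Fin q) (r' : ℕ),
      2 * M + 2 ≤ r' → r' ≤ q →
      ∀ σ, (Wc p q s univ).face σ → σ.Nonempty → (∀ v ∈ σ, v.1 ∉ cyc a r') →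
        (((Wc p q s univ).link σ).restrict fun v => v.1 ∈ cyc a r').Ex M)
    (F : Finset ((i : Fin n ⊕ Fin n) × (GG p n s ⧸ KZ p n s i))) (hF2 : 2 ≤ F.card)
    (hF : (coset (KZ p n s) (inlSet n (cyc 0 r) ∪ inrSet n pool)).face F)
    (hFP : ∀ v ∈ F, v.1 ∉ inlSet n (cyc 0 r)) :
    (((coset (KZ p n s) (inlSet n (cyc 0 r) ∪ inrSet n pool)).link F).restrict
      fun v => v.1 ∈ inlSet n (cyc 0 r)).Ex (M + 1 - F.card) := by
  rcases Nat.lt_or_ge M F.card with hbig | hsmall
  · intro j hj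
    omega
  obtain ⟨g, T, hT, rfl⟩ := (coset_face_iff _ _ _).1 hF
  rw [cell_card] at hF2 hsmall ⊢
  set T0 := pool.filter fun i => Sum.inr i ∈ T with hT0
  have hTeq : T = inrSet n T0 := by
    ext x
    simp only [inrSet, hT0, Finset.mem_image, Finset.mem_filter]
    constructor
    · intro hx
      rcases Finset.mem_union.1 (hT hx) with h | h
      · exact absurd h (hFP ⟨x, ((g : GG p n s) : GG p n s ⧸ KZ p n s x)⟩ (mem_cell.2 ⟨hx, rfl⟩))
      · obtain ⟨i, hi, rfl⟩ := Finset.mem_image.1 h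
        exact ⟨i, ⟨hi, hx⟩, rfl⟩
    · rintro ⟨i, ⟨-, hi⟩, rfl⟩
      exact hi
  have hcard : T0.card = T.card := by
    rw [hTeq, inrSet, Finset.card_image_of_injective _ Sum.inr_injective]
  rw [ex_link_coset _ _ T _ g hT Finset.subset_union_left]
  · have hcompl : T0ᶜ.card = n - T.card := by
      rw [Finset.card_compl, Fintype.card_fin, hcard]
    set e := T0ᶜ.orderEmbOfFin hcompl with he
    have : NeZero (n - T.card) := ⟨by omega⟩
    have hrange : ∀ i, i ∉ T0 → ∃ x, e x = i := by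
      intro i hi
      have : i ∈ Set.range e := by
        rw [Finset.range_orderEmbOfFin]
        simpa using hi
      exact this
    have hmiss : (univ.filter fun i => ∀ x, e x ≠ i) = T0 := by
      ext i
      simp only [Finset.mem_filter, Finset.mem_univ, true_and]
      refine ⟨fun h => ?_, fun h x hx => ?_⟩
      · by_contra hi
        obtain ⟨x, hx⟩ := hrange i hi
        exact h x hx
      · have := Finset.orderEmbOfFin_mem T0ᶜ hcompl x
        rw [← he, hx, Finset.mem_compl] at this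
        exact this h
    have hinf : (⨅ i ∈ T, KZ p n s i) = (cornerG p n e s).range := by
      rw [range_cornerG, hmiss, hTeq, inrSet, Finset.iInf_finset_image]
      rfl
    rw [hinf]
    -- the lower rank complex
    have hR' : (cyc (0 : Fin (n - T.card)) r).image e = cyc (0 : Fin n) r := by
      refine image_cyc_zero (by omega) hr e fun i hi => hrange i fun hi' => ?_
      exact Finset.disjoint_left.1 hpool hi (Finset.mem_filter.1 hi').1
    have hlow : (Wc p (n - T.card) s (cyc 0 r)).Ex (M + 1 - T.card) := by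
      have hp := Cplx.part_of_ex (Wc p (n - T.card) s univ)
        (fun v => v.1 ∈ cyc (0 : Fin (n - T.card)) r) (M + 1 - T.card)
        (hIH (n - T.card) (by omega) (by omega) _ (by omega))
        (fun σ hne hσ hσP => ex_mono (by have := hne.card_pos; omega)
          (hsel (n - T.card) (by omega) (by omega) 0 r hrM (by omega) σ hσ hne hσP))
      rw [coset_restrict] at hp
      convert hp using 2
      simp
    rw [← ex_coset_comap (cornerG p n e s).rangeRestrict
      (cornerG p n e s).rangeRestrict_surjective, inlSet]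
    refine (ex_reindex (fun i => ((KZ p n s i).subgroupOf (cornerG p n e s).range).comap
      (cornerG p n e s).rangeRestrict) Sum.inl Sum.inl_injective (cyc 0 r) _).1 ?_
    rw [← hR']
    refine (ex_reindex (fun i => ((KZ p n s (Sum.inl i)).subgroupOf
      (cornerG p n e s).range).comap (cornerG p n e s).rangeRestrict) e e.injective
      (cyc 0 r) _).1 ?_
    have hfam : (fun i => ((KZ p n s (Sum.inl (e i))).subgroupOf
        (cornerG p n e s).range).comap (cornerG p n e s).rangeRestrict) = KG p (n - T.card) s := by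
      funext i
      rw [← comap_cornerG_KG p n e s hs i]
      ext x
      rfl
    exact (ex_congr hfam).2 hlow
  · rw [hTeq]
    refine Finset.disjoint_left.2 fun x h1 h2 => ?_
    obtain ⟨i, -, rfl⟩ := Finset.mem_image.1 h1
    obtain ⟨i', -, h⟩ := Finset.mem_image.1 h2
    exact Sum.inl_ne_inr h

/-- A cycle in the link of a pool vertex is a translated corner cycle. -/
theorem link_cycle_eq (hs : 2 ≤ s) (n' : ℕ) [NeZero n'] (hn' : n' + 1 = n) {m r : ℕ}
    (pool : Finset (Fin n)) (hpool : Disjoint (cyc (0 : Fin n) r) pool)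
    (q : Fin n) (hq : q ∈ pool) (g : GG p n s)
    (c : Chain ((i : Fin n ⊕ Fin n) × (GG p n s ⧸ KZ p n s i)))
    (hc : c ∈ (((coset (KZ p n s) (inlSet n (cyc 0 r) ∪ inrSet n pool)).link
      {⟨Sum.inr q, ((g : GG p n s) : GG p n s ⧸ KZ p n s (Sum.inr q))⟩}).restrict
        fun v => v.1 ∈ inlSet n (cyc 0 r)).chains m) (hcb : bd c = 0) :
    ∃ (e : Fin n' ↪o Fin n) (y : Chain ((i : Fin n') × (GG p n' s ⧸ KG p n' s i))),
      y ∈ (Wc p n' s univ).chains m ∧ bd y = 0 ∧
        vpush (backW p n s) c = act (KG p n s) g (vpush (cornerV p n e s) y) := by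
  have hcard : ({q}ᶜ : Finset (Fin n)).card = n' := by
    rw [Finset.card_compl, Fintype.card_fin, Finset.card_singleton]; omega
  set e := ({q}ᶜ : Finset (Fin n)).orderEmbOfFin hcard with he
  have hrange : ∀ i, i ≠ q → ∃ x, e x = i := by
    intro i hi
    have : i ∈ Set.range e := by
      rw [Finset.range_orderEmbOfFin]
      simpa using hi
    exact this
  have hmiss : (univ.filter fun i => ∀ x, e x ≠ i) = {q} := by
    ext i
    simp only [Finset.mem_filter, Finset.mem_univ, true_and, Finset.mem_singleton]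
    refine ⟨fun h => ?_, fun h x hx => ?_⟩
    · by_contra hi
      obtain ⟨x, hx⟩ := hrange i hi
      exact h x hx
    · have := Finset.orderEmbOfFin_mem ({q}ᶜ : Finset (Fin n)) hcard x
      rw [← he, hx, h, Finset.mem_compl] at this
      exact this (Finset.mem_singleton_self q)
  set f : (i : Fin n') × (GG p n' s ⧸ KG p n' s i) →
      (i : Fin n ⊕ Fin n) × (GG p n s ⧸ KZ p n s i) :=
    fun v => inW p n s (trans (KG p n s) g (cornerV p n e s v)) with hf
  have hfinj : Function.Injective f := fun v w h =>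
    cornerV_inj p n e s hs (trans_injective _ g (inW_injective p n s h))
  have hlift : ∀ σ ∈ c.support, ∃ ρ, (Wc p n' s univ).face ρ ∧ ρ.card = m ∧ ρ.image f = σ := by
    intro σ hσ
    obtain ⟨⟨hl, hR⟩, hcm⟩ := face_of_chains hc hσ
    rcases hl with rfl | ⟨hd, hface⟩
    · exact ⟨∅, (Wc p n' s univ).empty, hcm, rfl⟩
    obtain ⟨h, hh⟩ := hface
    have hv := hh ⟨Sum.inr q, ((g : GG p n s) : GG p n s ⧸ KZ p n s (Sum.inr q))⟩
      (Finset.mem_union_right _ (Finset.mem_singleton_self _))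
    have hgh : g⁻¹ * h ∈ (cornerG p n e s).range := by
      rw [range_cornerG, hmiss, Finset.iInf_singleton]
      exact QuotientGroup.eq.1 hv.2
    obtain ⟨b, hb⟩ := hgh
    set T' : Finset (Fin n') := univ.filter fun x => ∃ v ∈ σ, v.1 = Sum.inl (e x) with hT'
    have hfb : ∀ x, f ⟨x, ((b : GG p n' s) : GG p n' s ⧸ KG p n' s x)⟩ =
        ⟨Sum.inl (e x), ((h : GG p n s) : GG p n s ⧸ KZ p n s (Sum.inl (e x)))⟩ := by
      intro x
      simp only [hf]
      rw [cornerV_mk, hb]
      show (⟨Sum.inl (e x), ((g * (g⁻¹ * h) : GG p n s) : GG p n s ⧸ KG p n s (e x))⟩ :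
        (i : Fin n ⊕ Fin n) × (GG p n s ⧸ KZ p n s i)) = _
      rw [mul_inv_cancel_left]
      rfl
    have himg : (cell (KG p n' s) b T').image f = σ := by
      ext ⟨i, w⟩
      rw [Finset.mem_image]
      constructor
      · rintro ⟨⟨x, w'⟩, hx, hxi⟩
        obtain ⟨hxT, hw'⟩ := mem_cell.1 hx
        simp only at hxT hw'
        subst hw'
        obtain ⟨⟨i₂, w₂⟩, hv₂, hi₂⟩ := (Finset.mem_filter.1 hxT).2
        simp only at hi₂
        subst hi₂
        have hw₂ : w₂ = ((h : GG p n s) : GG p n s ⧸ KZ p n s (Sum.inl (e x))) :=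
          (hh _ (Finset.mem_union_left _ hv₂)).2
        rw [← hxi, hfb]
        subst hw₂
        exact hv₂
      · intro hv₂
        obtain ⟨a, haR, ha⟩ := Finset.mem_image.1 (hR _ hv₂)
        simp only at ha
        subst ha
        have haq : a ≠ q := fun e' => Finset.disjoint_left.1 hpool haR (e' ▸ hq)
        obtain ⟨x, rfl⟩ := hrange a haq
        refine ⟨⟨x, ((b : GG p n' s) : GG p n' s ⧸ KG p n' s x)⟩, mem_cell.2
          ⟨Finset.mem_filter.2 ⟨Finset.mem_univ _, ⟨_, hv₂, rfl⟩⟩, rfl⟩, ?_⟩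
        have hw₂ : w = ((h : GG p n s) : GG p n s ⧸ KZ p n s (Sum.inl (e x))) :=
          (hh _ (Finset.mem_union_left _ hv₂)).2
        subst hw₂
        exact hfb x
    refine ⟨_, ⟨b, fun v hv => ⟨Finset.mem_univ _, (mem_cell.1 hv).2⟩⟩, ?_, himg⟩
    rw [← hcm, ← himg, Finset.card_image_of_injective _ hfinj]
  have hy : c ∈ ((Wc p n' s univ).chains m).map (vpush f) := by
    refine map_mem LinearMap.id _ c fun σ hσ => ?_
    obtain ⟨ρ, h1, h2, h3⟩ := hlift σ hσ
    exact ⟨_, single_mem_chains h1 h2, by rw [vpush_single_one, h3]; rfl⟩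
  obtain ⟨y, hy, hyc⟩ := hy
  refine ⟨e, y, hy, ?_, ?_⟩
  · apply vpush_injective hfinj
    rw [map_zero, ← bd_vpush f y fun σ _ => hfinj.injOn, hyc, hcb]
  · rw [← hyc, act, vpush_vpush, vpush_vpush]
    rfl

/-- Section E1: a submodule containing boundaries and all translated corner cycles contains
every cycle. -/
theorem span (M r c : ℕ) (hs : 2 ≤ s) (hrM : 2 * M + 2 ≤ r) (hn : 2 * r + (r + 1) * c + M ≤ n)
    (hIH : ∀ (q : ℕ) [NeZero q], n ≤ q + M → q < n → ∀ m', m' < M → (Wc p q s univ).Ex m')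
    (hsel : ∀ (q : ℕ) [NeZero q], n ≤ q + M → q ≤ n → ∀ (a : Fin q) (r' : ℕ),
      2 * M + 2 ≤ r' → r' ≤ q →
      ∀ σ, (Wc p q s univ).face σ → σ.Nonempty → (∀ v ∈ σ, v.1 ∉ cyc a r') →
        (((Wc p q s univ).link σ).restrict fun v => v.1 ∈ cyc a r').Ex M)
    (hfr : ∀ T pool' : Finset (Fin n), (T.card + 1) * c ≤ pool'.card →
      (coset (fun i => (PG p n s i).subgroupOf (⨅ j ∈ T, KG p n s j)) pool').Ex M)
    (n' : ℕ) [NeZero n'] (hn' : n' + 1 = n) {m : ℕ} (hm : m < M)
    (N : Submodule (ZMod 2) (Chain ((i : Fin n) × (GG p n s ⧸ KG p n s i))))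
    (hnul : ∀ z, (Wc p n s univ).Null m z → z ∈ N)
    (hcor : ∀ (e : Fin n' ↪o Fin n) (y : Chain ((i : Fin n') × (GG p n' s ⧸ KG p n' s i))) (g),
      y ∈ (Wc p n' s univ).chains m → bd y = 0 →
        act (KG p n s) g (vpush (cornerV p n e s) y) ∈ N)
    (z : Chain ((i : Fin n) × (GG p n s ⧸ KG p n s i))) (hz : z ∈ (Wc p n s univ).chains m)
    (hzc : bd z = 0) : z ∈ N := by
  set R := cyc (0 : Fin n) r with hR
  obtain ⟨z₁, hz₁, hz₁c, hz₁n⟩ := move (Wc p n s univ) (fun v => v.1 ∈ R) M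
    (fun σ hne hσ hP => ex_mono (Nat.sub_le _ _)
      (hsel n (by omega) le_rfl 0 r hrM (by omega) σ hσ hne hP)) hm z hz hzc
  suffices z₁ ∈ N by
    have h := N.add_mem (hnul _ hz₁n) this
    rwa [add_assoc, add_self', add_zero] at h
  replace hz₁ : z₁ ∈ (Wc p n s R).chains m := by
    rw [coset_restrict] at hz₁
    convert hz₁ using 3
    simp
  set pool : Finset (Fin n) := Rᶜ with hpool
  have hd : Disjoint R pool := disjoint_compl_right
  have hpc : (r + 1) * c ≤ pool.card := by
    rw [hpool, Finset.card_compl, Fintype.card_fin, hR, card_cyc_zero (by omega)]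
    omega
  set Z := coset (KZ p n s) (inlSet n R ∪ inrSet n pool) with hZ
  have hZex : Z.Ex M := pool_complex_ex p n s M r c R pool
    (card_cyc_zero (by omega)).le hpc hfr
  have hin := inW_isMap p n s R _ (Finset.subset_union_left (s₂ := inrSet n pool))
  have hzz : vpush (inW p n s) z₁ ∈ (Z.restrict fun v => v.1 ∈ inlSet n R).chains m := by
    refine mem_supported_iff.2 fun σ hσ => ?_
    obtain ⟨h1, h2⟩ := face_of_chains (hin.chains hz₁) hσ
    refine ⟨⟨h1, fun v hv => ?_⟩, h2⟩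
    obtain ⟨ρ, hρ, rfl⟩ := Finset.mem_image.1 (Finsupp.mapDomain_support hσ)
    obtain ⟨u, hu, rfl⟩ := Finset.mem_image.1 hv
    obtain ⟨⟨x, hx⟩, -⟩ := face_of_chains hz₁ hρ
    exact Finset.mem_image_of_mem _ (hx u hu).1
  obtain ⟨B, cc, hB, hBn⟩ := Cplx.span_of_part Z (fun v => v.1 ∈ inlSet n R) M m hm hZex
    (fun F h2 hF hFP => pool_link_ex p n s M r pool hd (by omega) hs hrM (by omega) hIH hsel
      F h2 hF hFP)
    _ hzz (by rw [hin.bd_vpush hz₁, hz₁c, map_zero])
  have hback := hnul _ ((backW_isMap p n s R _).null hBn)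
  rw [map_add, vpush_vpush, show backW p n s ∘ inW p n s = id from rfl, vpush_id',
    map_sum] at hback
  have hsum : ∑ v ∈ B, vpush (backW p n s) (cc v) ∈ N := by
    refine N.sum_mem fun v hv => ?_
    obtain ⟨hP, hface, hch, hcb⟩ := hB v hv
    obtain ⟨i, w⟩ := v
    obtain ⟨x, hx⟩ := hface
    obtain ⟨hi, hw⟩ := hx ⟨i, w⟩ (Finset.mem_singleton_self _)
    simp only at hi hw hP
    obtain ⟨q, hq, rfl⟩ := Finset.mem_image.1 ((Finset.mem_union.1 hi).resolve_left hP)
    subst hw
    obtain ⟨e, y, hy, hyc, he⟩ := link_cycle_eq p n s hs n' hn' pool hd q hq x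
      _ hch hcb
    rw [he]
    exact hcor e y x hy hyc
  have := N.add_mem hback hsum
  rwa [add_assoc, add_self', add_zero] at this

end GlobalAux

end Vale.Agent.P067.Cob
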