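import Vale.Agent.P067.Cob.Expand
import Vale.Agent.P067.Cob.Mix

/-!
Basic facts on the `d`-skeleton of a finite coset complex: chambers, the translation group,
degrees and connectedness (owner helper14).
-/

namespace Vale.Agent.P067.Cob

open Finset

open scoped Classical

section Translations

variable {G : Type} [Group G] {ι : Type} (K : ι → Subgroup G)

theorem trans_mul (g h : G) (v : (i : ι) × (G ⧸ K i)) :
    trans K (g * h) v = trans K g (trans K h v) := by
  exact Sigma.ext rfl (heq_of_eq (mul_smul g h v.2))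

theorem trans_one (v : (i : ι) × (G ⧸ K i)) : trans K 1 v = v := by
  simp [trans]

/-- Left translation as a permutation of the vertices. -/
def transPerm : G →* Equiv.Perm ((i : ι) × (G ⧸ K i)) where
  toFun g :=
    { toFun := trans K g
      invFun := trans K g⁻¹
      left_inv := fun v => by rw [← trans_mul, inv_mul_cancel, trans_one]
      right_inv := fun v => by rw [← trans_mul, mul_inv_cancel, trans_one] }
  map_one' := Equiv.ext fun v => trans_one K v
  map_mul' g h := Equiv.ext fun v => trans_mul K g h v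

theorem image_transPerm_cell (g h : G) (T : Finset ι) :
    (cell K h T).image (transPerm K g) = cell K (g * h) T := by
  simp only [cell, Finset.image_image]
  exact Finset.image_congr fun i _ => rfl

theorem injOn_fst_cell (g : G) (T : Finset ι) :
    Set.InjOn (fun v : (i : ι) × (G ⧸ K i) => v.1) (cell K g T : Set _) := by
  intro v hv w hw h
  obtain ⟨i, _, rfl⟩ := Finset.mem_image.1 hv
  obtain ⟨j, _, rfl⟩ := Finset.mem_image.1 hw
  dsimp only at h
  subst h
  rfl

end Translations

variable {G : Type} [Group G] [Fintype G] {ι : Type} [Fintype ι] (K : ι → Subgroup G)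
  [∀ i, Fintype (G ⧸ K i)]

omit [∀ i, Fintype (G ⧸ K i)] in
theorem mem_chambers {τ : Finset ((i : ι) × (G ⧸ K i))} :
    τ ∈ chambers K ↔ ∃ g : G, τ = cell K g univ := by
  simp [chambers, eq_comm]

omit [∀ i, Fintype (G ⧸ K i)] in
theorem card_chamber {τ : Finset ((i : ι) × (G ⧸ K i))} (hτ : τ ∈ chambers K) :
    τ.card = Fintype.card ι := by
  obtain ⟨g, rfl⟩ := (mem_chambers K).1 hτ
  exact Finset.card_image_of_injective _ fun i j h => congrArg Sigma.fst h

omit [∀ i, Fintype (G ⧸ K i)] in
theorem face_iff_isFace (φ : Finset ((i : ι) × (G ⧸ K i))) :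
    (coset K univ).face φ ↔ Local.IsFace (chambers K) φ := by
  constructor
  · rintro ⟨g, hg⟩
    exact ⟨cell K g univ, (mem_chambers K).2 ⟨g, rfl⟩, fun v hv =>
      (mem_cell K).2 (hg v hv)⟩
  · rintro ⟨τ, hτ, hs⟩
    obtain ⟨g, rfl⟩ := (mem_chambers K).1 hτ
    exact ⟨g, fun v hv => (mem_cell K).1 (hs hv)⟩

omit [∀ i, Fintype (G ⧸ K i)] in
theorem deg_chambers_le {σ : Finset ((i : ι) × (G ⧸ K i))} (hσ : σ.Nonempty) {D : ℕ}
    (hD : ∀ i, Nat.card (K i) ≤ D) : Local.deg (chambers K) σ ≤ D := by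
  obtain ⟨⟨i, x⟩, hv⟩ := hσ
  obtain ⟨g₀, rfl⟩ := QuotientGroup.mk_surjective x
  refine le_trans ?_ (hD i)
  rw [Local.deg, Nat.card_eq_fintype_card, ← Finset.card_univ]
  refine le_trans (Finset.card_le_card (t := (univ : Finset (K i)).image
    fun u => cell K (g₀ * u.1) univ) ?_) Finset.card_image_le
  intro τ hτ
  obtain ⟨hτ, hs⟩ := Finset.mem_filter.1 hτ
  obtain ⟨g, rfl⟩ := (mem_chambers K).1 hτ
  have h := ((mem_cell K).1 (hs hv)).2
  exact Finset.mem_image.2 ⟨⟨g₀⁻¹ * g, QuotientGroup.eq.1 h⟩, Finset.mem_univ _, by simp⟩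

omit [∀ i, Fintype (G ⧸ K i)] in
/-- Every face extends to a face of the given size. -/
theorem exists_mFace {d : ℕ} (hd : d + 1 ≤ Fintype.card ι) [Fintype ((i : ι) × (G ⧸ K i))]
    {σ : Finset ((i : ι) × (G ⧸ K i))} (hσ : (coset K univ).face σ) (hc : σ.card ≤ d + 1) :
    ∃ π ∈ Local.mFaces (chambers K) (d + 1), σ ⊆ π := by
  obtain ⟨τ, hτ, hs⟩ := (face_iff_isFace K σ).1 hσ
  obtain ⟨π, h1, h2, h3⟩ := Finset.exists_subsuperset_card_eq (n := d + 1) hs hc
    (by rw [card_chamber K hτ]; exact hd)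
  exact ⟨π, Local.mem_mFaces.2 ⟨h3, τ, hτ, h2⟩, h1⟩

omit [Fintype G] [∀ i, Fintype (G ⧸ K i)] in
theorem face_single (v : (i : ι) × (G ⧸ K i)) : (coset K univ).face {v} := by
  obtain ⟨i, x⟩ := v
  obtain ⟨g, rfl⟩ := QuotientGroup.mk_surjective x
  refine ⟨g, fun w hw => ?_⟩
  rw [Finset.mem_singleton] at hw
  subst hw
  exact ⟨Finset.mem_univ _, rfl⟩

/-- Connectedness from exactness in size one. -/
theorem connected_of_ex {V : Type} (C : Cplx V) (hC : C.Ex 2) (R : V → V → Prop)
    (hR : ∀ a b σ, C.face σ → σ.card = 2 → a ∈ σ → b ∈ σ → R a b) {u w : V} (hu : C.face {u}) (hw : C.face {w}) :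
    Relation.ReflTransGen R u w := by
  by_contra hne
  set S : V → Prop := fun x => Relation.ReflTransGen R u x with hS
  have huw : u ≠ w := fun h => hne (h ▸ Relation.ReflTransGen.refl)
  set φ : Chain V →ₗ[ZMod 2] ZMod 2 := Finsupp.linearCombination (ZMod 2)
    fun σ : Finset V => if ∃ x, σ = {x} ∧ S x then (1 : ZMod 2) else 0 with hφ
  have hval : ∀ x, φ (Finsupp.single {x} 1) = if S x then (1 : ZMod 2) else 0 := fun x => by
    rw [hφ, Finsupp.linearCombination_single, one_smul]
    exact if_congr ⟨fun ⟨y, hy, hy'⟩ => Finset.singleton_injective hy ▸ hy', fun h => ⟨x, rfl, h⟩⟩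
      rfl rfl
  clear_value φ
  set z : Chain V := Finsupp.single {u} 1 + Finsupp.single {w} 1 with hz
  have hzmem : z ∈ C.chains 1 := Submodule.add_mem _
    (Finsupp.single_mem_supported _ _ ⟨hu, Finset.card_singleton _⟩)
    (Finsupp.single_mem_supported _ _ ⟨hw, Finset.card_singleton _⟩)
  have hcyc : bd z = 0 := by
    simp only [hz, bd, map_add, Finsupp.linearCombination_single, one_smul, Finset.sum_singleton]
    rw [Finset.erase_singleton, Finset.erase_singleton, ← Finsupp.single_add, CharTwo.add_self_eq_zero,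
      Finsupp.single_zero]
  obtain ⟨c, hc, hcz⟩ := hC 1 (by norm_num) z hzmem hcyc
  have h0 : φ (bd c) = 0 := by
    rw [bd, Finsupp.linearCombination_apply, Finsupp.sum, map_sum]
    refine Finset.sum_eq_zero fun σ hσ => ?_
    obtain ⟨hf, hcard⟩ : C.face σ ∧ σ.card = 2 := (Finsupp.mem_supported _ _).1 hc hσ
    obtain ⟨a, b, hab, rfl⟩ := Finset.card_eq_two.1 hcard
    rw [map_smul, map_sum, Finset.sum_pair hab]
    have e1 : ({a, b} : Finset V).erase a = {b} := by
      rw [Finset.erase_insert (by simpa using hab)]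
    have e2 : ({a, b} : Finset V).erase b = {a} := by
      rw [Finset.pair_comm, Finset.erase_insert (by simpa using hab.symm)]
    have hiff : S a ↔ S b :=
      ⟨fun h => h.tail (hR a b _ hf hcard (by simp) (by simp)),
        fun h => h.tail (hR b a _ hf hcard (by simp) (by simp))⟩
    rw [e1, e2, hval, hval]
    simp only [hiff]
    rw [CharTwo.add_self_eq_zero, smul_zero]
  rw [hcz, hz, map_add, hval, hval, if_pos (show S u from Relation.ReflTransGen.refl),
    if_neg (show ¬ S w from hne)] at h0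
  simp at h0

end Vale.Agent.P067.Cob
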