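import Vale.Agent.P067.Cob.Expand
import Vale.Agent.P067.Cob.Gap
import Vale.Agent.P067.Cob.Global
import Vale.Agent.P067.Cob.Skeleton

/-!
Assembly: bounded-degree coboundary expanders in every dimension (owner helper14).
-/

namespace Vale.Agent.P067.Cob

open Finset

open scoped Classical

theorem main (d : ℕ) (hd : 1 ≤ d) : ∃ (D : ℕ) (ε : ℝ), 0 < ε ∧ ∀ M : ℕ,
    ∃ (n : ℕ) (T : Finset (Finset (Fin n))), M ≤ n ∧ (∀ τ ∈ T, τ.card = d + 1) ∧
      (∀ v : Fin n, ∃ τ ∈ T, v ∈ τ) ∧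
      (∀ u v : Fin n, Relation.ReflTransGen (fun a b : Fin n => ∃ τ ∈ T, a ∈ τ ∧ b ∈ τ) u v) ∧
      (∀ v : Fin n, (T.filter fun τ => v ∈ τ).card ≤ D) ∧ IsExpander T d ε := by
  obtain ⟨k₁, hcone⟩ := link_cone d
  obtain ⟨k₂, hex⟩ := Wc_ex (d + 2)
  set k := k₁ + k₂ + d + 3 with hk
  haveI : NeZero k := ⟨by omega⟩
  obtain ⟨N, p₁, hcone'⟩ := hcone k (by omega)
  obtain ⟨p₂, hex'⟩ := hex k (by omega)
  obtain ⟨κ, hκ, hmix⟩ := mixing_of_gaps d k
  obtain ⟨lam0, hlam0, hexp⟩ := isExpander_skeleton.{0, 0} k d N (by omega) hκ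
  obtain ⟨p₃, hgap⟩ := link_gaps d k (by omega) lam0 hlam0
  obtain ⟨p, hp, hprime⟩ := Nat.exists_infinite_primes (p₁ + p₂ + p₃)
  haveI : Fact p.Prime := ⟨hprime⟩
  obtain ⟨ε, hε, hexp'⟩ := hexp (p ^ (k * k))
  refine ⟨2 ^ k * p ^ (k * k), ε, hε, fun M => ?_⟩
  set s := k * k + M + 2 with hs
  haveI : Finite (GG p k s) := finite_GG p k s
  haveI : Fintype (GG p k s) := Fintype.ofFinite _
  haveI : ∀ i, Fintype (GG p k s ⧸ KG p k s i) := fun i => Fintype.ofFinite _
  set K := KG p k s with hK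
  set V := (i : Fin k) × (GG p k s ⧸ K i)
  set T := chambers K with hT
  have hEx : (Wc p k s univ).Ex (d + 2) := hex' p (by omega) s (by omega)
  have hkcard : Fintype.card (Fin k) = k := Fintype.card_fin k
  have hcard : ∀ τ ∈ T, τ.card = k := fun τ hτ => (card_chamber K hτ).trans hkcard
  have hdeg : ∀ σ : Finset V, σ.Nonempty → Local.deg T σ ≤ p ^ (k * k) := fun σ hσ => by
    exact cast (by congr <;> exact Subsingleton.elim _ _) (deg_chambers_le K hσ (card_KG_le p k s))
  have hexpander : IsExpander (skelTops T d) d ε := by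
    refine hexp' V (Fin k) (Wc p k s univ) T (fun v => v.1) (transPerm K).range
      (fun φ => face_iff_isFace K φ) hcard ?_ ?_ ?_ ?_ (fun σ hσ => cast (by congr <;> exact Subsingleton.elim _ _) (hdeg σ hσ)) ?_ ?_
      (fun j hj => hEx j (by omega))
    · intro τ hτ
      obtain ⟨g, rfl⟩ := (mem_chambers K).1 hτ
      exact injOn_fst_cell K g univ
    · rintro γ ⟨g, rfl⟩ v
      rfl
    · rintro γ ⟨g, rfl⟩ τ hτ
      obtain ⟨h, rfl⟩ := (mem_chambers K).1 hτ
      exact (mem_chambers K).2 ⟨g * h, cast (by congr <;> exact Subsingleton.elim _ _) (image_transPerm_cell K g h univ)⟩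
    · intro τ hτ τ' hτ'
      obtain ⟨g, rfl⟩ := (mem_chambers K).1 hτ
      obtain ⟨h, rfl⟩ := (mem_chambers K).1 hτ'
      refine ⟨transPerm K (h * g⁻¹), ⟨_, rfl⟩, ?_⟩
      refine Eq.trans (cast (by congr <;> exact Subsingleton.elim _ _) (image_transPerm_cell K (h * g⁻¹) g univ)) ?_
      rw [inv_mul_cancel_right]
    · intro σ h1 h2 h3
      exact hcone' p (by omega) s (by omega) σ ((face_iff_isFace K σ).2 h3) h1 h2
    · intro m hm
      exact cast (by congr <;> exact Subsingleton.elim _ _)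
        (hmix K lam0 hkcard (by omega) hlam0.le (iInf_KG_univ p k (by omega) s (by omega))
          (hgap p (by omega) s (by omega) fun j hj => hEx j (by omega)) m hm)
  set e := Fintype.equivFin V
  refine ⟨Fintype.card V, skelTops T d, ?_, ?_, ?_, ?_, ?_, hexpander⟩
  · have i₀ : Fin k := 0
    have h1 : Nat.card (GG p k s ⧸ K i₀) ≤ Fintype.card V := by
      rw [Nat.card_eq_fintype_card]
      exact Fintype.card_le_of_injective (fun x => (⟨i₀, x⟩ : V)) fun x y h => by simpa [V] using h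
    have h2 : p ^ (s - 1) ≤ Nat.card (GG p k s) := card_GG_ge p k (by omega) s (by omega)
    have h3 : Nat.card (GG p k s) = Nat.card (GG p k s ⧸ K i₀) * Nat.card (K i₀) :=
      Subgroup.card_eq_card_quotient_mul_card_subgroup _
    have h4 : Nat.card (GG p k s) ≤ Fintype.card V * p ^ (k * k) := by
      rw [h3]; exact Nat.mul_le_mul h1 (card_KG_le p k s i₀)
    have h5 : p ^ (s - 1) = p ^ (M + 1) * p ^ (k * k) := by
      rw [← pow_add]; congr 1; omega
    have h6 : M + 1 < p ^ (M + 1) := Nat.lt_pow_self hprime.one_lt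
    have h7 := Nat.le_of_mul_le_mul_right (h5 ▸ h2.trans h4) (Nat.pow_pos hprime.pos)
    omega
  · intro τ hτ
    obtain ⟨π, hπ, rfl⟩ := Finset.mem_image.1 hτ
    rw [Finset.card_image_of_injective _ (Equiv.injective _)]
    exact (Local.mem_mFaces.1 hπ).1
  · intro v
    obtain ⟨π, hπ, hs⟩ := exists_mFace K (d := d) (by omega) (face_single K (e.symm v)) (by simp)
    replace hπ : π ∈ Local.mFaces T (d + 1) := cast (by congr <;> exact Subsingleton.elim _ _) hπ
    refine ⟨π.image e, Finset.mem_image.2 ⟨π, hπ, rfl⟩, Finset.mem_image.2 ⟨e.symm v, ?_, ?_⟩⟩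
    · exact hs (Finset.mem_singleton_self _)
    · exact e.apply_symm_apply v
  · intro u v
    have h := connected_of_ex (Wc p k s univ) (fun j hj => hEx j (by omega))
      (fun a b : V => ∃ π ∈ Local.mFaces T (d + 1), a ∈ π ∧ b ∈ π) (fun a b σ hσ hc ha hb => ?_)
      (face_single K (e.symm u)) (face_single K (e.symm v))
    · have h' : Relation.ReflTransGen (fun a b => ∃ τ ∈ skelTops T d, a ∈ τ ∧ b ∈ τ)
          (e (e.symm u)) (e (e.symm v)) := h.lift e
        fun a b ⟨π, hπ, ha, hb⟩ => ⟨π.image e, Finset.mem_image.2 ⟨π, hπ, rfl⟩,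
          Finset.mem_image_of_mem _ ha, Finset.mem_image_of_mem _ hb⟩
      rwa [e.apply_symm_apply, e.apply_symm_apply] at h'
    · obtain ⟨π, hπ, hs⟩ := exists_mFace K (d := d) (by omega) hσ (by omega)
      replace hπ : π ∈ Local.mFaces T (d + 1) := cast (by congr <;> exact Subsingleton.elim _ _) hπ
      exact ⟨π, hπ, hs ha, hs hb⟩
  · intro v
    have h1 := deg_skelTops (T := T) d {e.symm v}
    have h2 : (skelTops T d).filter (fun τ => v ∈ τ) =
        (skelTops T d).filter (fun τ => ({e.symm v} : Finset V).image e ⊆ τ) :=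
      Finset.filter_congr fun τ _ => by simp
    rw [h2]
    refine h1.trans_le ?_
    refine le_trans ?_ ((Local.sum_deg_le (T := T) (m := d) hcard {e.symm v}).trans
      (Nat.mul_le_mul_left _ (hdeg _ (Finset.singleton_nonempty _))))
    simp only [Finset.singleton_subset_iff]
    rw [Finset.card_eq_sum_ones]
    refine Finset.sum_le_sum fun π hπ => ?_
    obtain ⟨τ, h2, h3⟩ := (Local.mem_mFaces.1 (Finset.mem_filter.1 hπ).1).2
    exact Finset.card_pos.2 ⟨τ, Finset.mem_filter.2 ⟨h2, h3⟩⟩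

end Vale.Agent.P067.Cob
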