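import Vale.Agent.P067.Cob.Expand

/-! # P067 — basic properties of the skeleton -/

noncomputable section

open Finset
open scoped Classical

namespace Vale.Agent.P067.Cob

open Vale.Agent.P067.Local

variable {V : Type*} [Fintype V] {T : Finset (Finset V)}

/-- The skeleton is pure of dimension `d`. -/
theorem card_skelTops_mem {d : ℕ} {π : Finset (Fin (Fintype.card V))} (hπ : π ∈ skelTops T d) :
    π.card = d + 1 := by
  obtain ⟨σ, hσ, rfl⟩ := Finset.mem_image.1 hπ
  rw [Finset.card_image_of_injective _ (Fintype.equivFin V).injective, (mem_mFaces.1 hσ).1]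

/-- Every vertex lies in a `d`-face. -/
theorem exists_mem_skelTops {k d : ℕ} (hT : ∀ τ ∈ T, τ.card = k) (hd : d + 1 ≤ k)
    (hcov : ∀ v : V, IsFace T {v}) (x : Fin (Fintype.card V)) :
    ∃ π ∈ skelTops T d, x ∈ π := by
  obtain ⟨τ, hτ, hs⟩ := hcov ((Fintype.equivFin V).symm x)
  obtain ⟨π, h1, h2, h3⟩ := Finset.exists_subsuperset_card_eq (n := d + 1) hs (by simp)
    (by rw [hT τ hτ]; omega)
  refine ⟨_, Finset.mem_image_of_mem _ (mem_mFaces.2 ⟨h3, τ, hτ, h2⟩), ?_⟩
  exact Finset.mem_image.2 ⟨_, h1 (Finset.mem_singleton_self _), Equiv.apply_symm_apply _ _⟩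

/-- The vertex degree of the skeleton. -/
theorem degree_skelTops_le {k d Deg : ℕ} (hT : ∀ τ ∈ T, τ.card = k)
    (hDeg : ∀ σ : Finset V, σ.Nonempty → deg T σ ≤ Deg) (x : Fin (Fintype.card V)) :
    ((skelTops T d).filter fun π => x ∈ π).card ≤ 2 ^ k * Deg := by
  set v := (Fintype.equivFin V).symm x
  have h1 : ((skelTops T d).filter fun π => x ∈ π).card
      = ((mFaces T (d + 1)).filter fun π => ({v} : Finset V) ⊆ π).card := by
    rw [← deg_skelTops d {v}]
    congr 1
    refine Finset.filter_congr fun π _ => ?_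
    simp [v]
  rw [h1]
  refine le_trans ?_ ((sum_deg_le (m := d) hT {v}).trans
    (Nat.mul_le_mul le_rfl (hDeg {v} (Finset.singleton_nonempty v))))
  rw [Finset.card_eq_sum_ones]
  refine Finset.sum_le_sum fun π hπ => ?_
  obtain ⟨τ, h1, h2⟩ := (mem_mFaces.1 (Finset.mem_filter.1 hπ).1).2
  exact Finset.card_pos.2 ⟨τ, Finset.mem_filter.2 ⟨h1, h2⟩⟩

end Vale.Agent.P067.Cob
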